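import Vale.Agent.P196.Full.Universal.Family

/-!
# P196: frames of a grid level, their cell permutations, and blocks
-/

namespace Vale.Agent.P196.Full.Kernel

open Set

variable {X : Type} [TopologicalSpace X] {n : ℕ} {S : Sys X}

/-- An amplified point from a base point and a cell. -/
def pt (S : Sys X) (x : X) (a : Off n) : Pt X n := (S.sh a.1 x, a.2)

@[simp] theorem pt_snd (x : X) (a : Off n) : (pt S x a).2 = a.2 := rfl

theorem pt_sh (x : X) (w : Lat) (a : Off n) :
    pt S (S.sh w x) a = pt S x (a.1 + w, a.2) := by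
  simp [pt, S.sh_sh]

/-- A cell of a box, as an offset. -/
def lat {L : Finset Lat} (a : ↥L × Fin n) : Off n := ((a.1 : Lat), a.2)

theorem lat_injective {L : Finset Lat} : Function.Injective (lat (n := n) (L := L)) := by
  intro a b e
  simp only [lat, Prod.mk.injEq] at e
  exact Prod.ext (Subtype.ext e.1) e.2

variable (T : Tower S) (m : ℕ)

/-- The phases of level `m`. -/
abbrev Ph : Type := ZMod (T.W m) × ZMod (T.W m)

/-- The residue of a lattice vector. -/
def res (v : Lat) : Ph T m := ((v.1 : ZMod (T.W m)), (v.2 : ZMod (T.W m)))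

theorem res_add (u v : Lat) : res T m (u + v) = res T m u + res T m v := by
  simp [res]

/-- The corners of the grid. -/
def base : Clo X := ⟨{x | T.phase m x = 0}, T.isClopen_fiber m 0⟩

theorem mem_base {x : X} : x ∈ base T m ↔ T.phase m x = 0 := Iff.rfl

/-- The box has at most one cell of each phase. -/
def InjMod (L : Finset Lat) : Prop := Set.InjOn (res T m) (L : Set Lat)

variable {T m}

theorem InjMod.mono {L L' : Finset Lat} (h : InjMod T m L) (hL : L' ⊆ L) : InjMod T m L' :=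
  Set.InjOn.mono (fun _ hx => hL hx) h

theorem phase_pt {x : X} (hx : x ∈ base T m) (a : Off n) :
    T.phase m (pt S x a).1 = res T m a.1 := by
  show T.phase m (S.sh a.1 x) = _
  rw [T.phase_sh, (mem_base T m).1 hx, zero_add]
  rfl

theorem phase_translate_base {v : Lat} {y : X} (h : y ∈ S.translate v (base T m : Set X)) :
    T.phase m y = res T m v := by
  have := phase_pt (n := 1) (T := T) (m := m) (x := S.sh (-v) y) h (v, 0)
  simpa [pt, S.sh_sh, S.sh_zero] using this

theorem InjMod.sep {L : Finset Lat} (h : InjMod T m L) : S.SepV (base T m : Set X) L :=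
  fun _ hu _ hv huv => Set.disjoint_left.2 fun _ h1 h2 =>
    huv (h hu hv ((phase_translate_base h1).symm.trans (phase_translate_base h2)))

theorem pt_inj {L : Finset Lat} (h : InjMod T m L) {x y : X} (hx : x ∈ base T m)
    (hy : y ∈ base T m) {a b : ↥L × Fin n} (e : pt S x (lat a) = pt S y (lat b)) :
    x = y ∧ a = b := by
  have e1 := congrArg (fun z : Pt X n => T.phase m z.1) e
  simp only [phase_pt hx, phase_pt hy] at e1
  have hab : (a.1 : Lat) = b.1 := h a.1.2 b.1.2 e1
  have e2 : a.2 = b.2 := congrArg (fun z : Pt X n => z.2) e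
  refine ⟨?_, Prod.ext (Subtype.ext hab) e2⟩
  have e3 : S.sh (a.1 : Lat) x = S.sh (b.1 : Lat) y := congrArg Prod.fst e
  rw [← hab] at e3
  exact (S.sh _).injective e3

theorem mem_frameRegion_pt {L : Finset Lat} {x : X} (hx : x ∈ base T m) (a : ↥L × Fin n) :
    pt S x (lat a) ∈ frameRegion S (base T m : Set X) L :=
  ⟨a.1, a.1.2, by show S.sh (-(a.1 : Lat)) (S.sh (a.1 : Lat) x) ∈ _; rw [S.sh_neg_cancel]; exact hx⟩

theorem exists_pt {L : Finset Lat} {z : Pt X n} (hz : z ∈ frameRegion S (base T m : Set X) L) :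
    ∃ x ∈ base T m, ∃ a : ↥L × Fin n, z = pt S x (lat a) := by
  obtain ⟨v, hv, hx⟩ := hz
  exact ⟨_, hx, (⟨v, hv⟩, z.2), by simp [pt, lat, S.sh_sh, S.sh_zero]⟩

variable (T m) in
/-- The subgroup of a box of level `m`. -/
abbrev Fr (L : Finset Lat) : Subgroup (UGroup S n) := frameSubLe S (base T m : Set X) L

theorem Fr_mono {L L' : Finset Lat} (h : L ⊆ L') : Fr T m L (n := n) ≤ Fr T m L' :=
  frameSubLe_mono le_rfl h

/-- A permutation of the amplified points acts on the box at `x` by a cell permutation. -/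
def Reads (S : Sys X) {L : Finset Lat} (g : Equiv.Perm (Pt X n)) (x : X)
    (σ : Equiv.Perm (↥L × Fin n)) : Prop :=
  ∀ a, g (pt S x (lat a)) = pt S x (lat (σ a))

theorem Reads.unique {L : Finset Lat} (h : InjMod T m L) {g : Equiv.Perm (Pt X n)} {x : X}
    (hx : x ∈ base T m) {σ τ : Equiv.Perm (↥L × Fin n)} (h1 : Reads S g x σ) (h2 : Reads S g x τ) :
    σ = τ :=
  Equiv.ext fun a => (pt_inj h hx hx ((h1 a).symm.trans (h2 a))).2

theorem exists_reads {L : Finset Lat} (h : InjMod T m L) {u : UGroup S n} (hu : u ∈ Fr T m L) :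
    ∃ φ : X → Equiv.Perm (↥L × Fin n), IsLocallyConstant φ ∧
      ∀ x ∈ base T m, Reads S (ueval S u) x (φ x) ∧ Equiv.Perm.sign (φ x) = 1 := by
  classical
  induction hu using Subgroup.closure_induction with
  | one =>
    exact ⟨fun _ => 1, IsLocallyConstant.const _, fun x _ => ⟨fun a => by simp, map_one _⟩⟩
  | mul u v _ _ hu hv =>
    obtain ⟨φ, hφ, h1⟩ := hu
    obtain ⟨ψ, hψ, h2⟩ := hv
    refine ⟨fun x => φ x * ψ x, hφ.comp₂ hψ (· * ·), fun x hx => ⟨fun a => ?_, ?_⟩⟩
    · rw [map_mul, Equiv.Perm.mul_apply, (h2 x hx).1 a, (h1 x hx).1]; rfl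
    · rw [map_mul, (h1 x hx).2, (h2 x hx).2, one_mul]
  | inv u _ hu =>
    obtain ⟨φ, hφ, h1⟩ := hu
    refine ⟨fun x => (φ x)⁻¹, hφ.comp (·⁻¹), fun x hx => ⟨fun a => ?_, ?_⟩⟩
    · rw [map_inv, Equiv.Perm.inv_eq_iff_eq, (h1 x hx).1]
      simp
    · rw [Equiv.Perm.sign_inv, (h1 x hx).2]
  | mem u hu =>
    obtain ⟨g, ⟨hU, hp, hq, hr⟩, rfl⟩ := hu
    set p : ↥L × Fin n := (⟨g.p.1, hp⟩, g.p.2)
    set q : ↥L × Fin n := (⟨g.q.1, hq⟩, g.q.2)
    set r : ↥L × Fin n := (⟨g.r.1, hr⟩, g.r.2)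
    have hsep : S.SepV (g.U : Set X) L := h.sep.mono hU le_rfl
    have e := perm_eq_framePerm hsep p q r g rfl rfl rfl rfl
    refine ⟨fun x => if x ∈ g.U then cyc3 p q r else 1, ?_, fun x hx => ⟨fun a => ?_, ?_⟩⟩
    · refine (IsLocallyConstant.iff_exists_open _).2 fun x => ?_
      by_cases hxU : x ∈ g.U
      · exact ⟨g.U, g.U.isClopen.isOpen, hxU, fun y hy => by rw [if_pos hxU, if_pos]; exact hy⟩
      · exact ⟨(g.U : Set X)ᶜ, g.U.isClopen.compl.isOpen, hxU, fun y hy => by
          rw [if_neg hxU, if_neg]; exact hy⟩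
    · rw [ueval_ugen, e]
      by_cases hxU : x ∈ g.U
      · simp only [if_pos hxU]
        exact framePerm_apply hsep _ a ⟨x, hxU⟩
      · simp only [if_neg hxU, Equiv.Perm.one_apply]
        rw [framePerm_apply_of_notMem]
        rintro ⟨v, hv, hvU⟩
        obtain ⟨hxy, -⟩ := pt_inj (n := n) h hx (hU hvU) (a := a) (b := (⟨v, hv⟩, a.2))
          (by simp [pt, lat, S.sh_sh])
        exact hxU (by rw [hxy]; exact hvU)
    · show Equiv.Perm.sign (if x ∈ g.U then cyc3 p q r else 1) = 1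
      split
      · have t1 : p ≠ q := fun e => g.tri.1 (congrArg (fun t : ↥L × Fin n => t.2) e)
        have t2 : q ≠ r := fun e => g.tri.2.1 (congrArg (fun t : ↥L × Fin n => t.2) e)
        rw [cyc3, map_mul, Equiv.Perm.sign_swap t1, Equiv.Perm.sign_swap t2]
        rfl
      · exact map_one _

variable (T m) in
open Classical in
/-- The cell permutation of an element at a corner. -/
noncomputable def cp (L : Finset Lat) (u : UGroup S n) (x : X) : Equiv.Perm (↥L × Fin n) :=
  if h : x ∈ base T m ∧ ∃ σ, Reads S (ueval S u) x σ then h.2.choose else 1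

section cp

variable {L : Finset Lat} {u v : UGroup S n} {x : X}

theorem cp_eq (h : InjMod T m L) (hx : x ∈ base T m) {σ : Equiv.Perm (↥L × Fin n)}
    (hσ : Reads S (ueval S u) x σ) : cp T m L u x = σ := by
  classical
  rw [cp, dif_pos ⟨hx, σ, hσ⟩]
  exact Reads.unique h hx (Exists.choose_spec _) hσ

theorem reads_cp (h : InjMod T m L) (hu : u ∈ Fr T m L) (hx : x ∈ base T m) :
    Reads S (ueval S u) x (cp T m L u x) := by
  obtain ⟨φ, -, hφ⟩ := exists_reads h hu
  rw [cp_eq h hx (hφ x hx).1]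
  exact (hφ x hx).1

theorem sign_cp (h : InjMod T m L) (hu : u ∈ Fr T m L) :
    Equiv.Perm.sign (cp T m L u x) = 1 := by
  classical
  by_cases hx : x ∈ base T m
  · obtain ⟨φ, -, hφ⟩ := exists_reads h hu
    rw [cp_eq h hx (hφ x hx).1]
    exact (hφ x hx).2
  · rw [cp, dif_neg fun e => hx e.1, map_one]

theorem cp_mul (h : InjMod T m L) (hu : u ∈ Fr T m L) (hv : v ∈ Fr T m L) :
    cp T m L (u * v) x = cp T m L u x * cp T m L v x := by
  classical
  by_cases hx : x ∈ base T m
  · refine cp_eq h hx fun a => ?_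
    rw [map_mul, Equiv.Perm.mul_apply, reads_cp h hv hx a, reads_cp h hu hx]
    rfl
  · have hc : ∀ w : UGroup S n, cp T m L w x = 1 := fun w => by rw [cp, dif_neg fun e => hx e.1]
    rw [hc, hc, hc, one_mul]

theorem cp_inv (h : InjMod T m L) (hu : u ∈ Fr T m L) :
    cp T m L u⁻¹ x = (cp T m L u x)⁻¹ := by
  refine eq_inv_of_mul_eq_one_left ?_
  rw [← cp_mul h (inv_mem hu) hu, inv_mul_cancel]
  classical
  by_cases hx : x ∈ base T m
  · exact cp_eq h hx fun a => by simp
  · rw [cp, dif_neg fun e => hx e.1]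

theorem isLocallyConstant_cp (h : InjMod T m L) (hu : u ∈ Fr T m L) :
    IsLocallyConstant (cp T m L u) := by
  classical
  obtain ⟨φ, hl, hφ⟩ := exists_reads h hu
  refine (IsLocallyConstant.iff_exists_open _).2 fun x => ?_
  by_cases hx : x ∈ base T m
  · obtain ⟨U, hU, hxU, hc⟩ := hl.exists_open x
    exact ⟨U ∩ base T m, hU.inter (base T m).isClopen.isOpen, ⟨hxU, hx⟩, fun y hy => by
      rw [cp_eq h hx (hφ x hx).1, cp_eq h hy.2 (hφ y hy.2).1, hc y hy.1]⟩
  · exact ⟨(base T m : Set X)ᶜ, (base T m).isClopen.compl.isOpen, hx, fun y hy => by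
      simp only [cp]; rw [dif_neg fun e => hy e.1, dif_neg fun e => hx e.1]⟩

theorem Fr_ext (h : InjMod T m L) (hu : u ∈ Fr T m L) (hv : v ∈ Fr T m L)
    (he : ∀ x ∈ base T m, cp T m L u x = cp T m L v x) : u = v := by
  refine mul_inv_eq_one.1 (frameSubLe_eq_one h.sep (mul_mem hu (inv_mem hv)) (Equiv.ext fun z => ?_))
  rw [map_mul, map_inv, Equiv.Perm.mul_apply, Equiv.Perm.one_apply]
  by_cases hz : z ∈ frameRegion S (base T m : Set X) L
  · obtain ⟨y, hy, a, rfl⟩ := exists_pt hz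
    have e : (ueval S v)⁻¹ (pt S y (lat a)) = pt S y (lat ((cp T m L v y)⁻¹ a)) := by
      rw [Equiv.Perm.inv_eq_iff_eq, reads_cp h hv hy]
      simp
    rw [e, reads_cp h hu hy, he y hy]
    simp
  · rw [Equiv.Perm.inv_eq_iff_eq.2 (ueval_frameSubLe_fix hv hz).symm, ueval_frameSubLe_fix hu hz]

theorem Fr_ext_ueval (h : InjMod T m L) (hu : u ∈ Fr T m L) (hv : v ∈ Fr T m L)
    (he : ueval S u = ueval S v) : u = v :=
  mul_inv_eq_one.1 (frameSubLe_eq_one h.sep (mul_mem hu (inv_mem hv))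
    (by rw [map_mul, map_inv, he, mul_inv_cancel]))

end cp

/-- Every locally constant family of even cell permutations supported in a smaller box is realised
there. -/
theorem realise {L' L : Finset Lat} (hn : 4 ≤ n) (h : InjMod T m L) (hL : L' ⊆ L)
    (σ : X → Equiv.Perm (↥L × Fin n)) (hσ : IsLocallyConstant σ)
    (hsupp : ∀ x ∈ base T m, ∀ a : ↥L × Fin n, (a.1 : Lat) ∉ L' → σ x a = a)
    (hsign : ∀ x ∈ base T m, Equiv.Perm.sign (σ x) = 1) :
    ∃ u ∈ Fr T m L', ∀ x ∈ base T m, cp T m L u x = σ x := by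
  classical
  let e : ↥L' × Fin n ≃ {a : ↥L × Fin n // (a.1 : Lat) ∈ L'} :=
    { toFun := fun a => ⟨(⟨a.1, hL a.1.2⟩, a.2), a.1.2⟩
      invFun := fun a => (⟨a.1.1, a.2⟩, a.1.2)
      left_inv := fun _ => rfl
      right_inv := fun _ => rfl }
  let F : Equiv.Perm (↥L × Fin n) → alternatingGroup (↥L' × Fin n) := fun π =>
    if hπ : ∃ ρ : Equiv.Perm (↥L' × Fin n), ρ.extendDomain e = π ∧ Equiv.Perm.sign ρ = 1
    then ⟨hπ.choose, Equiv.Perm.mem_alternatingGroup.2 hπ.choose_spec.2⟩ else 1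
  obtain ⟨u, hu, hin, hout⟩ := exists_family (h.mono hL).sep hn (hσ.comp F)
  refine ⟨u, hu, fun x hx => cp_eq h hx fun a => ?_⟩
  have hinv : ∀ a : ↥L × Fin n, (a.1 : Lat) ∈ L' ↔ ((σ x a).1 : Lat) ∈ L' := fun a =>
    ⟨fun ha => by
      by_contra hc
      exact hc (by rw [(σ x).injective (hsupp x hx _ hc)]; exact ha),
    fun ha => by
      by_contra hc
      rw [hsupp x hx a hc] at ha
      exact hc ha⟩
  set ρ : Equiv.Perm (↥L' × Fin n) := e.symm.permCongr ((σ x).subtypePerm fun a => (hinv a).symm)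
  have hρ : ρ.extendDomain e = σ x := by
    refine Equiv.ext fun b => ?_
    by_cases hb : (b.1 : Lat) ∈ L'
    · rw [Equiv.Perm.extendDomain_apply_subtype ρ e hb]
      simp [ρ]
    · rw [Equiv.Perm.extendDomain_apply_not_subtype ρ e hb, hsupp x hx b hb]
  have hex : ∃ τ : Equiv.Perm (↥L' × Fin n), τ.extendDomain e = σ x ∧ Equiv.Perm.sign τ = 1 := by
    refine ⟨ρ, hρ, ?_⟩
    rw [← Equiv.Perm.sign_extendDomain ρ e, hρ, hsign x hx]
  by_cases ha : (a.1 : Lat) ∈ L'
  · have e1 := hin x hx (⟨a.1, ha⟩, a.2)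
    simp only [Function.comp_apply, F, dif_pos hex] at e1
    have e2 : σ x a = (e (hex.choose (⟨a.1, ha⟩, a.2)) : ↥L × Fin n) := by
      conv_lhs => rw [← hex.choose_spec.1]
      rw [Equiv.Perm.extendDomain_apply_subtype _ e ha]
      rfl
    rw [e2]
    exact e1
  · rw [hsupp x hx a ha]
    refine hout _ fun hr => ha ?_
    obtain ⟨y, hy, b, hb⟩ := exists_pt hr
    obtain ⟨-, hab⟩ := pt_inj h hx hy (b := (⟨b.1, hL b.1.2⟩, b.2)) hb
    rw [hab]; exact b.1.2

/-! ### Moved phases -/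

variable (T m) in
/-- The element moves only amplified points with phase and colour in `P`. -/
def MovesIn (u : UGroup S n) (P : Ph T m → Fin n → Prop) : Prop :=
  ∀ z : Pt X n, ¬ P (T.phase m z.1) z.2 → ueval S u z = z

theorem MovesIn.mono {u : UGroup S n} {P Q : Ph T m → Fin n → Prop} (h : MovesIn T m u P)
    (hPQ : ∀ c i, P c i → Q c i) : MovesIn T m u Q :=
  fun z hz => h z fun e => hz (hPQ _ _ e)

theorem MovesIn.one {P : Ph T m → Fin n → Prop} : MovesIn T m (1 : UGroup S n) P :=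
  fun z _ => by simp

theorem MovesIn.mul {u v : UGroup S n} {P : Ph T m → Fin n → Prop} (hu : MovesIn T m u P)
    (hv : MovesIn T m v P) : MovesIn T m (u * v) P := fun z hz => by
  rw [map_mul, Equiv.Perm.mul_apply, hv z hz, hu z hz]

theorem MovesIn.inv {u : UGroup S n} {P : Ph T m → Fin n → Prop} (hu : MovesIn T m u P) :
    MovesIn T m u⁻¹ P := fun z hz => by
  rw [map_inv, Equiv.Perm.inv_eq_iff_eq]
  exact (hu z hz).symm

theorem movesIn_of_cp {L : Finset Lat} (h : InjMod T m L) {u : UGroup S n} (hu : u ∈ Fr T m L)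
    {P : Ph T m → Fin n → Prop}
    (hP : ∀ x ∈ base T m, ∀ a : ↥L × Fin n, ¬ P (res T m a.1) a.2 → cp T m L u x a = a) :
    MovesIn T m u P := fun z hz => by
  by_cases hr : z ∈ frameRegion S (base T m : Set X) L
  · obtain ⟨x, hx, a, rfl⟩ := exists_pt hr
    rw [phase_pt hx, pt_snd] at hz
    rw [reads_cp h hu hx, hP x hx a hz]
  · exact ueval_frameSubLe_fix hu hr

theorem cp_fix {L : Finset Lat} (h : InjMod T m L) {u : UGroup S n} (hu : u ∈ Fr T m L)
    {P : Ph T m → Fin n → Prop} (hP : MovesIn T m u P) {x : X} (hx : x ∈ base T m)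
    {a : ↥L × Fin n} (ha : ¬ P (res T m a.1) a.2) : cp T m L u x a = a := by
  refine (pt_inj h hx hx ?_).2
  rw [← reads_cp h hu hx, hP]
  rw [phase_pt hx, pt_snd]
  exact ha

/-- Elements with disjoint moved phases commute, one of them lying in a frame. -/
theorem commute_of_moves {L : Finset Lat} (h : InjMod T m L) {u v : UGroup S n}
    (hu : u ∈ Fr T m L) {P Q : Ph T m → Fin n → Prop} (hP : MovesIn T m u P)
    (hQ : MovesIn T m v Q) (hd : ∀ c i, P c i → ¬ Q c i) : Commute u v :=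
  commute_of_moved T h.sep hu fun z => by
    by_cases hz : P (T.phase m z.1) z.2
    · exact Or.inr (hQ z (hd _ _ hz))
    · exact Or.inl (hP z hz)

/-! ### Translations by the grid -/

variable (T m) in
/-- A vector of the grid. -/
def gvec (k : Lat) : Lat := ((T.W m : ℤ) * k.1, (T.W m : ℤ) * k.2)

theorem res_gvec (k : Lat) : res T m (gvec T m k) = 0 := by
  simp [res, gvec]

theorem sh_gvec_mem (k : Lat) {x : X} (hx : x ∈ base T m) : S.sh (gvec T m k) x ∈ base T m := by
  rw [mem_base]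
  have := phase_pt (n := 1) hx (gvec T m k, 0)
  rw [res_gvec] at this
  exact this

theorem translate_base (k : Lat) :
    S.translate (gvec T m k) (base T m : Set X) = (base T m : Set X) := by
  ext y
  refine ⟨fun hy => ?_, fun hy => ?_⟩
  · show y ∈ base T m
    rw [mem_base, phase_translate_base hy, res_gvec]
  · have : -gvec T m k = gvec T m (-k) := by simp [gvec]
    show S.sh (-gvec T m k) y ∈ base T m
    rw [this]
    exact sh_gvec_mem _ hy

theorem Fr_shift (L : Finset Lat) (k : Lat) :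
    Fr T m (L.image fun a => a - gvec T m k) (n := n) = Fr T m L := by
  have := frameSubLe_shift (S := S) (n := n) (base T m : Set X) L (gvec T m k)
  rwa [translate_base] at this

/-! ### Blocks -/

theorem Tower.free (T : Tower S) {v : Lat} {x : X} (h : S.sh v x = x) : v = 0 := by
  obtain ⟨m, hm⟩ := T.W_unbounded (v.1.natAbs + v.2.natAbs + 1)
  have e := T.phase_sh m v x
  rw [h, left_eq_add, Prod.mk_eq_zero, ZMod.intCast_zmod_eq_zero_iff_dvd,
    ZMod.intCast_zmod_eq_zero_iff_dvd] at e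
  refine Prod.ext (Int.eq_zero_of_abs_lt_dvd e.1 ?_) (Int.eq_zero_of_abs_lt_dvd e.2 ?_) <;>
    (rw [Int.abs_eq_natAbs]; omega)

variable (T m) in
/-- The block of a cell. -/
def quo (a : Lat) : Lat := (a.1 / (T.W m : ℤ), a.2 / (T.W m : ℤ))

variable (T m) in
/-- The corner of the block of a point. -/
def blk (y : X) : X :=
  S.sh (-(((T.phase m y).1.val : ℤ), ((T.phase m y).2.val : ℤ))) y

theorem blk_pt {x : X} (hx : x ∈ base T m) (a : Off n) :
    blk T m (pt S x a).1 = S.sh (gvec T m (quo T m a.1)) x := by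
  have : NeZero (T.W m) := ⟨(T.W_pos m).ne'⟩
  simp only [blk, phase_pt hx, res, ZMod.val_intCast]
  show S.sh _ (S.sh a.1 x) = _
  rw [S.sh_sh]
  congr 2
  have h1 := Int.mul_ediv_add_emod a.1.1 (T.W m : ℤ)
  have h2 := Int.mul_ediv_add_emod a.1.2 (T.W m : ℤ)
  refine Prod.ext ?_ ?_ <;> simp only [Prod.fst_add, Prod.snd_add, Prod.fst_neg, Prod.snd_neg,
    gvec, quo] <;> omega

theorem blk_pt_eq_iff {x : X} (hx : x ∈ base T m) (a b : Off n) :
    blk T m (pt S x a).1 = blk T m (pt S x b).1 ↔ quo T m a.1 = quo T m b.1 := by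
  refine ⟨fun e => ?_, fun e => by rw [blk_pt hx, blk_pt hx, e]⟩
  rw [blk_pt hx, blk_pt hx] at e
  have h : S.sh (gvec T m (quo T m a.1) - gvec T m (quo T m b.1))
      (S.sh (gvec T m (quo T m b.1)) x) = S.sh (gvec T m (quo T m b.1)) x := by
    rw [S.sh_sh, sub_add_cancel, e]
  have h0 := Tower.free T h
  have hW : (T.W m : ℤ) ≠ 0 := by exact_mod_cast (T.W_pos m).ne'
  simp only [gvec, sub_eq_zero, Prod.mk.injEq] at h0
  exact Prod.ext (mul_left_cancel₀ hW h0.1) (mul_left_cancel₀ hW h0.2)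

variable (T m) in
/-- The element maps every amplified point into its own block. -/
def BlockPreserving (u : UGroup S n) : Prop :=
  ∀ z : Pt X n, blk T m (ueval S u z).1 = blk T m z.1

theorem BlockPreserving.mul {u v : UGroup S n} (hu : BlockPreserving T m u)
    (hv : BlockPreserving T m v) : BlockPreserving T m (u * v) := fun z => by
  rw [map_mul, Equiv.Perm.mul_apply, hu, hv]

theorem BlockPreserving.inv {u : UGroup S n} (hu : BlockPreserving T m u) :
    BlockPreserving T m u⁻¹ := fun z => by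
  have := hu (ueval S u⁻¹ z)
  rw [← Equiv.Perm.mul_apply, ← map_mul, mul_inv_cancel, map_one] at this
  exact this.symm

variable (T m) in
/-- The fundamental box. -/
noncomputable def face : Finset Lat := Finset.Ico (0 : ℤ) (T.W m) ×ˢ Finset.Ico (0 : ℤ) (T.W m)

theorem injMod_face : InjMod T m (face T m) := by
  intro a ha b hb e
  simp only [face, Finset.coe_product, Finset.coe_Ico, Set.mem_prod, Set.mem_Ico] at ha hb
  simp only [res, Prod.mk.injEq, ZMod.intCast_eq_intCast_iff_dvd_sub] at e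
  have h1 := Int.eq_zero_of_abs_lt_dvd e.1 (by rw [abs_lt]; omega)
  have h2 := Int.eq_zero_of_abs_lt_dvd e.2 (by rw [abs_lt]; omega)
  exact Prod.ext (by omega) (by omega)

theorem quo_face {a : Lat} (ha : a ∈ face T m) : quo T m a = 0 := by
  simp only [face, Finset.mem_product, Finset.mem_Ico] at ha
  exact Prod.ext (Int.ediv_eq_zero_of_lt ha.1.1 ha.1.2) (Int.ediv_eq_zero_of_lt ha.2.1 ha.2.2)

theorem blockPreserving_face {u : UGroup S n} (hu : u ∈ Fr T m (face T m)) :
    BlockPreserving T m u := fun z => by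
  by_cases hr : z ∈ frameRegion S (base T m : Set X) (face T m)
  · obtain ⟨x, hx, a, rfl⟩ := exists_pt hr
    rw [reads_cp injMod_face hu hx]
    exact (blk_pt_eq_iff hx _ _).2
      ((quo_face ((cp T m (face T m) u x a).1).2).trans (quo_face a.1.2).symm)
  · rw [ueval_frameSubLe_fix hu hr]

end Vale.Agent.P196.Full.Kernel
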