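import Vale.Agent.P196.Full.Universal.Kernel.Geo

/-!
# P196: the cells of a strip and the slot swaps
-/

namespace Vale.Agent.P196.Full.Kernel

variable {X : Type} [TopologicalSpace X] {n : ℕ} {S : Sys X}

/-- The colours in use. -/
def col (hn : 8 ≤ n) (k : Fin 8) : Fin n := Fin.castLE hn k

theorem col_injective (hn : 8 ≤ n) : Function.Injective (col hn) := Fin.castLE_injective hn

theorem col_eq_iff (hn : 8 ≤ n) {k l : Fin 8} : col hn k = col hn l ↔ k = l :=
  (col_injective hn).eq_iff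

/-- The coordinate along an axis. -/
def lal (ax : Bool) (v : Lat) : ℤ := if ax then v.2 else v.1

/-- The coordinate across an axis. -/
def lcr (ax : Bool) (v : Lat) : ℤ := if ax then v.1 else v.2

@[simp] theorem lal_axisVec (ax : Bool) (a b : ℤ) : lal ax (axisVec ax a b) = a := by
  cases ax <;> rfl

@[simp] theorem lcr_axisVec (ax : Bool) (a b : ℤ) : lcr ax (axisVec ax a b) = b := by
  cases ax <;> rfl

theorem axisVec_lal (ax : Bool) (v : Lat) : axisVec ax (lal ax v) (lcr ax v) = v := by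
  cases ax <;> rfl

variable {T : Tower S} {m : ℕ} {ax : Bool} {B : ℕ}

variable (T m ax B n) in
/-- A cell of a strip. -/
abbrev Cell : Type := ↥(strip T m ax B) × Fin n

/-- The coordinate of a cell along the strip. -/
def al (z : Cell n T m ax B) : ℤ := lal ax (z.1 : Lat)

/-- The coordinate of a cell across the strip. -/
def cr (z : Cell n T m ax B) : ℤ := lcr ax (z.1 : Lat)

theorem cell_bounds (z : Cell n T m ax B) :
    (0 ≤ al z ∧ al z < T.W m) ∧ -(B : ℤ) ≤ cr z ∧ cr z < B := by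
  obtain ⟨a, b, h, h'⟩ := exists_axisVec z.1.2
  simpa [al, cr, h] using h'

theorem cell_ext {z w : Cell n T m ax B} (h1 : al z = al w) (h2 : cr z = cr w) (h3 : z.2 = w.2) :
    z = w := by
  refine Prod.ext (Subtype.ext ?_) h3
  rw [← axisVec_lal ax (z.1 : Lat), ← axisVec_lal ax (w.1 : Lat)]
  exact congrArg₂ (axisVec ax) h1 h2

/-- The cell with given coordinates. -/
def mkCell (i r : ℤ) (c : Fin n) (h : (0 ≤ i ∧ i < T.W m) ∧ -(B : ℤ) ≤ r ∧ r < B) :
    Cell n T m ax B :=
  (⟨axisVec ax i r, mem_strip.2 h⟩, c)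

section mkCell

variable {i r : ℤ} {c : Fin n} {h : (0 ≤ i ∧ i < T.W m) ∧ -(B : ℤ) ≤ r ∧ r < B}

@[simp] theorem al_mkCell : al (mkCell (ax := ax) i r c h) = i := lal_axisVec ax i r

@[simp] theorem cr_mkCell : cr (mkCell (ax := ax) i r c h) = r := lcr_axisVec ax i r

@[simp] theorem snd_mkCell : (mkCell (ax := ax) i r c h).2 = c := rfl

end mkCell

theorem lat_cell (z : Cell n T m ax B) : lat z = (axisVec ax (al z) (cr z), z.2) := by
  simp only [lat, al, cr, axisVec_lal]

/-- The upper side. -/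
def Up (z : Cell n T m ax B) : Prop := 0 ≤ cr z

instance : DecidablePred (Up (n := n) (T := T) (m := m) (ax := ax) (B := B)) :=
  fun z => inferInstanceAs (Decidable (0 ≤ cr z))

theorem phase_cell (z : Cell n T m ax B) :
    alg T m ax (res T m (z.1 : Lat)) = (al z : ZMod (T.W m)) ∧
      crs T m ax (res T m (z.1 : Lat)) = (cr z : ZMod (T.W m)) := by
  have e : (z.1 : Lat) = axisVec ax (al z) (cr z) := (axisVec_lal ax _).symm
  refine ⟨?_, ?_⟩ <;> conv_lhs => rw [e]
  · exact alg_axisVec ..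
  · exact crs_axisVec ..

theorem hd_crs_cell (hB : 2 * B ≤ T.W m) (z : Cell n T m ax B) :
    hd (crs T m ax (res T m (z.1 : Lat))) = hdi (cr z) := by
  have : NeZero (T.W m) := ⟨(T.W_pos m).ne'⟩
  rw [(phase_cell z).2]
  exact hd_cast_of_lt hB (cell_bounds z).2.1 (cell_bounds z).2.2

theorem hd_alg_cell (z : Cell n T m ax B) :
    hd (alg T m ax (res T m (z.1 : Lat))) = min (al z).toNat (T.W m - 1 - (al z).toNat) := by
  have : NeZero (T.W m) := ⟨(T.W_pos m).ne'⟩
  obtain ⟨⟨h1, h2⟩, -⟩ := cell_bounds z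
  rw [(phase_cell z).1, hd]
  have : ((al z : ZMod (T.W m))).val = (al z).toNat := by
    have e := ZMod.val_intCast (n := T.W m) (al z)
    rw [Int.emod_eq_of_lt h1 h2] at e
    omega
  rw [this]

theorem quo_cell (hB : B ≤ T.W m) (z : Cell n T m ax B) :
    quo T m (z.1 : Lat) = axisVec ax 0 (if Up z then 0 else -1) := by
  obtain ⟨⟨h1, h2⟩, h3, h4⟩ := cell_bounds z
  have e0 : al z / (T.W m : ℤ) = 0 := Int.ediv_eq_zero_of_lt h1 h2
  have e1 : cr z / (T.W m : ℤ) = if Up z then 0 else -1 := by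
    split_ifs with hu
    · exact Int.ediv_eq_zero_of_lt hu (by omega)
    · have h0 : cr z < 0 := not_le.1 hu
      exact Int.ediv_eq_neg_one_of_neg_of_le h0 (by omega)
  rw [← e1, ← e0]
  conv_lhs => rw [← axisVec_lal ax (z.1 : Lat)]
  cases ax <;> rfl

theorem blk_cell_eq_iff (hB : B ≤ T.W m) {x : X} (hx : x ∈ base T m) (z : Cell n T m ax B) :
    blk T m (pt S x (lat z)).1 = x ↔ Up z := by
  rw [blk_pt hx, show (lat z).1 = (z.1 : Lat) from rfl, quo_cell hB]
  refine ⟨fun e => ?_, fun hu => ?_⟩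
  · by_contra hu
    have h0 := Tower.free T e
    rw [if_neg hu] at h0
    have hW := T.W_pos m
    cases ax <;> simp [gvec, axisVec] at h0 <;> omega
  · rw [if_pos hu]
    cases ax <;> simp [gvec, axisVec, ← Prod.zero_eq_mk, S.sh_zero]

variable (T m) in
open Classical in
/-- Whether the image of the cell `v` at the corner `x` is in the block of `x`. -/
noncomputable def upI (u : UGroup S n) (x : X) (v : Off n) : ℤ :=
  if blk T m (ueval S u (pt S x v)).1 = x then 1 else 0

theorem upI_cell (h : 2 * B ≤ T.W m) {u : UGroup S n} (hu : u ∈ Fr T m (strip T m ax B)) {x : X}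
    (hx : x ∈ base T m) (z : Cell n T m ax B) :
    upI T m u x (lat z) = if Up (cp T m (strip T m ax B) u x z) then 1 else 0 := by
  classical
  rw [upI, reads_cp (injMod_strip h) hu hx z]
  exact if_congr (blk_cell_eq_iff (by omega) hx _) rfl rfl

/-! ### Slots -/

/-- The positions of the near slots: two runs, above and below. -/
def Sl (b : ℕ) (o κ : ℕ × ℕ) (i r : ℤ) : Prop :=
  (r = b ∧ 2 * (b : ℤ) + o.1 ≤ i ∧ i < 2 * b + o.1 + κ.1) ∨
    (r = -(b : ℤ) - 1 ∧ 2 * (b : ℤ) + o.2 ≤ i ∧ i < 2 * b + o.2 + κ.2)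

variable (T m) in
/-- The phases and colours of the slots of an axis, near and far. -/
def SlotPh (hn : 8 ≤ n) (ax : Bool) (b : ℕ) (o κ : ℕ × ℕ) (c : Ph T m) (k : Fin n) : Prop :=
  ∃ i r : ℤ, Sl b o κ i r ∧
    ((c = res T m (axisVec ax i r) ∧ (k = col hn 0 ∨ k = col hn 2 ∨ k = col hn 3)) ∨
      (c = res T m (axisVec ax (-1 - i) (-1 - r)) ∧ k = col hn 0))

/-- The mirror image of a cell. -/
def mirror (z : Cell n T m ax B) : Cell n T m ax B :=
  mkCell ((T.W m : ℤ) - 1 - al z) (-1 - cr z) z.2 (by have := cell_bounds z; omega)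

open Classical in
/-- The swaps of the slots, in pairs. -/
noncomputable def flipFun (hn : 8 ≤ n) (b : ℕ) (o κ : ℕ × ℕ) (z : Cell n T m ax B) :
    Cell n T m ax B :=
  if z.2 = col hn 0 ∧
      (Sl b o κ (al z) (cr z) ∨ Sl b o κ ((T.W m : ℤ) - 1 - al z) (-1 - cr z)) then mirror z
  else if z.2 = col hn 2 ∧ Sl b o κ (al z) (cr z) then (z.1, col hn 3)
  else if z.2 = col hn 3 ∧ Sl b o κ (al z) (cr z) then (z.1, col hn 2)
  else z

section flip

variable {hn : 8 ≤ n} {b : ℕ} {o κ : ℕ × ℕ}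

theorem mirror_mirror (z : Cell n T m ax B) : mirror (mirror z) = z :=
  cell_ext (by simp [mirror]) (by simp [mirror]) rfl

theorem flipFun_zero {z : Cell n T m ax B} (h : z.2 = col hn 0)
    (h' : Sl b o κ (al z) (cr z) ∨ Sl b o κ ((T.W m : ℤ) - 1 - al z) (-1 - cr z)) :
    flipFun hn b o κ z = mirror z := by
  rw [flipFun, if_pos ⟨h, h'⟩]

theorem flipFun_two {z : Cell n T m ax B} (h : z.2 = col hn 2) (h' : Sl b o κ (al z) (cr z)) :
    flipFun hn b o κ z = (z.1, col hn 3) := by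
  rw [flipFun, if_neg fun e => absurd (h.symm.trans e.1) (by simp [col_eq_iff]), if_pos ⟨h, h'⟩]

theorem flipFun_three {z : Cell n T m ax B} (h : z.2 = col hn 3) (h' : Sl b o κ (al z) (cr z)) :
    flipFun hn b o κ z = (z.1, col hn 2) := by
  rw [flipFun, if_neg fun e => absurd (h.symm.trans e.1) (by simp [col_eq_iff]),
    if_neg fun e => absurd (h.symm.trans e.1) (by simp [col_eq_iff]), if_pos ⟨h, h'⟩]

theorem flipFun_none {z : Cell n T m ax B}
    (h0 : z.2 = col hn 0 →
      ¬ (Sl b o κ (al z) (cr z) ∨ Sl b o κ ((T.W m : ℤ) - 1 - al z) (-1 - cr z)))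
    (h2 : z.2 = col hn 2 → ¬ Sl b o κ (al z) (cr z))
    (h3 : z.2 = col hn 3 → ¬ Sl b o κ (al z) (cr z)) : flipFun hn b o κ z = z := by
  rw [flipFun, if_neg fun e => h0 e.1 e.2, if_neg fun e => h2 e.1 e.2, if_neg fun e => h3 e.1 e.2]

theorem flipFun_cases (z : Cell n T m ax B) :
    (z.2 = col hn 0 ∧ (Sl b o κ (al z) (cr z) ∨ Sl b o κ ((T.W m : ℤ) - 1 - al z) (-1 - cr z)) ∧
        flipFun hn b o κ z = mirror z) ∨
      (z.2 = col hn 2 ∧ Sl b o κ (al z) (cr z) ∧ flipFun hn b o κ z = (z.1, col hn 3)) ∨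
      (z.2 = col hn 3 ∧ Sl b o κ (al z) (cr z) ∧ flipFun hn b o κ z = (z.1, col hn 2)) ∨
      flipFun hn b o κ z = z := by
  unfold flipFun
  split_ifs with h0 h2 h3
  · exact Or.inl ⟨h0.1, h0.2, rfl⟩
  · exact Or.inr (Or.inl ⟨h2.1, h2.2, rfl⟩)
  · exact Or.inr (Or.inr (Or.inl ⟨h3.1, h3.2, rfl⟩))
  · exact Or.inr (Or.inr (Or.inr rfl))

theorem flipFun_involutive :
    Function.Involutive (flipFun (T := T) (m := m) (ax := ax) (B := B) hn b o κ) := by
  intro z
  rcases flipFun_cases (hn := hn) (b := b) (o := o) (κ := κ) z with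
    ⟨h, h', e⟩ | ⟨h, h', e⟩ | ⟨h, h', e⟩ | e
  · rw [e, flipFun_zero (z := mirror z) h ?_, mirror_mirror]
    simp only [mirror, al_mkCell, cr_mkCell, sub_sub_cancel]
    exact h'.symm
  · rw [e, flipFun_three (z := (z.1, col hn 3)) rfl h', ← h]
  · rw [e, flipFun_two (z := (z.1, col hn 2)) rfl h', ← h]
  · rw [e, e]

/-- The swaps of the slots, as a permutation. -/
noncomputable def flipPerm (hn : 8 ≤ n) (b : ℕ) (o κ : ℕ × ℕ) :
    Equiv.Perm (Cell n T m ax B) :=
  flipFun_involutive.toPerm (flipFun hn b o κ)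

theorem flipPerm_apply (z : Cell n T m ax B) : flipPerm hn b o κ z = flipFun hn b o κ z := rfl

theorem flipPerm_mul_self :
    flipPerm (T := T) (m := m) (ax := ax) (B := B) hn b o κ * flipPerm hn b o κ = 1 :=
  Equiv.ext fun z => flipFun_involutive z

theorem sl_add {κ' : ℕ × ℕ} {i r : ℤ} :
    Sl b o (κ + κ') i r ↔ Sl b o κ i r ∨ Sl b (o + κ) κ' i r := by
  simp only [Sl, Prod.fst_add, Prod.snd_add, Nat.cast_add]
  omega

theorem sl_disjoint {κ' : ℕ × ℕ} {i r : ℤ} (h : Sl b o κ i r) : ¬ Sl b (o + κ) κ' i r := by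
  simp only [Sl, Prod.fst_add, Prod.snd_add, Nat.cast_add] at h ⊢
  omega

theorem sl_bounds {i r : ℤ} (h : Sl b o κ i r) :
    2 * (b : ℤ) ≤ i ∧ i < 2 * b + (o.1 + o.2 + κ.1 + κ.2) ∧ hdi r = b := by
  simp only [Sl] at h
  unfold hdi
  split <;> omega

/-- Consecutive runs of slots compose. -/
theorem flipPerm_add {κ' : ℕ × ℕ} (hW : 4 * b + 2 * (o.1 + o.2 + κ.1 + κ.2 + κ'.1 + κ'.2) < T.W m) :
    flipPerm (T := T) (m := m) (ax := ax) (B := B) hn b o (κ + κ') =
      flipPerm hn b (o + κ) κ' * flipPerm hn b o κ := by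
  refine Equiv.ext fun z => ?_
  simp only [Equiv.Perm.mul_apply, flipPerm_apply]
  have hs : ∀ i r : ℤ, Sl b o κ i r → ¬ Sl b (o + κ) κ' ((T.W m : ℤ) - 1 - i) (-1 - r) := by
    intro i r h h'
    have h1 := sl_bounds h
    have h2 := sl_bounds h'
    simp only [Prod.fst_add, Prod.snd_add, Nat.cast_add] at h2
    omega
  rcases flipFun_cases (hn := hn) (b := b) (o := o) (κ := κ) z with
    ⟨h, h', e⟩ | ⟨h, h', e⟩ | ⟨h, h', e⟩ | e
  · rw [e, flipFun_zero h (h'.imp (fun s => sl_add.2 (Or.inl s)) fun s => sl_add.2 (Or.inl s))]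
    refine (flipFun_none (z := mirror z) ?_ (fun e' => absurd (h.symm.trans e') (by simp [col_eq_iff]))
      fun e' => absurd (h.symm.trans e') (by simp [col_eq_iff])).symm
    intro _ hh
    simp only [mirror, al_mkCell, cr_mkCell, sub_sub_cancel] at hh
    rcases h' with s | s <;> rcases hh with t | t
    · exact hs _ _ s t
    · exact sl_disjoint s t
    · exact sl_disjoint s t
    · exact hs _ _ s (by simpa using t)
  · rw [e, flipFun_two h (sl_add.2 (Or.inl h'))]
    exact (flipFun_none (z := (z.1, col hn 3)) (fun e' => absurd e' (by simp [col_eq_iff]))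
      (fun e' => absurd e' (by simp [col_eq_iff])) fun _ t => sl_disjoint h' t).symm
  · rw [e, flipFun_three h (sl_add.2 (Or.inl h'))]
    exact (flipFun_none (z := (z.1, col hn 2)) (fun e' => absurd e' (by simp [col_eq_iff]))
      (fun _ t => sl_disjoint h' t) fun e' => absurd e' (by simp [col_eq_iff])).symm
  · rw [e]
    have n0 : z.2 = col hn 0 →
        ¬ (Sl b o κ (al z) (cr z) ∨ Sl b o κ ((T.W m : ℤ) - 1 - al z) (-1 - cr z)) := by
      intro hc hh
      rw [flipFun_zero hc hh] at e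
      have := congrArg al e
      have e2 := congrArg cr e
      simp only [mirror, al_mkCell, cr_mkCell] at this e2
      omega
    have n2 : z.2 = col hn 2 → ¬ Sl b o κ (al z) (cr z) := fun hc hh => by
      rw [flipFun_two hc hh] at e
      have e2 := congrArg (fun w : Cell n T m ax B => w.2) e
      simp only [hc, col_eq_iff] at e2
      exact absurd e2 (by decide)
    have n3 : z.2 = col hn 3 → ¬ Sl b o κ (al z) (cr z) := fun hc hh => by
      rw [flipFun_three hc hh] at e
      have e2 := congrArg (fun w : Cell n T m ax B => w.2) e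
      simp only [hc, col_eq_iff] at e2
      exact absurd e2 (by decide)
    rcases flipFun_cases (hn := hn) (b := b) (o := o + κ) (κ := κ') z with
      ⟨h, h', e'⟩ | ⟨h, h', e'⟩ | ⟨h, h', e'⟩ | e'
    · rw [e', flipFun_zero h (h'.imp (fun s => sl_add.2 (Or.inr s)) fun s => sl_add.2 (Or.inr s))]
    · rw [e', flipFun_two h (sl_add.2 (Or.inr h'))]
    · rw [e', flipFun_three h (sl_add.2 (Or.inr h'))]
    · rw [e']
      refine flipFun_none (fun hc hh => ?_) (fun hc hh => ?_) fun hc hh => ?_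
      · rcases hh with t | t <;> rcases sl_add.1 t with t | t
        · exact n0 hc (Or.inl t)
        · rw [flipFun_zero hc (Or.inl t)] at e'
          have := congrArg cr e'; simp only [mirror, cr_mkCell] at this; omega
        · exact n0 hc (Or.inr t)
        · rw [flipFun_zero hc (Or.inr t)] at e'
          have := congrArg cr e'; simp only [mirror, cr_mkCell] at this; omega
      · rcases sl_add.1 hh with t | t
        · exact n2 hc t
        · rw [flipFun_two hc t] at e'
          exact absurd ((congrArg (fun w : Cell n T m ax B => w.2) e').trans hc)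
            (by simp [col_eq_iff])
      · rcases sl_add.1 hh with t | t
        · exact n3 hc t
        · rw [flipFun_three hc t] at e'
          exact absurd ((congrArg (fun w : Cell n T m ax B => w.2) e').trans hc)
            (by simp [col_eq_iff])

theorem flipPerm_zero : flipPerm (T := T) (m := m) (ax := ax) (B := B) hn b o 0 = 1 :=
  Equiv.ext fun z => flipFun_none (fun _ h => by simp [Sl] at h; omega)
    (fun _ h => by simp [Sl] at h; omega) (fun _ h => by simp [Sl] at h; omega)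

/-- One slot: two transpositions. -/
theorem sign_flipPerm_one (hB : b < B) {κ : ℕ × ℕ} (hκ : κ = (1, 0) ∨ κ = (0, 1))
    (hW : 4 * b + 2 * (o.1 + o.2 + 1) < T.W m) :
    Equiv.Perm.sign (flipPerm (T := T) (m := m) (ax := ax) (B := B) hn b o κ) = 1 := by
  classical
  obtain ⟨i0, r0, hs, hb⟩ : ∃ i0 r0 : ℤ, (∀ i r, Sl b o κ i r ↔ i = i0 ∧ r = r0) ∧
      ((0 ≤ i0 ∧ i0 < T.W m) ∧ -(B : ℤ) ≤ r0 ∧ r0 < B) := by
    rcases hκ with rfl | rfl
    · exact ⟨2 * b + o.1, b, fun i r => by simp only [Sl]; omega, by omega⟩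
    · exact ⟨2 * b + o.2, -(b : ℤ) - 1, fun i r => by simp only [Sl]; omega, by omega⟩
  set u : Cell n T m ax B := mkCell i0 r0 (col hn 0) hb
  set v : Cell n T m ax B := mkCell i0 r0 (col hn 2) hb
  set w : Cell n T m ax B := mkCell i0 r0 (col hn 3) hb
  have huv : u ≠ mirror u := fun e => by
    have := congrArg cr e; simp [u, mirror] at this; omega
  have hvw : v ≠ w := fun e => by
    have := congrArg (fun t : Cell n T m ax B => t.2) e
    simp only [v, w, snd_mkCell, col_eq_iff] at this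
    exact absurd this (by decide)
  suffices flipPerm hn b o κ = Equiv.swap u (mirror u) * Equiv.swap v w by
    rw [this, map_mul, Equiv.Perm.sign_swap huv, Equiv.Perm.sign_swap hvw]
    rfl
  refine Equiv.ext fun z => ?_
  simp only [flipPerm_apply, Equiv.Perm.mul_apply]
  have c02 : ∀ t : Cell n T m ax B, t.2 = col hn 0 → t ≠ v ∧ t ≠ w := fun t ht => by
    constructor <;> intro e <;> rw [e] at ht <;> simp [v, w, col_eq_iff] at ht
  by_cases h1 : z = v
  · have : w.2 = col hn 3 := rfl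
    rw [h1, Equiv.swap_apply_left, Equiv.swap_apply_of_ne_of_ne,
      flipFun_two (z := v) rfl ((hs _ _).2 ⟨al_mkCell, cr_mkCell⟩)]
    · exact cell_ext (by simp [v, w, al, lal_axisVec, mkCell]) (by simp [v, w, cr, mkCell]) rfl
    · exact fun e => (c02 u rfl).2 e.symm
    · exact fun e => (c02 (mirror u) rfl).2 e.symm
  by_cases h2 : z = w
  · rw [h2, Equiv.swap_apply_right, Equiv.swap_apply_of_ne_of_ne,
      flipFun_three (z := w) rfl ((hs _ _).2 ⟨al_mkCell, cr_mkCell⟩)]
    · exact cell_ext (by simp [v, w, al, lal_axisVec, mkCell]) (by simp [v, w, cr, mkCell]) rfl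
    · exact fun e => (c02 u rfl).1 e.symm
    · exact fun e => (c02 (mirror u) rfl).1 e.symm
  rw [Equiv.swap_apply_of_ne_of_ne h1 h2]
  by_cases h3 : z = u
  · rw [h3, Equiv.swap_apply_left, flipFun_zero (z := u) rfl (Or.inl ((hs _ _).2 ⟨al_mkCell, cr_mkCell⟩))]
  by_cases h4 : z = mirror u
  · rw [h4, Equiv.swap_apply_right, flipFun_zero (z := mirror u) rfl, mirror_mirror]
    exact Or.inr ((hs _ _).2 ⟨by simp [u, mirror], by simp [u, mirror]⟩)
  rw [Equiv.swap_apply_of_ne_of_ne h3 h4]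
  refine flipFun_none (fun hc hh => ?_) (fun hc hh => ?_) fun hc hh => ?_
  · rcases hh with t | t <;> obtain ⟨e1, e2⟩ := (hs _ _).1 t
    · exact h3 (cell_ext (by simpa [u] using e1) (by simpa [u] using e2) hc)
    · exact h4 (cell_ext (by simp [u, mirror]; omega) (by simp [u, mirror]; omega) hc)
  · obtain ⟨e1, e2⟩ := (hs _ _).1 hh
    exact h1 (cell_ext (by simpa [v] using e1) (by simpa [v] using e2) hc)
  · obtain ⟨e1, e2⟩ := (hs _ _).1 hh
    exact h2 (cell_ext (by simpa [w] using e1) (by simpa [w] using e2) hc)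

theorem sign_flipPerm (hB : b < B) (hW : 4 * b + 2 * (o.1 + o.2 + κ.1 + κ.2) < T.W m) :
    Equiv.Perm.sign (flipPerm (T := T) (m := m) (ax := ax) (B := B) hn b o κ) = 1 := by
  obtain ⟨p, q⟩ := κ
  induction p with
  | zero =>
    induction q with
    | zero => rw [show ((0, 0) : ℕ × ℕ) = 0 from rfl, flipPerm_zero, map_one]
    | succ q ih =>
      rw [show ((0, q + 1) : ℕ × ℕ) = (0, q) + (0, 1) from rfl,
        flipPerm_add (by simp at hW ⊢; omega), map_mul, ih (by simp at hW ⊢; omega),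
        sign_flipPerm_one hB (Or.inr rfl) (by simp at hW ⊢; omega), mul_one]
  | succ p ih =>
    rw [show ((p + 1, q) : ℕ × ℕ) = (p, q) + (1, 0) from rfl,
      flipPerm_add (by simp at hW ⊢; omega), map_mul, ih (by simp at hW ⊢; omega),
      sign_flipPerm_one hB (Or.inl rfl) (by simp at hW ⊢; omega), mul_one]

/-- A moved cell is a slot. -/
theorem slotPh_of_flip {z : Cell n T m ax B} (h : flipFun hn b o κ z ≠ z) :
    SlotPh T m hn ax b o κ (res T m (z.1 : Lat)) z.2 := by
  have ez : (z.1 : Lat) = axisVec ax (al z) (cr z) := (axisVec_lal ax _).symm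
  rcases flipFun_cases (hn := hn) (b := b) (o := o) (κ := κ) z with
    ⟨hc, h', -⟩ | ⟨hc, h', -⟩ | ⟨hc, h', -⟩ | e
  · rcases h' with s | s
    · exact ⟨_, _, s, Or.inl ⟨by rw [ez], Or.inl hc⟩⟩
    · refine ⟨_, _, s, Or.inr ⟨?_, hc⟩⟩
      rw [ez]
      cases ax <;> simp [res, axisVec]
  · exact ⟨_, _, h', Or.inl ⟨by rw [ez], Or.inr (Or.inl hc)⟩⟩
  · exact ⟨_, _, h', Or.inl ⟨by rw [ez], Or.inr (Or.inr hc)⟩⟩
  · exact absurd e h

end flip

end Vale.Agent.P196.Full.Kernel
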