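import Vale.Agent.P196.Full.Universal.Kernel.Cells

/-!
# P196: the flow across the edges of a split kernel element

For an element of the kernel written as face, two arms and ball, the net crossing at the near end
of an edge is, up to the sign, the same on all edges, hence constant when the action is minimal.
-/

namespace Vale.Agent.P196.Full.Kernel

variable {X : Type} [TopologicalSpace X] {n : ℕ} {S : Sys X}

variable (T : Tower S) (m : ℕ)

/-- The element moves every point by a short vector. -/
def Short (S : Sys X) (D : ℕ) (u : UGroup S n) : Prop :=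
  ∀ z : Pt X n, ∃ d : Lat, d.1.natAbs ≤ D ∧ d.2.natAbs ≤ D ∧ (ueval S u z).1 = S.sh d z.1

/-- A kernel element split into a face element, two arms and a ball element. -/
structure Split (a γ : UGroup S n) (δ : Bool → UGroup S n) (s ρ D : ℕ) : Prop where
  hW : 4 * (ρ + D + 1) ≤ T.W m
  hs : s ≤ ρ
  ha : a ∈ Fr T m (face T m)
  hγ : γ ∈ Fr T m (ball ρ)
  hγm : MovesIn T m γ (fun c _ => InBall T m ρ c)
  hδ : ∀ ax, δ ax ∈ Fr T m (strip T m ax s)
  hδm : ∀ ax, MovesIn T m (δ ax) (fun c _ => InArm T m ax s c)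
  hδD : ∀ ax, Short S D (δ ax)
  heval : ueval S (a * δ false * δ true * γ) = 1

/-- The cells at the near end of an edge. -/
noncomputable def nearBox (ax : Bool) (K s : ℕ) : Finset (Off n) :=
  ((Finset.Ico (0 : ℤ) K ×ˢ Finset.Ico (-(s : ℤ)) s).image fun v => axisVec ax v.1 v.2) ×ˢ
    Finset.univ

/-- The cells at the far end of an edge. -/
noncomputable def farBox (ax : Bool) (K s : ℕ) : Finset (Off n) :=
  ((Finset.Ico ((T.W m : ℤ) - K) (T.W m) ×ˢ Finset.Ico (-(s : ℤ)) s).image
    fun v => axisVec ax v.1 v.2) ×ˢ Finset.univ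

open Classical in
/-- Whether the image of the cell `v` at `x` is in the block `y`. -/
noncomputable def indI (u : UGroup S n) (x y : X) (v : Off n) : ℤ :=
  if blk T m (ueval S u (pt S x v)).1 = y then 1 else 0

/-- The crossing at a cell. -/
noncomputable def crossI (u : UGroup S n) (x : X) (v : Off n) : ℤ :=
  upI T m (1 : UGroup S n) x v - upI T m u x v

/-- The net crossing at the near end. -/
noncomputable def flow (ax : Bool) (K s : ℕ) (u : UGroup S n) (x : X) : ℤ :=
  ∑ v ∈ nearBox ax K s, crossI T m u x v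

variable {T m}

theorem mem_nearBox {ax : Bool} {K s : ℕ} {v : Off n} :
    v ∈ nearBox ax K s ↔
      (0 ≤ lal ax v.1 ∧ lal ax v.1 < K) ∧ -(s : ℤ) ≤ lcr ax v.1 ∧ lcr ax v.1 < s := by
  obtain ⟨v, c⟩ := v
  simp only [nearBox, Finset.mem_product, Finset.mem_univ, and_true, Finset.mem_image,
    Finset.mem_Ico]
  refine ⟨?_, fun h => ⟨(lal ax v, lcr ax v), h, axisVec_lal ax v⟩⟩
  rintro ⟨w, hw, rfl⟩
  simpa using hw

theorem mem_farBox {ax : Bool} {K s : ℕ} {v : Off n} :
    v ∈ farBox T m ax K s ↔
      ((T.W m : ℤ) - K ≤ lal ax v.1 ∧ lal ax v.1 < T.W m) ∧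
        -(s : ℤ) ≤ lcr ax v.1 ∧ lcr ax v.1 < s := by
  obtain ⟨v, c⟩ := v
  simp only [farBox, Finset.mem_product, Finset.mem_univ, and_true, Finset.mem_image,
    Finset.mem_Ico]
  refine ⟨?_, fun h => ⟨(lal ax v, lcr ax v), h, axisVec_lal ax v⟩⟩
  rintro ⟨w, hw, rfl⟩
  simpa using hw

theorem MovesIn.image {u : UGroup S n} {P : Ph T m → Fin n → Prop} (hu : MovesIn T m u P)
    {z : Pt X n} (hz : ueval S u z ≠ z) :
    P (T.phase m (ueval S u z).1) (ueval S u z).2 := by
  by_contra h
  exact hz ((ueval S u).injective (hu _ h))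

theorem inArm_disjoint {ax : Bool} {s : ℕ} {c : Ph T m} (h : InArm T m ax s c) :
    ¬ InArm T m (!ax) s c := by
  cases ax <;> simp only [InArm, alg, crs, Bool.not_false, Bool.not_true] at * <;> grind

section Split

variable {a γ : UGroup S n} {δ : Bool → UGroup S n} {s ρ D : ℕ}

/-- At most one arm moves a point. -/
theorem Split.arms (h : Split T m a γ δ s ρ D) (z : Pt X n) :
    (ueval S (δ true) z = z ∧ ueval S (δ false * δ true) z = ueval S (δ false) z) ∨
      (ueval S (δ false) z = z ∧ ueval S (δ false * δ true) z = ueval S (δ true) z) := by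
  rw [map_mul, Equiv.Perm.mul_apply]
  by_cases e : ueval S (δ true) z = z
  · exact Or.inl ⟨e, by rw [e]⟩
  · refine Or.inr ⟨?_, ?_⟩
    · by_contra e'
      have h1 : InArm T m true s (T.phase m z.1) := by
        by_contra hc; exact e (h.hδm true z hc)
      have h2 : InArm T m false s (T.phase m z.1) := by
        by_contra hc; exact e' (h.hδm false z hc)
      exact inArm_disjoint h2 h1
    · exact h.hδm false _ fun h2 => inArm_disjoint h2 ((h.hδm true).image e)

theorem Split.middle_side (h : Split T m a γ δ s ρ D) (ax : Bool) {x : X} (hx : x ∈ base T m)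
    (z : Cell n T m ax s) (h1 : (ρ + D : ℕ) ≤ al z)
    (h2 : al z < (T.W m : ℤ) - (ρ + D : ℕ)) :
    Up (cp T m (strip T m ax s) (δ ax) x z) ↔ Up z := by
  have hW := h.hW
  have hs := h.hs
  have hB : s ≤ T.W m := by omega
  set w := pt S x (lat z)
  by_cases e : ueval S (δ ax) w = w
  · have := (reads_cp (injMod_strip (by omega)) (h.hδ ax) hx z).symm.trans e
    rw [(pt_inj (injMod_strip (by omega)) hx hx this).2]
  have hhd : ρ + D ≤ hd (alg T m ax (T.phase m w.1)) := by
    rw [show T.phase m w.1 = res T m (z.1 : Lat) from phase_pt hx _, hd_alg_cell]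
    omega
  have harm : InArm T m ax s (T.phase m w.1) := by
    by_contra hc; exact e (h.hδm ax w hc)
  have e1 : ueval S γ w = w := h.hγm w fun hb => by
    cases ax <;> simp only [InBall, alg, if_true, if_false, Bool.false_eq_true] at hb hhd <;> omega
  have e2 : ueval S (δ (!ax)) w = w := h.hδm _ w (inArm_disjoint harm)
  have e3 : ueval S a (ueval S (δ ax) w) = w := by
    have := congrArg (fun g => g w) h.heval
    simp only [map_mul, Equiv.Perm.mul_apply, e1, Equiv.Perm.one_apply] at this
    cases ax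
    · rw [Bool.not_false] at e2; rwa [e2] at this
    · rwa [h.hδm false (ueval S (δ true) w)
        (fun h2 => inArm_disjoint h2 ((h.hδm true).image e))] at this
  have e4 : blk T m (ueval S (δ ax) w).1 = blk T m w.1 := by
    have := blockPreserving_face h.ha (ueval S (δ ax) w)
    rw [e3] at this
    exact this.symm
  rw [← blk_cell_eq_iff hB hx, ← blk_cell_eq_iff hB hx,
    ← reads_cp (injMod_strip (by omega)) (h.hδ ax) hx z, e4]

theorem sum_box (L : Finset Lat) (F : Off n → ℤ) :
    ∑ v ∈ L ×ˢ (Finset.univ : Finset (Fin n)), F v = ∑ z : ↥L × Fin n, F (lat z) := by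
  rw [Finset.sum_product, Fintype.sum_prod_type, ← Finset.sum_coe_sort]
  rfl

theorem sum_cells (ax : Bool) (B : ℕ) (F : Off n → ℤ) :
    ∑ v ∈ strip T m ax B ×ˢ (Finset.univ : Finset (Fin n)), F v =
      ∑ z : Cell n T m ax B, F (lat z) :=
  sum_box _ F

/-- What leaves the upper side at the near end returns at the far end. -/
theorem Split.far (h : Split T m a γ δ s ρ D) (ax : Bool) {x : X} (hx : x ∈ base T m) :
    ∑ v ∈ farBox T m ax (ρ + D) s, crossI T m (δ ax) x v = -flow T m ax (ρ + D) s (δ ax) x := by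
  classical
  have hW := h.hW
  have hs := h.hs
  have h2 : 2 * s ≤ T.W m := by omega
  have total : ∑ v ∈ strip T m ax s ×ˢ (Finset.univ : Finset (Fin n)), crossI T m (δ ax) x v = 0 := by
    rw [sum_cells]
    simp only [crossI, upI_cell h2 (h.hδ ax) hx, upI_cell h2 (one_mem _) hx,
      Finset.sum_sub_distrib]
    rw [show cp T m (strip T m ax s) (1 : UGroup S n) x = 1 from
      cp_eq (injMod_strip h2) hx fun a => by simp]
    simp only [Equiv.Perm.one_apply]
    rw [sub_eq_zero]
    exact (Equiv.sum_comp (cp T m (strip T m ax s) (δ ax) x)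
      (fun z => if Up z then (1 : ℤ) else 0)).symm
  have hd : Disjoint (nearBox (n := n) ax (ρ + D) s) (farBox T m ax (ρ + D) s) := by
    refine Finset.disjoint_left.2 fun v hv hv' => ?_
    rw [mem_nearBox] at hv
    rw [mem_farBox] at hv'
    omega
  have hsub : nearBox (n := n) ax (ρ + D) s ∪ farBox T m ax (ρ + D) s ⊆
      strip T m ax s ×ˢ (Finset.univ : Finset (Fin n)) := by
    intro v hv
    refine Finset.mem_product.2 ⟨?_, Finset.mem_univ _⟩
    rw [← axisVec_lal ax v.1, mem_strip]
    rcases Finset.mem_union.1 hv with hv | hv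
    · rw [mem_nearBox] at hv; omega
    · rw [mem_farBox] at hv; omega
  rw [← Finset.sum_subset hsub, Finset.sum_union hd] at total
  · unfold flow; omega
  · intro v hv hnot
    obtain ⟨z, rfl⟩ : ∃ z : Cell n T m ax s, lat z = v :=
      ⟨(⟨v.1, (Finset.mem_product.1 hv).1⟩, v.2), rfl⟩
    simp only [Finset.mem_union, mem_nearBox, mem_farBox, not_or] at hnot
    have hb := cell_bounds z
    have m1 : (ρ + D : ℕ) ≤ al z := by
      by_contra hc; exact hnot.1 ⟨⟨hb.1.1, not_le.1 hc⟩, hb.2⟩
    have m2 : al z < (T.W m : ℤ) - (ρ + D : ℕ) := by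
      by_contra hc; exact hnot.2 ⟨⟨not_lt.1 hc, hb.1.2⟩, hb.2⟩
    simp only [crossI, upI_cell h2 (h.hδ ax) hx, upI_cell h2 (one_mem _) hx,
      show cp T m (strip T m ax s) (1 : UGroup S n) x = 1 from
        cp_eq (injMod_strip h2) hx fun a => by simp,
      Equiv.Perm.one_apply, h.middle_side ax hx z m1 m2, sub_self]

theorem sh_gvec_ne {x : X} {k l : Lat} (hk : k ≠ l) :
    S.sh (gvec T m k) x ≠ S.sh (gvec T m l) x := by
  intro e
  have h : S.sh (gvec T m k - gvec T m l) (S.sh (gvec T m l) x) = S.sh (gvec T m l) x := by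
    rw [S.sh_sh, sub_add_cancel, e]
  have h0 := Tower.free T h
  have hW : (T.W m : ℤ) ≠ 0 := by exact_mod_cast (T.W_pos m).ne'
  simp only [gvec, sub_eq_zero, Prod.mk.injEq] at h0
  exact hk (Prod.ext (mul_left_cancel₀ hW h0.1) (mul_left_cancel₀ hW h0.2))

/-- The block of the image of a strip cell. -/
theorem Split.image_blk (h : Split T m a γ δ s ρ D) (ax : Bool) {x : X} (hx : x ∈ base T m)
    (v : Off n) (hv : v.1 ∈ strip T m ax s) :
    blk T m (ueval S (δ ax) (pt S x v)).1 = x ∨
      blk T m (ueval S (δ ax) (pt S x v)).1 = S.sh (gvec T m (axisVec ax 0 (-1))) x := by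
  have hW := h.hW
  have hs := h.hs
  have h2 : 2 * s ≤ T.W m := by omega
  have e := reads_cp (injMod_strip h2) (h.hδ ax) hx ((⟨v.1, hv⟩, v.2) : Cell n T m ax s)
  simp only [lat] at e
  rw [e, blk_pt hx, quo_cell (by omega)]
  split
  · refine Or.inl ?_
    cases ax <;> simp [gvec, axisVec, ← Prod.zero_eq_mk, S.sh_zero]
  · exact Or.inr rfl

/-- The change of the number of cells of a block, over a set of strip cells. -/
theorem Split.strip_change (h : Split T m a γ δ s ρ D) (ax : Bool) {x : X} (hx : x ∈ base T m)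
    (t : Finset (Off n)) (ht : ∀ v ∈ t, v.1 ∈ strip T m ax s) (k : Lat) :
    ∑ v ∈ t, (indI T m (δ ax) x (S.sh (gvec T m k) x) v -
        indI T m 1 x (S.sh (gvec T m k) x) v) =
      if k = 0 then -∑ v ∈ t, crossI T m (δ ax) x v
      else if k = axisVec ax 0 (-1) then ∑ v ∈ t, crossI T m (δ ax) x v else 0 := by
  classical
  have h0 : S.sh (gvec T m (0 : Lat)) x = x := by simp [gvec, ← Prod.zero_eq_mk, S.sh_zero]
  have hne : axisVec ax 0 (-1) ≠ (0 : Lat) := by cases ax <;> simp [axisVec]
  have h1 : ∀ v ∈ t, blk T m (ueval S (1 : UGroup S n) (pt S x v)).1 = x ∨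
      blk T m (ueval S (1 : UGroup S n) (pt S x v)).1 = S.sh (gvec T m (axisVec ax 0 (-1))) x := by
    intro v hv
    have hW := h.hW
    have hs := h.hs
    rw [map_one, Equiv.Perm.one_apply, blk_pt hx,
      show v.1 = (((⟨v.1, ht v hv⟩, v.2) : Cell n T m ax s).1 : Lat) from rfl,
      quo_cell (by omega)]
    split
    · refine Or.inl ?_
      cases ax <;> simp [gvec, axisVec, ← Prod.zero_eq_mk, S.sh_zero]
    · exact Or.inr rfl
  split_ifs with c1 c2
  · subst c1
    rw [h0, ← Finset.sum_neg_distrib]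
    refine Finset.sum_congr rfl fun v _ => ?_
    simp only [indI, crossI, upI]
    ring
  · subst c2
    refine Finset.sum_congr rfl fun v hv => ?_
    have hne' : S.sh (gvec T m (axisVec ax 0 (-1))) x ≠ x := by
      conv_rhs => rw [← h0]
      exact sh_gvec_ne hne
    simp only [indI, crossI, upI]
    rcases h.image_blk ax hx v (ht v hv) with e | e <;> rcases h1 v hv with e' | e' <;>
      simp only [map_one, Equiv.Perm.one_apply] at e' <;>
      simp [e, e', hne', hne'.symm]
  · refine Finset.sum_eq_zero fun v hv => ?_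
    have hk1 : S.sh (gvec T m k) x ≠ x := by
      conv_rhs => rw [← h0]
      exact sh_gvec_ne c1
    have hk2 := sh_gvec_ne (T := T) (m := m) (x := x) c2
    simp only [indI]
    rcases h.image_blk ax hx v (ht v hv) with e | e <;> rcases h1 v hv with e' | e' <;>
      simp only [map_one, Equiv.Perm.one_apply] at e' <;>
      simp [e, e', hk1.symm, hk2.symm]

/-- The two arms at a corner: the count of the cells of a block in the ball. -/
theorem Split.ball_change (h : Split T m a γ δ s ρ D) {x : X} (hx : x ∈ base T m) (y : X) :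
    ∑ v ∈ ball (ρ + D) ×ˢ (Finset.univ : Finset (Fin n)),
        (indI T m (δ false) x y v - indI T m 1 x y v) +
      ∑ v ∈ ball (ρ + D) ×ˢ (Finset.univ : Finset (Fin n)),
        (indI T m (δ true) x y v - indI T m 1 x y v) = 0 := by
  classical
  have hW := h.hW
  have hB : 2 * (ρ + D) ≤ T.W m := by omega
  have hγ : γ ∈ Fr T m (ball (ρ + D)) := Fr_mono (ball_mono (by omega)) h.hγ
  have key : ∑ v ∈ ball (ρ + D) ×ˢ (Finset.univ : Finset (Fin n)),
      indI T m (δ false * δ true) x y v =
      ∑ v ∈ ball (ρ + D) ×ˢ (Finset.univ : Finset (Fin n)), indI T m 1 x y v := by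
    rw [sum_box, sum_box]
    rw [← Equiv.sum_comp (cp T m (ball (ρ + D)) γ x)
      (fun z => indI T m (δ false * δ true) x y (lat z))]
    refine Finset.sum_congr rfl fun z _ => ?_
    have er := reads_cp (injMod_ball hB) hγ hx z
    simp only [indI, ← er, map_one, Equiv.Perm.one_apply]
    refine if_congr (Eq.congr_left ?_) rfl rfl
    have e := congrArg (fun g => g (pt S x (lat z))) h.heval
    rw [mul_assoc a, mul_assoc a] at e
    simp only [map_mul, Equiv.Perm.mul_apply, Equiv.Perm.one_apply] at e ⊢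
    have := blockPreserving_face h.ha
      (ueval S (δ false) (ueval S (δ true) (ueval S γ (pt S x (lat z)))))
    rw [e] at this
    exact this.symm
  rw [← sub_eq_zero, ← Finset.sum_sub_distrib] at key
  rw [← Finset.sum_add_distrib, ← key]
  refine Finset.sum_congr rfl fun v _ => ?_
  rcases h.arms (pt S x v) with ⟨e, e'⟩ | ⟨e, e'⟩ <;>
    simp only [indI, e, e', map_one, Equiv.Perm.one_apply] <;> ring

/-- The part of an arm in the ball: near end of the edge leaving, far end of the edge arriving. -/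
theorem Split.ball_arm (h : Split T m a γ δ s ρ D) (ax : Bool) {x : X} (hx : x ∈ base T m)
    (k : Lat) :
    ∑ v ∈ ball (ρ + D) ×ˢ (Finset.univ : Finset (Fin n)),
        (indI T m (δ ax) x (S.sh (gvec T m k) x) v -
          indI T m 1 x (S.sh (gvec T m k) x) v) =
      (if k = 0 then -flow T m ax (ρ + D) s (δ ax) x
        else if k = axisVec ax 0 (-1) then flow T m ax (ρ + D) s (δ ax) x else 0) +
      (if k = axisVec ax (-1) 0 then
          flow T m ax (ρ + D) s (δ ax) (S.sh (gvec T m (axisVec ax (-1) 0)) x)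
        else if k = axisVec ax (-1) (-1) then
          -flow T m ax (ρ + D) s (δ ax) (S.sh (gvec T m (axisVec ax (-1) 0)) x)
        else 0) := by
  classical
  have hW := h.hW
  have hs := h.hs
  have : NeZero (T.W m) := ⟨(T.W_pos m).ne'⟩
  set e1 : Lat := gvec T m (axisVec ax (-1) 0)
  set x' := S.sh e1 x
  have hx' : x' ∈ base T m := sh_gvec_mem _ hx
  set west : Finset (Off n) :=
    (farBox T m ax (ρ + D) s).image fun v => (v.1 + e1, v.2)
  have hwest : ∀ v : Off n, v ∈ west ↔ (-((ρ + D : ℕ) : ℤ) ≤ lal ax v.1 ∧ lal ax v.1 < 0) ∧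
      -(s : ℤ) ≤ lcr ax v.1 ∧ lcr ax v.1 < s := by
    intro v
    simp only [west, Finset.mem_image, mem_farBox]
    constructor
    · rintro ⟨w, hw, rfl⟩
      cases ax <;> simp [e1, gvec, axisVec, lal, lcr] at hw ⊢ <;> omega
    · intro hv
      refine ⟨(v.1 - e1, v.2), ?_, by simp⟩
      cases ax <;> simp [e1, gvec, axisVec, lal, lcr] at hv ⊢ <;> omega
  have hd : Disjoint (nearBox (n := n) ax (ρ + D) s) west := by
    refine Finset.disjoint_left.2 fun v hv hv' => ?_
    rw [mem_nearBox] at hv
    rw [hwest] at hv'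
    omega
  have hmem : ∀ v : Off n, v ∈ ball (ρ + D) ×ˢ (Finset.univ : Finset (Fin n)) ↔
      (-((ρ + D : ℕ) : ℤ) ≤ lal ax v.1 ∧ lal ax v.1 < (ρ + D : ℕ)) ∧
        -((ρ + D : ℕ) : ℤ) ≤ lcr ax v.1 ∧ lcr ax v.1 < (ρ + D : ℕ) := by
    intro v
    simp only [ball, Finset.mem_product, Finset.mem_univ, and_true, Finset.mem_Ico]
    cases ax <;> simp only [lal, lcr, if_true, if_false, Bool.false_eq_true] <;> omega
  rw [← Finset.sum_subset (s₁ := nearBox ax (ρ + D) s ∪ west)]
  rotate_left
  · intro v hv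
    rw [hmem]
    rcases Finset.mem_union.1 hv with hv | hv
    · rw [mem_nearBox] at hv; omega
    · rw [hwest] at hv; omega
  · intro v hv hnot
    have e : ueval S (δ ax) (pt S x v) = pt S x v := by
      refine h.hδm ax _ fun hc => hnot ?_
      rw [phase_pt hx] at hc
      rw [hmem] at hv
      have h1 := hc.1
      rw [← axisVec_lal ax v.1, crs_axisVec,
        hd_cast_of_lt (K := ρ + D) (by omega) hv.2.1 hv.2.2] at h1
      have h2 := hdi_lt.1 h1
      rw [Finset.mem_union, mem_nearBox, hwest]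
      omega
    simp only [indI, e, map_one, Equiv.Perm.one_apply, sub_self]
  rw [Finset.sum_union hd]
  congr 1
  · refine (h.strip_change ax hx _ (fun v hv => ?_) k).trans (by rfl)
    rw [mem_nearBox] at hv
    rw [← axisVec_lal ax v.1, mem_strip]
    omega
  · rw [Finset.sum_image fun a _ b _ e => by simpa [Prod.ext_iff] using e]
    have hk : S.sh (gvec T m k) x =
        S.sh (gvec T m (k - axisVec ax (-1) 0)) x' := by
      simp only [x', e1, S.sh_sh]
      congr 2
      simp only [gvec, Prod.mk_add_mk, Prod.fst_sub, Prod.snd_sub, mul_sub, sub_add_cancel]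
    have hpt : ∀ v : Off n, pt S x (v.1 + e1, v.2) = pt S x' v := fun v => (pt_sh x e1 v).symm
    simp only [indI, hpt, hk]
    refine (h.strip_change ax hx' _ (fun v hv => ?_) _).trans ?_
    · rw [mem_farBox] at hv
      rw [← axisVec_lal ax v.1, mem_strip]
      omega
    rw [h.far ax hx', neg_neg]
    simp only [sub_eq_iff_eq_add, zero_add]
    refine if_congr Iff.rfl rfl (if_congr ?_ rfl rfl)
    cases ax <;> simp [axisVec]

theorem Split.flow_rel (h : Split T m a γ δ s ρ D) (ax : Bool) {x : X} (hx : x ∈ base T m) :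
    flow T m false (ρ + D) s (δ false) x + flow T m true (ρ + D) s (δ true) x = 0 ∧
    flow T m ax (ρ + D) s (δ ax) x +
      flow T m (!ax) (ρ + D) s (δ (!ax)) (S.sh (gvec T m (axisVec ax 0 (-1))) x) = 0 := by
  constructor
  · have e := h.ball_change hx (S.sh (gvec T m 0) x)
    rw [h.ball_arm false hx, h.ball_arm true hx] at e
    simp [axisVec, Prod.ext_iff] at e
    omega
  · have e := h.ball_change hx (S.sh (gvec T m (axisVec ax 0 (-1))) x)
    rw [h.ball_arm false hx, h.ball_arm true hx] at e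
    cases ax <;> simp [axisVec] at e ⊢
    · exact e
    · rw [add_comm]; exact e

theorem Split.isLocallyConstant_flow (h : Split T m a γ δ s ρ D) (ax : Bool) {x : X}
    (hx : x ∈ base T m) :
    ∃ U : Set X, IsOpen U ∧ x ∈ U ∧ U ⊆ base T m ∧
      ∀ y ∈ U, flow T m ax (ρ + D) s (δ ax) y = flow T m ax (ρ + D) s (δ ax) x := by
  have hW := h.hW
  have hs := h.hs
  have h2 : 2 * s ≤ T.W m := by omega
  obtain ⟨U, hU, hxU, hc⟩ := (isLocallyConstant_cp (injMod_strip h2) (h.hδ ax)).exists_open x
  refine ⟨U ∩ base T m, hU.inter (base T m).isClopen.isOpen, ⟨hxU, hx⟩, fun y hy => hy.2,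
    fun y hy => Finset.sum_congr rfl fun v hv => ?_⟩
  rw [mem_nearBox] at hv
  obtain ⟨z, rfl⟩ : ∃ z : Cell n T m ax s, lat z = v :=
    ⟨(⟨v.1, by rw [← axisVec_lal ax v.1, mem_strip]; omega⟩, v.2), rfl⟩
  have one : ∀ y ∈ base T m, cp T m (strip T m ax s) (1 : UGroup S n) y = 1 := fun y hy =>
    cp_eq (injMod_strip h2) hy fun a => by simp
  simp only [crossI, upI_cell h2 (h.hδ ax) hx, upI_cell h2 (h.hδ ax) hy.2,
    upI_cell h2 (one_mem _) hx, upI_cell h2 (one_mem _) hy.2, one y hy.2, one x hx, hc y hy.1]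

/-- The flow is constant. -/
theorem Split.flow_const (h : Split T m a γ δ s ρ D) (hmin : S.IsMinimal) :
    ∃ d : ℤ, d.natAbs ≤ 2 * ((ρ + D) * (2 * s) * n) ∧ ∀ x ∈ base T m,
      flow T m false (ρ + D) s (δ false) x = d ∧ flow T m true (ρ + D) s (δ true) x = -d := by
  classical
  by_cases hne : ∃ x, x ∈ base T m
  swap
  · exact ⟨0, by simp, fun x hx => absurd ⟨x, hx⟩ hne⟩
  obtain ⟨x0, hx0⟩ := hne
  set g := fun x => flow T m false (ρ + D) s (δ false) x with hg
  have inv1 : ∀ x ∈ base T m, ∀ i : Bool, g (S.sh (gvec T m (axisVec i 0 (-1))) x) = g x := by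
    intro x hx i
    have a1 := (h.flow_rel false hx).1
    have a2 := (h.flow_rel i hx).2
    have a3 := (h.flow_rel false (sh_gvec_mem (T := T) (m := m) (axisVec i 0 (-1)) hx)).1
    cases i <;> simp only [hg, Bool.not_false, Bool.not_true] at * <;> omega
  have invk : ∀ k : Lat, ∀ x ∈ base T m, g (S.sh (gvec T m k) x) = g x := by
    have step : ∀ i : Bool, ∀ j : ℤ, ∀ x ∈ base T m,
        g (S.sh (gvec T m (axisVec i 0 j)) x) = g x := by
      intro i j
      induction j using Int.induction_on with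
      | zero => intro x _; cases i <;> simp [gvec, axisVec, ← Prod.zero_eq_mk, S.sh_zero]
      | succ j ih =>
        intro x hx
        have hy := sh_gvec_mem (T := T) (m := m) (axisVec i 0 ((j : ℤ) + 1)) hx
        rw [← inv1 _ hy i, S.sh_sh]
        convert ih x hx using 4
        cases i <;> simp [gvec, axisVec] <;> ring
      | pred j ih =>
        intro x hx
        have hy := sh_gvec_mem (T := T) (m := m) (axisVec i 0 (-(j : ℤ))) hx
        rw [← ih x hx, ← inv1 _ hy i, S.sh_sh]
        congr 3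
        cases i <;> simp [gvec, axisVec] <;> ring
    intro k x hx
    have hy := sh_gvec_mem (T := T) (m := m) (axisVec true 0 k.1) hx
    rw [← step true k.1 x hx, ← step false k.2 _ hy, S.sh_sh]
    congr 3
    simp [gvec, axisVec]
  refine ⟨g x0, ?_, fun x hx => ?_⟩
  · have hb : (g x0).natAbs ≤ (nearBox (n := n) false (ρ + D) s).card := by
      have : ∀ v : Off n, |crossI T m (δ false) x0 v| ≤ 1 := fun v => by
        simp only [crossI, upI]; split_ifs <;> simp
      have h1 := Finset.abs_sum_le_sum_abs (fun v => crossI T m (δ false) x0 v)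
        (nearBox false (ρ + D) s)
      have h2 := Finset.sum_le_card_nsmul (nearBox (n := n) false (ρ + D) s)
        (fun v => |crossI T m (δ false) x0 v|) 1 (fun v _ => this v)
      simp only [nsmul_eq_mul, mul_one] at h2
      have h3 : (((g x0).natAbs : ℕ) : ℤ) ≤
          (((nearBox (n := n) false (ρ + D) s).card : ℕ) : ℤ) := by
        rw [Int.natCast_natAbs]
        exact h1.trans h2
      exact_mod_cast h3
    refine hb.trans ?_
    simp only [nearBox, Finset.card_product, Finset.card_univ, Fintype.card_fin]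
    refine le_trans (Nat.mul_le_mul_right _ Finset.card_image_le) ?_
    simp only [Finset.card_product, Int.card_Ico, sub_zero, Int.toNat_natCast]
    rw [show ((s : ℤ) - -(s : ℤ)).toNat = 2 * s by omega]
    exact Nat.le_mul_of_pos_left _ two_pos
  · obtain ⟨U, hU, hxU, hUb, hc⟩ := h.isLocallyConstant_flow false hx
    obtain ⟨v, hv⟩ := hmin U hU ⟨x, hxU⟩ x0
    have hph := (mem_base T m).1 (hUb hv)
    rw [T.phase_sh, (mem_base T m).1 hx0, zero_add, Prod.mk_eq_zero,
      ZMod.intCast_zmod_eq_zero_iff_dvd, ZMod.intCast_zmod_eq_zero_iff_dvd] at hph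
    obtain ⟨⟨k1, hk1⟩, ⟨k2, hk2⟩⟩ := hph
    have e : v = gvec T m (k1, k2) := Prod.ext hk1 hk2
    have hgx : g x = g x0 := by
      rw [← invk (k1, k2) x0 hx0, ← e]
      exact (hc _ hv).symm
    refine ⟨hgx, ?_⟩
    have := (h.flow_rel false hx).1
    simp only [hg] at hgx
    simp only [hg]
    omega

end Split

end Vale.Agent.P196.Full.Kernel
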