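import Mathlib

/-!
# P196: finite generation from labels with bounded fibres
-/

namespace Vale.Agent.P196.Full.Kernel

variable {G : Type*} [Group G]

/-- A central subgroup whose elements carry labels in `ℕ × ℕ`, additively and with boundedly many
elements per label, is finitely generated. -/
theorem exists_finite_gens (K : Subgroup G) (hc : K ≤ Subgroup.center G)
    (R : G → ℕ × ℕ → Prop) (hK : ∀ u κ, R u κ → u ∈ K) (htot : ∀ u ∈ K, ∃ κ, R u κ)
    (hmul : ∀ u v κ κ', R u κ → R v κ' → R (u * v) (κ + κ')) (N : ℕ)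
    (hfib : ∀ (κ : ℕ × ℕ) (t : Finset G), (∀ u ∈ t, R u κ) → t.card ≤ N) :
    ∃ Z : Set G, Z.Finite ∧ Z ⊆ K ∧ K ≤ Subgroup.closure Z := by
  classical
  obtain ⟨κ1, h1⟩ := htot 1 (one_mem K)
  have comm : ∀ u ∈ K, ∀ v : G, u * v = v * u := fun u hu v =>
    (Subgroup.mem_center_iff.1 (hc hu) v).symm
  set D0 : Set G := {d | ∃ u v κ, R u κ ∧ R v κ ∧ d = u * v⁻¹}
  have hD0K : D0 ⊆ K := by
    rintro _ ⟨u, v, κ, hu, hv, rfl⟩
    exact mul_mem (hK u κ hu) (inv_mem (hK v κ hv))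
  have shift : ∀ t : Finset G, (↑t : Set G) ⊆ D0 →
      ∃ w κ, R w κ ∧ ∀ d ∈ t, R (d * w) κ := by
    intro t
    induction t using Finset.induction_on with
    | empty => exact fun _ => ⟨1, κ1, h1, fun d hd => absurd hd (Finset.notMem_empty d)⟩
    | @insert d t hd ih =>
      intro ht
      obtain ⟨w, κ, hw, hwd⟩ := ih fun e he => ht (Finset.mem_insert_of_mem he)
      obtain ⟨u, v, κd, hu, hv, rfl⟩ := ht (Finset.mem_insert_self d t)
      refine ⟨w * v, κ + κd, hmul _ _ _ _ hw hv, fun e he => ?_⟩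
      rcases Finset.mem_insert.1 he with rfl | he
      · have e1 : u * v⁻¹ * (w * v) = w * u := by
          rw [comm _ (hK u κd hu) v⁻¹, mul_assoc, ← mul_assoc u w v, comm _ (hK u κd hu) w,
            mul_assoc w u v, ← mul_assoc v⁻¹ w, comm _ (hK u κd hu) v, ← mul_assoc,
            mul_assoc v⁻¹ w v, comm _ (hK w κ hw) v, inv_mul_cancel_left]
        rw [e1]
        exact hmul _ _ _ _ hw hu
      · rw [← mul_assoc]
        exact hmul _ _ _ _ (hwd e he) hv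
  have hD0 : D0.Finite := by
    by_contra hinf
    obtain ⟨t, ht, hcard⟩ := (Set.not_finite.1 hinf).exists_subset_card_eq (N + 1)
    obtain ⟨w, κ, -, hwd⟩ := shift t ht
    have := hfib κ (t.image (· * w)) fun x hx => by
      obtain ⟨d, hd, rfl⟩ := Finset.mem_image.1 hx
      exact hwd d hd
    rw [Finset.card_image_of_injective _ (mul_left_injective w), hcard] at this
    omega
  let cast2 : ℕ × ℕ → ℤ × ℤ := fun κ => ((κ.1 : ℤ), (κ.2 : ℤ))
  have cast2_add : ∀ a b, cast2 (a + b) = cast2 a + cast2 b := fun a b => by simp [cast2]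
  have cast2_inj : ∀ {a b}, cast2 a = cast2 b → a = b := fun {a b} e => by
    simp [cast2, Prod.ext_iff] at e
    exact Prod.ext e.1 e.2
  let Dv : AddSubgroup (ℤ × ℤ) :=
    { carrier := {v | ∃ u κ u' κ', R u κ ∧ R u' κ' ∧ v = cast2 κ - cast2 κ'}
      zero_mem' := ⟨1, κ1, 1, κ1, h1, h1, (sub_self _).symm⟩
      add_mem' := by
        rintro _ _ ⟨u, κ, u', κ', hu, hu', rfl⟩ ⟨v, l, v', l', hv, hv', rfl⟩
        exact ⟨u * v, κ + l, u' * v', κ' + l', hmul _ _ _ _ hu hv, hmul _ _ _ _ hu' hv',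
          by rw [cast2_add, cast2_add]; abel⟩
      neg_mem' := by
        rintro _ ⟨u, κ, u', κ', hu, hu', rfl⟩
        exact ⟨u', κ', u, κ, hu', hu, (neg_sub _ _)⟩ }
  obtain ⟨S, hS⟩ : ∃ S : Finset (ℤ × ℤ), AddSubgroup.closure (S : Set (ℤ × ℤ)) = Dv := by
    have h := (Submodule.fg_iff_addSubgroup_fg _).1
      (IsNoetherian.noetherian (AddSubgroup.toIntSubmodule Dv))
    rw [AddSubgroup.toIntSubmodule_toAddSubgroup] at h
    exact h
  have lift : ∀ v ∈ S, ∃ g, g ∈ K ∧ ∃ u κ u' κ', R u κ ∧ R u' κ' ∧ g = u * u'⁻¹ ∧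
      v = cast2 κ - cast2 κ' := by
    intro v hv
    obtain ⟨u, κ, u', κ', hu, hu', rfl⟩ := hS.le (AddSubgroup.subset_closure hv)
    exact ⟨u * u'⁻¹, mul_mem (hK u κ hu) (inv_mem (hK u' κ' hu')), u, κ, u', κ', hu, hu', rfl, rfl⟩
  choose! g hgK hg using lift
  refine ⟨D0 ∪ g '' ↑S, hD0.union (S.finite_toSet.image g), ?_, fun u hu => ?_⟩
  · rintro x (hx | ⟨v, hv, rfl⟩)
    exacts [hD0K hx, hgK v hv]
  set H := Subgroup.closure (D0 ∪ g '' ↑S)
  have reach : ∀ v ∈ AddSubgroup.closure (S : Set (ℤ × ℤ)),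
      ∃ a κ a' κ', R a κ ∧ R a' κ' ∧ a * a'⁻¹ ∈ H ∧ v = cast2 κ - cast2 κ' := by
    intro v hv
    induction hv using AddSubgroup.closure_induction with
    | mem v hv =>
      obtain ⟨a, κ, a', κ', ha, ha', e, e'⟩ := hg v hv
      exact ⟨a, κ, a', κ', ha, ha', e ▸ Subgroup.subset_closure (Or.inr ⟨v, hv, rfl⟩), e'⟩
    | zero => exact ⟨1, κ1, 1, κ1, h1, h1, by simp, (sub_self _).symm⟩
    | add v w _ _ hv hw =>
      obtain ⟨a, κ, a', κ', ha, ha', hm, rfl⟩ := hv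
      obtain ⟨c, l, c', l', hcl, hcl', hm', rfl⟩ := hw
      refine ⟨a * c, κ + l, a' * c', κ' + l', hmul _ _ _ _ ha hcl, hmul _ _ _ _ ha' hcl', ?_,
        by rw [cast2_add, cast2_add]; abel⟩
      have : a * c * (a' * c')⁻¹ = a * a'⁻¹ * (c * c'⁻¹) := by
        rw [mul_inv_rev, mul_assoc a c, ← mul_assoc c,
          comm _ (mul_mem (hK _ _ hcl) (inv_mem (hK _ _ hcl'))) a'⁻¹, mul_assoc]
      rw [this]
      exact mul_mem hm hm'
    | neg v _ hv =>
      obtain ⟨a, κ, a', κ', ha, ha', hm, rfl⟩ := hv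
      exact ⟨a', κ', a, κ, ha', ha, by simpa using inv_mem hm, neg_sub _ _⟩
  obtain ⟨κ, hκ⟩ := htot u hu
  obtain ⟨a, l, a', l', ha, ha', hm, e⟩ := reach (cast2 κ - cast2 κ1)
    (hS.ge ⟨u, κ, 1, κ1, hκ, h1, rfl⟩)
  have el : κ + l' = l + κ1 := cast2_inj (by rw [cast2_add, cast2_add]; linear_combination e)
  have hd : u * a' * (a * 1)⁻¹ ∈ H :=
    Subgroup.subset_closure (Or.inl ⟨_, _, l + κ1, el ▸ hmul _ _ _ _ hκ ha', hmul _ _ _ _ ha h1, rfl⟩)
  have := mul_mem hd hm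
  have e2 : u * a' * (a * 1)⁻¹ * (a * a'⁻¹) = u := by
    rw [mul_one, mul_assoc, inv_mul_cancel_left, mul_assoc, mul_inv_cancel, mul_one]
  rwa [e2] at this

end Vale.Agent.P196.Full.Kernel
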