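import Vale.Agent.P196.Full.Universal.Kernel.Rules

/-!
# P196: splitting a word at a coarse grid

Every positive word is, at every coarse enough grid, a product of a face element, two arms and a
ball, the last three following rules of motion that do not depend on the level.
-/

namespace Vale.Agent.P196.Full.Kernel

variable {X : Type} [TopologicalSpace X] {n : ℕ} {S : Sys X}

/-- The offsets of a generator. -/
def offs (g : Gen X n) : Finset Lat := {g.p.1, g.q.1, g.r.1}

/-- All the offsets of a generator are within `R` of each other. -/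
def SpanLE (g : Gen X n) (R : ℕ) : Prop :=
  ∀ u ∈ offs g, ∀ v ∈ offs g, (u.1 - v.1).natAbs ≤ R ∧ (u.2 - v.2).natAbs ≤ R

/-- The sum of the absolute values of the coordinates of the offsets. -/
def size (g : Gen X n) : ℕ :=
  g.p.1.1.natAbs + g.p.1.2.natAbs + g.q.1.1.natAbs + g.q.1.2.natAbs + g.r.1.1.natAbs +
    g.r.1.2.natAbs

theorem natAbs_le_size {g : Gen X n} {v : Lat} (hv : v ∈ offs g) :
    v.1.natAbs + v.2.natAbs ≤ size g := by
  simp only [offs, Finset.mem_insert, Finset.mem_singleton] at hv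
  rcases hv with rfl | rfl | rfl <;> simp only [size] <;> omega

variable (T : Tower S) (g : Gen X n)

/-- Some cell is in the ball. -/
def ClB (r : ℕ) (m : ℕ) (c : Ph T m) : Prop := ∃ a ∈ offs g, InBall T m r (c + res T m a)

/-- Some cell is next to the grid line of the axis. -/
def ClA (ax : Bool) (s : ℕ) (m : ℕ) (c : Ph T m) : Prop :=
  ∃ a ∈ offs g, hd (crs T m ax (c + res T m a)) < s

/-- The class of the ball. -/
def Cls0 (r : ℕ) (m : ℕ) (c : Ph T m) : Prop := ClB T g r m c

/-- The class of an arm. -/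
def Cls1 (r s : ℕ) (ax : Bool) (m : ℕ) (c : Ph T m) : Prop :=
  ¬ ClB T g r m c ∧ ClA T g ax s m c ∧ (ax = true → ¬ ClA T g false s m c)

/-- The class of the faces. -/
def Cls2 (r s : ℕ) (m : ℕ) (c : Ph T m) : Prop :=
  ¬ ClB T g r m c ∧ ¬ ClA T g false s m c ∧ ¬ ClA T g true s m c

theorem crs_eq_alg {m : ℕ} (ax : Bool) (c : Ph T m) : crs T m ax c = alg T m (!ax) c := by
  cases ax <;> rfl

theorem vis_clB (r K : ℕ) (h : r + size g ≤ K) : Vis T K (ClB T g r) := by
  have one : ∀ a ∈ offs g, Vis T K fun m c => InBall T m r (c + res T m a) := fun a ha => by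
    have := natAbs_le_size ha
    exact (vis_hd (T := T) false r K a (by simp; omega)).op And
      (vis_hd true r K a (by simp; omega))
  obtain ⟨P1, h1⟩ := (one g.p.1 (by simp [offs])).op Or ((one g.q.1 (by simp [offs])).op Or
    (one g.r.1 (by simp [offs])))
  refine ⟨P1, fun m hW c => Iff.trans ?_ (h1 m hW c)⟩
  simp only [ClB, offs, Finset.mem_insert, Finset.mem_singleton]
  exact ⟨fun ⟨a, ha, e⟩ => by rcases ha with rfl | rfl | rfl <;> tauto,
    fun e => by rcases e with e | e | e <;> exact ⟨_, by tauto, e⟩⟩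

theorem vis_clA (ax : Bool) (s K : ℕ) (h : s + size g ≤ K) : Vis T K (ClA T g ax s) := by
  have one : ∀ a ∈ offs g, Vis T K fun m c => hd (crs T m ax (c + res T m a)) < s := fun a ha => by
    have := natAbs_le_size ha
    obtain ⟨P, hP⟩ := vis_hd (T := T) (!ax) s K a (by cases ax <;> simp <;> omega)
    exact ⟨P, fun m hW c => by beta_reduce; rw [crs_eq_alg]; exact hP m hW c⟩
  obtain ⟨P1, h1⟩ := (one g.p.1 (by simp [offs])).op Or ((one g.q.1 (by simp [offs])).op Or
    (one g.r.1 (by simp [offs])))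
  refine ⟨P1, fun m hW c => Iff.trans ?_ (h1 m hW c)⟩
  simp only [ClA, offs, Finset.mem_insert, Finset.mem_singleton]
  exact ⟨fun ⟨a, ha, e⟩ => by rcases ha with rfl | rfl | rfl <;> tauto,
    fun e => by rcases e with e | e | e <;> exact ⟨_, by tauto, e⟩⟩

variable {T g} {m : ℕ}

/-- A piece lies in a box as soon as every class can be placed there. -/
theorem piece_mem_Fr {P : Ph T m → Prop} {L : Finset Lat}
    (h : ∀ c, P c → ∃ v : Lat, res T m v = c ∧ ∀ a ∈ offs g, v + a ∈ L) :
    ugen S (piece T m g P) ∈ Fr T m L := by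
  have : NeZero (T.W m) := ⟨(T.W_pos m).ne'⟩
  refine ugen_mem_of_fibres _ _ (T.isLocallyConstant_phase m) fun V hV hc => ?_
  by_cases hne : ∃ y, y ∈ V
  swap
  · rw [ugen_empty]
    · exact one_mem _
    · exact Set.eq_empty_iff_forall_notMem.2 fun x hx => hne ⟨x, hx⟩
  obtain ⟨y, hy⟩ := hne
  obtain ⟨v, hv, hL⟩ := h _ (hV hy).2
  rw [← ugen_move ((piece T m g P).withU V) (-v)]
  refine Subgroup.subset_closure ⟨_, ⟨fun x hx => ?_, ?_, ?_, ?_⟩, rfl⟩
  · have hx' : S.sh v x ∈ (V : Set X) := by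
      have := hx
      simpa [Gen.move, Gen.withU, Sys.mem_translate] using this
    show x ∈ base T m
    rw [mem_base]
    have e := T.phase_sh m v x
    rw [hc _ hx' y hy, ← hv] at e
    exact left_eq_add.1 (e.trans (add_comm _ _))
  all_goals
    simp only [Gen.move, Gen.withU, piece, sub_neg_eq_add, add_comm _ v]
    exact hL _ (by simp [offs])

theorem movesIn_piece {P : Ph T m → Prop} {Q : Ph T m → Fin n → Prop}
    (h : ∀ c, P c → ∀ a ∈ offs g, ∀ k, Q (c + res T m a) k) :
    MovesIn T m (ugen S (piece T m g P)) Q := by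
  intro z hz
  rw [ueval_ugen]
  refine (piece T m g P).perm_apply_of_notMem fun hs => hz ?_
  obtain ⟨a, ha, -, hU⟩ := (Gen.mem_supp_iff _ _).1 hs
  have e : T.phase m z.1 = T.phase m (S.sh (-a.1) z.1) + res T m a.1 := T.phase_of_translate
  rw [e]
  refine h _ hU.2 _ ?_ _
  rcases ha with rfl | rfl | rfl <;> simp [offs, piece, Gen.withU]

/-- A coordinate far from the grid line places all cells inside one period. -/
theorem place_inside {N : ℕ} [NeZero N] (t : Finset ℤ) (R : ℕ) (c : ZMod N) {a0 : ℤ} (_ha0 : a0 ∈ t)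
    (hsp : ∀ a ∈ t, (a - a0).natAbs ≤ R) (hr : R ≤ hd (c + (a0 : ZMod N))) :
    ∃ i : ℤ, (i : ZMod N) = c ∧ ∀ a ∈ t, 0 ≤ i + a ∧ i + a < N := by
  set u := (c + (a0 : ZMod N)).val
  have hu : u < N := ZMod.val_lt _
  refine ⟨(u : ℤ) - a0, by simp [u], fun a ha => ?_⟩
  have := hsp a ha
  unfold hd at hr
  omega

/-- A coordinate near the grid line places all cells in a symmetrical range. -/
theorem place_near {N : ℕ} [NeZero N] (t : Finset ℤ) (R s : ℕ) (c : ZMod N) {a0 : ℤ}
    (hsp : ∀ a ∈ t, (a - a0).natAbs ≤ R) (hr : hd (c + (a0 : ZMod N)) < s) :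
    ∃ i : ℤ, (i : ZMod N) = c ∧
      ∀ a ∈ t, -((s + R : ℕ) : ℤ) ≤ i + a ∧ i + a < (s + R : ℕ) := by
  obtain ⟨j, hj, hd'⟩ := exists_cast_hdi (c + (a0 : ZMod N))
  rw [← hd', hdi_lt] at hr
  refine ⟨j - a0, by simp [← hj], fun a ha => ?_⟩
  have := hsp a ha
  omega

/-- A coordinate of an offset. -/
def lalc (ax : Bool) (v : Lat) : ℤ := if ax then v.2 else v.1

theorem lal_mem_image (ax : Bool) {a : Lat} (ha : a ∈ offs g) :
    lalc ax a ∈ (offs g).image (lalc ax) := Finset.mem_image_of_mem _ ha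

theorem SpanLE.coord {R : ℕ} (h : SpanLE g R) (ax : Bool) {u : Lat} (hu : u ∈ offs g) :
    ∀ a ∈ (offs g).image (lalc ax), (a - lalc ax u).natAbs ≤ R := by
  intro a ha
  obtain ⟨v, hv, rfl⟩ := Finset.mem_image.1 ha
  cases ax
  exacts [(h v hv u hu).1, (h v hv u hu).2]

theorem alg_add (ax : Bool) (c : Ph T m) (a : Lat) :
    alg T m ax (c + res T m a) = alg T m ax c + ((lalc ax a : ℤ) : ZMod (T.W m)) := by
  cases ax <;> rfl

theorem hd_spread {R : ℕ} (h : SpanLE g R) (ax : Bool) (c : Ph T m) {a b : Lat}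
    (ha : a ∈ offs g) (hb : b ∈ offs g) :
    hd (alg T m ax (c + res T m b)) ≤ hd (alg T m ax (c + res T m a)) + R := by
  have : NeZero (T.W m) := ⟨(T.W_pos m).ne'⟩
  have hh := h.coord ax ha (lalc ax b) (lal_mem_image ax hb)
  have e : alg T m ax (c + res T m b) =
      alg T m ax (c + res T m a) + ((lalc ax b - lalc ax a : ℤ) : ZMod (T.W m)) := by
    rw [alg_add, alg_add]; simp
  rw [e]
  exact (hd_add_le _ _).trans (by omega)

/-- What a step needs about the pieces of a letter. -/
theorem pieces_spec {R r s : ℕ} (h : SpanLE g R) (hsr : s + R ≤ r) (hRs : R ≤ s) :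
    ugen S (piece T m g (Cls0 T g r m)) ∈ Fr T m (ball (r + R)) ∧
    MovesIn T m (ugen S (piece T m g (Cls0 T g r m))) (fun c _ => InBall T m (r + R) c) ∧
    (∀ ax, ugen S (piece T m g (Cls1 T g r s ax m)) ∈ Fr T m (strip T m ax (s + R)) ∧
      MovesIn T m (ugen S (piece T m g (Cls1 T g r s ax m)))
        (fun c _ => hd (crs T m ax c) < s + R ∧ r ≤ hd (alg T m ax c))) ∧
    ugen S (piece T m g (Cls2 T g r s m)) ∈ Fr T m (face T m) ∧
    MovesIn T m (ugen S (piece T m g (Cls2 T g r s m)))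
        (fun c _ => s ≤ hd c.1 ∧ s ≤ hd c.2 ∧ ¬ InBall T m r c) := by
  have : NeZero (T.W m) := ⟨(T.W_pos m).ne'⟩
  have hp : g.p.1 ∈ offs g := by simp [offs]
  have inball : ∀ c, Cls0 T g r m c → ∀ a ∈ offs g, InBall T m (r + R) (c + res T m a) := by
    rintro c ⟨a0, ha0, h1, h2⟩ a ha
    exact ⟨lt_of_le_of_lt (hd_spread (T := T) h false c ha0 ha) (Nat.add_lt_add_right h1 R),
      lt_of_le_of_lt (hd_spread (T := T) h true c ha0 ha) (Nat.add_lt_add_right h2 R)⟩
  have arm : ∀ ax c, Cls1 T g r s ax m c → ∀ a ∈ offs g,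
      hd (crs T m ax (c + res T m a)) < s + R ∧ r ≤ hd (alg T m ax (c + res T m a)) := by
    intro ax c hc a ha
    obtain ⟨hB, ⟨a0, ha0, hA⟩, -⟩ := hc
    have h1 : hd (crs T m ax (c + res T m a)) < s + R := by
      rw [crs_eq_alg] at hA ⊢
      exact lt_of_le_of_lt (hd_spread h (!ax) c ha0 ha) (Nat.add_lt_add_right hA R)
    refine ⟨h1, not_lt.1 fun hlt => hB ⟨a, ha, ?_⟩⟩
    have h1' : hd (crs T m ax (c + res T m a)) < r := lt_of_lt_of_le h1 hsr
    cases ax
    exacts [⟨hlt, h1'⟩, ⟨h1', hlt⟩]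
  have faces : ∀ c, Cls2 T g r s m c → ∀ a ∈ offs g,
      s ≤ hd (c + res T m a).1 ∧ s ≤ hd (c + res T m a).2 ∧ ¬ InBall T m r (c + res T m a) :=
    fun c hc a ha => ⟨not_lt.1 fun e => hc.2.2 ⟨a, ha, e⟩, not_lt.1 fun e => hc.2.1 ⟨a, ha, e⟩,
      fun e => hc.1 ⟨a, ha, e⟩⟩
  refine ⟨piece_mem_Fr fun c hc => ?_, movesIn_piece fun c hc a ha _ => inball c hc a ha,
    fun ax => ⟨piece_mem_Fr fun c hc => ?_, movesIn_piece fun c hc a ha _ => arm ax c hc a ha⟩,
    piece_mem_Fr fun c hc => ?_, movesIn_piece fun c hc a ha _ => faces c hc a ha⟩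
  · obtain ⟨a0, ha0, h1, h2⟩ := hc
    obtain ⟨i, hi, hi'⟩ := place_near _ R r c.1 (h.coord false ha0) h1
    obtain ⟨j, hj, hj'⟩ := place_near _ R r c.2 (h.coord true ha0) h2
    refine ⟨(i, j), Prod.ext hi hj, fun a ha => ?_⟩
    simp only [ball, Finset.mem_product, Finset.mem_Ico]
    exact ⟨hi' _ (lal_mem_image false ha), hj' _ (lal_mem_image true ha)⟩
  · obtain ⟨a0, ha0, hA⟩ := hc.2.1
    rw [crs_eq_alg, alg_add] at hA
    obtain ⟨i, hi, hi'⟩ := place_near _ R s (alg T m (!ax) c) (h.coord (!ax) ha0) hA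
    have hal := (arm ax c hc g.p.1 hp).2
    rw [alg_add] at hal
    obtain ⟨j, hj, hj'⟩ := place_inside _ R (alg T m ax c) (lal_mem_image ax hp)
      (h.coord ax hp) (le_trans (by omega) hal)
    refine ⟨axisVec ax j i, ?_, fun a ha => ?_⟩
    · cases ax
      exacts [Prod.ext hj hi, Prod.ext hi hj]
    · have e : axisVec ax j i + a = axisVec ax (j + lalc ax a) (i + lalc (!ax) a) := by
        cases ax <;> rfl
      rw [e, mem_strip]
      exact ⟨hj' _ (lal_mem_image ax ha), hi' _ (lal_mem_image (!ax) ha)⟩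
  · obtain ⟨h1, h2, -⟩ := faces c hc g.p.1 hp
    obtain ⟨i, hi, hi'⟩ := place_inside _ R c.1 (lal_mem_image false hp) (h.coord false hp)
      (le_trans hRs h1)
    obtain ⟨j, hj, hj'⟩ := place_inside _ R c.2 (lal_mem_image true hp) (h.coord true hp)
      (le_trans hRs h2)
    refine ⟨(i, j), Prod.ext hi hj, fun a ha => ?_⟩
    simp only [face, Finset.mem_product, Finset.mem_Ico]
    exact ⟨hi' _ (lal_mem_image false ha), hj' _ (lal_mem_image true ha)⟩

/-- A generator is the product of its four pieces. -/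
theorem ugen_pieces (r s : ℕ) :
    ugen S g = ugen S (piece T m g (Cls2 T g r s m)) * ugen S (piece T m g (Cls1 T g r s false m)) *
      ugen S (piece T m g (Cls1 T g r s true m)) * ugen S (piece T m g (Cls0 T g r m)) := by
  set F := piece T m g (Cls2 T g r s m)
  set A := piece T m g (Cls1 T g r s false m)
  set V := piece T m g (Cls1 T g r s true m)
  set Bp := piece T m g (Cls0 T g r m)
  set all0 : Clo X := ⟨(F.U : Set X) ∪ A.U, F.U.isClopen.union A.U.isClopen⟩
  set all1 : Clo X := ⟨(all0 : Set X) ∪ V.U, all0.isClopen.union V.U.isClopen⟩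
  have dis : ∀ {P Q : Ph T m → Prop}, (∀ c, P c → ¬ Q c) →
      Disjoint ((piece T m g P).U : Set X) ((piece T m g Q).U : Set X) := fun h =>
    Set.disjoint_left.2 fun x hx hx' => h _ hx.2 hx'.2
  have hg : ugen S g = ugen S (g.withU all1) * ugen S (g.withU Bp.U) := by
    refine ugen_add g all1 Bp.U ?_ ?_
    · refine Set.disjoint_union_left.2 ⟨Set.disjoint_union_left.2 ⟨dis fun c h => h.1,
        dis fun c h => h.1⟩, dis fun c h => h.1⟩
    · ext x
      simp only [all1, all0, TopologicalSpace.Clopens.coe_mk, Set.mem_union, F, A, V, Bp, piece_U]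
      refine ⟨fun hx => ?_, fun h => by rcases h with ((h | h) | h) | h <;> exact h.1⟩
      by_cases hB : ClB T g r m (T.phase m x)
      · exact Or.inr ⟨hx, hB⟩
      by_cases hA : ClA T g false s m (T.phase m x)
      · exact Or.inl (Or.inl (Or.inr ⟨hx, hB, hA, fun e => absurd e Bool.false_ne_true⟩))
      by_cases hV : ClA T g true s m (T.phase m x)
      · exact Or.inl (Or.inr ⟨hx, hB, hV, fun _ => hA⟩)
      · exact Or.inl (Or.inl (Or.inl ⟨hx, hB, hA, hV⟩))
  have h1 : ugen S (g.withU all1) = ugen S (g.withU all0) * ugen S (g.withU V.U) :=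
    ugen_add (g.withU all1) all0 V.U (Set.disjoint_union_left.2
      ⟨dis fun c h h' => h.2.2 h'.2.1, dis fun c h h' => h'.2.2 rfl h.2.1⟩) rfl
  have h0 : ugen S (g.withU all0) = ugen S (g.withU F.U) * ugen S (g.withU A.U) :=
    ugen_add (g.withU all0) F.U A.U (dis fun c h h' => h.2.1 h'.2.1) rfl
  rw [hg, h1, h0]
  rfl

/-- Splitting of positive words. -/
theorem exists_decomp_aux (T : Tower S) (R L : ℕ) (hR : 1 ≤ R) :
    ∀ ws : List (Gen X n), ws.length ≤ L → (∀ g ∈ ws, SpanLE g R) →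
      ∃ (C : ℕ) (rγ : Rule S n) (rδ : Bool → Rule S n), ∀ m, C ≤ T.W m →
        ∃ (a γ : UGroup S n) (δ : Bool → UGroup S n),
          (ws.map (ugen S)).prod = a * δ false * δ true * γ ∧
          a ∈ Fr T m (face T m) ∧ γ ∈ Fr T m (ball ((L + 2) * R + ws.length * R)) ∧
          MovesIn T m γ (fun c _ => InBall T m ((L + 2) * R + ws.length * R) c) ∧
          Follows T m γ rγ ∧
          ∀ ax, δ ax ∈ Fr T m (strip T m ax ((ws.length + 1) * R)) ∧
            MovesIn T m (δ ax) (fun c _ => hd (crs T m ax c) < (ws.length + 1) * R ∧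
              (L + 2) * R ≤ hd (alg T m ax c)) ∧ Follows T m (δ ax) (rδ ax) := by
  intro ws
  induction ws using List.reverseRecOn with
  | nil =>
    intro _ _
    exact ⟨0, Rule.id S n, fun _ => Rule.id S n, fun m _ => ⟨1, 1, fun _ => 1, by simp,
      one_mem _, one_mem _, MovesIn.one, follows_one,
      fun _ => ⟨one_mem _, MovesIn.one, follows_one⟩⟩⟩
  | append_singleton ws g ih =>
    intro hlen hsp
    rw [List.length_append, List.length_singleton] at hlen
    obtain ⟨C, rγ, rδ, h⟩ := ih (by omega) fun u hu => hsp u (by simp [hu])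
    have hg := hsp g (by simp)
    set s := (ws.length + 1) * R with hs
    set r := (L + 2) * R + ws.length * R with hr
    have hRs : R ≤ s := Nat.le_mul_of_pos_left R (by omega)
    have hsr : s + R ≤ r := by
      rw [hs, hr, Nat.add_mul, Nat.add_mul, Nat.one_mul]
      omega
    set K := r + s + size g with hK
    obtain ⟨P0, h0⟩ := vis_clB T g r K (by omega)
    have v1 : ∀ ax, Vis T K (Cls1 T g r s ax) := fun ax => by
      have hA := vis_clA T g ax s K (by omega)
      have hA0 := vis_clA T g false s K (by omega)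
      have hB := (vis_clB T g r K (by omega)).not
      cases ax
      · obtain ⟨P, hP⟩ := hB.op And hA
        exact ⟨P, fun m hW c => by rw [← hP m hW c]; simp [Cls1]⟩
      · obtain ⟨P, hP⟩ := hB.op And (hA.op And hA0.not)
        exact ⟨P, fun m hW c => by rw [← hP m hW c]; simp [Cls1]⟩
    choose P1 h1 using v1
    set rp0 := pieceRule S g K P0
    set rp1 := fun ax => pieceRule S g K (P1 ax)
    refine ⟨C + 2 * K + 2 * rp0.K + 2 * (rp1 false).K + 2 * (rp1 true).K + 2 * (rγ.comp rp0).K +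
        2 * ((rδ false).comp (rp1 false)).K + 2 * ((rδ true).comp (rp1 true)).K + 2 * (r + R),
      rγ.comp rp0, fun ax => (rδ ax).comp (rp1 ax), fun m hm => ?_⟩
    obtain ⟨a, γ, δ, he, ha, hγ, hγm, hγf, hδ⟩ := h m (by omega)
    have hW0 : 2 * rp0.K ≤ T.W m ∧ 2 * (rγ.comp rp0).K ≤ T.W m := by omega
    have hW1 : ∀ ax, 2 * (rp1 ax).K ≤ T.W m ∧ 2 * ((rδ ax).comp (rp1 ax)).K ≤ T.W m := fun ax => by
      cases ax <;> omega
    obtain ⟨q0, q0m, q1, q2, q2m⟩ := pieces_spec (T := T) (m := m) hg hsr hRs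
    set F := ugen S (piece T m g (Cls2 T g r s m))
    set A := fun ax => ugen S (piece T m g (Cls1 T g r s ax m))
    set Bp := ugen S (piece T m g (Cls0 T g r m))
    have hiB : InjMod T m (ball r) := injMod_ball (by omega)
    have hiS : ∀ ax, InjMod T m (strip T m ax s) := fun ax => injMod_strip (by omega)
    have hLr : (L + 2) * R ≤ r := Nat.le_add_right _ _
    have hsL : s + R ≤ (L + 2) * R := by
      rw [hs, ← Nat.succ_mul]
      exact Nat.mul_le_mul_right R (by omega)
    have cγF : Commute γ F := commute_of_moves hiB hγ hγm q2m fun c _ hb hf => hf.2.2 hb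
    have cδF : ∀ ax, Commute (δ ax) F := fun ax =>
      commute_of_moves (hiS ax) (hδ ax).1 (hδ ax).2.1 q2m fun c _ hb hf => by
        cases ax <;> simp only [crs, if_true, if_false, Bool.false_eq_true] at hb <;> omega
    have cγA : ∀ ax, Commute γ (A ax) := fun ax =>
      commute_of_moves hiB hγ hγm (q1 ax).2 fun c _ hb hf => by
        cases ax <;> simp only [InBall, alg, if_true, if_false, Bool.false_eq_true] at hb hf <;> omega
    have cδA : Commute (δ true) (A false) :=
      commute_of_moves (hiS true) (hδ true).1 (hδ true).2.1 (q1 false).2 fun c _ hb hf => by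
        simp only [crs, alg, if_true, if_false, Bool.false_eq_true] at hb hf
        omega
    refine ⟨a * F, γ * Bp, fun ax => δ ax * A ax, ?_, mul_mem ha q2, ?_, ?_, ?_, ?_⟩
    · rw [List.map_append, List.prod_append, List.map_singleton, List.prod_singleton, he,
        ugen_pieces (T := T) (m := m) (g := g) r s]
      show a * δ false * δ true * γ * (F * A false * A true * Bp) =
        a * F * (δ false * A false) * (δ true * A true) * (γ * Bp)
      simp only [mul_assoc]
      rw [cγF.left_comm, (cδF true).left_comm, (cδF false).left_comm, (cγA false).left_comm,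
        cδA.left_comm, (cγA true).left_comm]
    all_goals try simp only [List.length_append, List.length_singleton]
    all_goals try rw [show ((L + 2) * R + (ws.length + 1) * R) = r + R by rw [hr, Nat.add_mul ws.length 1 R, Nat.one_mul, Nat.add_assoc]]
    · exact mul_mem (Fr_mono (ball_mono (Nat.le_add_right _ _)) hγ) q0
    · exact (hγm.mono fun c _ hb => ⟨lt_of_lt_of_le hb.1 (Nat.le_add_right _ _),
        lt_of_lt_of_le hb.2 (Nat.le_add_right _ _)⟩).mul q0m
    · exact hγf.mul (follows_piece g (fun c => h0 m (by omega) c) hW0.1) hW0.2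
    · intro ax
      rw [show (ws.length + 1 + 1) * R = s + R by rw [hs, Nat.succ_mul]]
      refine ⟨mul_mem (Fr_mono (strip_mono (Nat.le_add_right _ _)) (hδ ax).1) (q1 ax).1,
        ((hδ ax).2.1.mono fun c _ hb => ⟨lt_of_lt_of_le hb.1 (Nat.le_add_right _ _), hb.2⟩).mul
          ((q1 ax).2.mono fun c _ hb => ⟨hb.1, le_trans hLr hb.2⟩), ?_⟩
      exact (hδ ax).2.2.mul (follows_piece g (fun c => h1 ax m (by omega) c) (hW1 ax).1) (hW1 ax).2

/-- The splitting of a word, uniformly in the level. -/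
theorem exists_decomp (T : Tower S) (ws : List (Gen X n)) :
    ∃ (s ρ C : ℕ) (rγ : Rule S n) (rδ : Bool → Rule S n), 0 < s ∧ s ≤ ρ ∧ ∀ m, C ≤ T.W m →
      ∃ (a γ : UGroup S n) (δ : Bool → UGroup S n),
        (ws.map (ugen S)).prod = a * δ false * δ true * γ ∧
        a ∈ Fr T m (face T m) ∧ γ ∈ Fr T m (ball ρ) ∧ MovesIn T m γ (fun c _ => InBall T m ρ c) ∧
        Follows T m γ rγ ∧
        ∀ ax, δ ax ∈ Fr T m (strip T m ax s) ∧
          MovesIn T m (δ ax) (fun c _ => InArm T m ax s c) ∧ Follows T m (δ ax) (rδ ax) := by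
  classical
  set R := ((ws.map size).sum + ws.length) * 2 + 1
  obtain ⟨C, rγ, rδ, h⟩ := exists_decomp_aux T R ws.length (by omega) ws le_rfl fun g hg u hu v hv => by
    have h1 : size g ≤ (ws.map size).sum :=
      List.single_le_sum (fun _ _ => Nat.zero_le _) _ (List.mem_map_of_mem hg)
    have := natAbs_le_size hu
    have := natAbs_le_size hv
    omega
  refine ⟨(ws.length + 1) * R, (ws.length + 2) * R + ws.length * R, C, rγ, rδ,
    Nat.mul_pos (by omega) (by omega),
    le_trans (Nat.mul_le_mul_right R (by omega)) (Nat.le_add_right _ _), fun m hm => ?_⟩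
  obtain ⟨a, γ, δ, he, ha, hγ, hγm, hγf, hδ⟩ := h m hm
  refine ⟨a, γ, δ, he, ha, hγ, hγm, hγf, fun ax => ⟨(hδ ax).1, (hδ ax).2.1.mono fun c _ hb => ?_,
    (hδ ax).2.2⟩⟩
  exact ⟨hb.1, le_trans (Nat.mul_le_mul_right R (by omega)) hb.2⟩

end Vale.Agent.P196.Full.Kernel
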