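import Mathlib

/-!
# P196: the sign of a permutation from two orders

If `g ∘ π = f` for two integer keys, the sign of `π` is the product of the inversion signs of `f`
and of `g` with respect to any third key.
-/

namespace Vale.Agent.P196.Full.Kernel

variable {M : Type*} [Fintype M]

/-- The inversion sign at `y`: over the later points, whether the key keeps the order. -/
def invAt (k f : M → ℤ) (y : M) : ℤˣ :=
  ∏ y' ∈ Finset.univ.filter (fun y' => k y < k y'), if f y < f y' then 1 else -1

theorem sign_eq_inv [DecidableEq M] {k f g : M → ℤ} (hk : Function.Injective k)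
    (hf : Function.Injective f) (hg : Function.Injective g) (π : Equiv.Perm M)
    (h : ∀ y, g (π y) = f y) :
    Equiv.Perm.sign π = (∏ y, invAt k f y) * ∏ y, invAt k g y := by
  classical
  let _ : LinearOrder M := LinearOrder.lift' k hk
  set e : Fin (Fintype.card M) ≃o M := monoEquivOfFin M rfl
  have key : ∀ F : M → ℤ, Function.Injective F → ((∏ y, invAt k F y : ℤˣ) : ℤ) =
      ∏ i, ∏ j ∈ Finset.Ioi i, Int.sign (F (e j) - F (e i)) := by
    intro F hF
    rw [Units.coe_prod, ← e.toEquiv.prod_comp]
    refine Finset.prod_congr rfl fun i _ => ?_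
    rw [invAt, Units.coe_prod]
    refine (Finset.prod_bij (fun j _ => e j) ?_ (fun _ _ _ _ he => e.injective he) ?_ ?_).symm
    · intro j hj
      simp only [Finset.mem_filter, Finset.mem_univ, true_and]
      exact e.lt_iff_lt.2 (Finset.mem_Ioi.1 hj)
    · intro y hy
      simp only [Finset.mem_filter, Finset.mem_univ, true_and] at hy
      refine ⟨e.symm y, Finset.mem_Ioi.2 ?_, e.apply_symm_apply y⟩
      exact e.lt_iff_lt.1 (by rw [e.apply_symm_apply]; exact hy)
    · intro j hj
      have hne : F (e i) ≠ F (e j) := fun he =>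
        (Finset.mem_Ioi.1 hj).ne (e.injective (hF he))
      show Int.sign (F (e j) - F (e i)) = ((if F (e.toEquiv i) < F (e j) then 1 else -1 : ℤˣ) : ℤ)
      rcases lt_or_gt_of_ne hne with hl | hl
      · rw [Int.sign_eq_one_of_pos (by omega), if_pos (show F (e.toEquiv i) < F (e j) from hl)]; rfl
      · rw [Int.sign_eq_neg_one_of_neg (by omega),
          if_neg (show ¬ F (e.toEquiv i) < F (e j) from fun hh => absurd hh (not_lt.2 hl.le))]
        rfl
  have main := Equiv.Perm.prod_Ioi_comp_eq_sign_mul_prod (e.toEquiv.symm.permCongr π)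
    (f := fun i j => Int.sign (g (e j) - g (e i)))
    (fun i j => by rw [← Int.sign_neg, neg_sub])
  have hl : (∏ i, ∏ j ∈ Finset.Ioi i, Int.sign (g (e ((e.toEquiv.symm.permCongr π) j)) -
      g (e ((e.toEquiv.symm.permCongr π) i)))) = ((∏ y, invAt k f y : ℤˣ) : ℤ) := by
    rw [key f hf]
    simp [Equiv.permCongr_apply, h]
  rw [hl, ← key g hg, Equiv.Perm.sign_permCongr, Int.cast_id, ← Units.val_mul, Units.val_inj]
    at main
  rw [main, mul_assoc, Int.units_mul_self, mul_one]

end Vale.Agent.P196.Full.Kernel
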