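import Vale.Agent.P196.Full.Universal.Kernel.Cells
import Vale.Agent.P196.Full.Universal.Kernel.Inv

/-!
# P196: straightening a permutation of a strip

A permutation of a strip that changes sides only near its two ends is a product of a permutation
of the two sides, two permutations near the ends, and the swaps of the slots.
-/

namespace Vale.Agent.P196.Full.Kernel

variable {X : Type} [TopologicalSpace X] {n : ℕ} {S : Sys X}

section Pick

variable {α : Type*} [Fintype α] [DecidableEq α]

theorem exists_perm_image (N A B : Finset α) (hA : A ⊆ N) (hB : B ⊆ N) (h : A.card = B.card) :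
    ∃ π : Equiv.Perm α, (∀ z, z ∉ N → π z = z) ∧ ∀ z ∈ N, (π z ∈ B ↔ z ∈ A) := by
  classical
  have hc : Fintype.card {z : ↥N // (z : α) ∈ A} = Fintype.card {z : ↥N // (z : α) ∈ B} := by
    rw [Fintype.card_congr (Equiv.subtypeSubtypeEquivSubtype (p := fun z => z ∈ N)
        (q := fun z => z ∈ A) fun hz => hA hz),
      Fintype.card_congr (Equiv.subtypeSubtypeEquivSubtype (p := fun z => z ∈ N)
        (q := fun z => z ∈ B) fun hz => hB hz),
      Fintype.card_coe, Fintype.card_coe, h]
  set e := Fintype.equivOfCardEq hc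
  set π0 : Equiv.Perm ↥N := e.extendSubtype
  refine ⟨π0.ofSubtype, fun z hz => π0.ofSubtype_apply_of_not_mem hz, fun z hz => ?_⟩
  rw [π0.ofSubtype_apply_of_mem hz]
  constructor
  · intro hb
    by_contra ha
    exact e.extendSubtype_not_mem ⟨z, hz⟩ ha hb
  · exact e.extendSubtype_mem ⟨z, hz⟩

open Classical in
/-- A chosen permutation of `N` mapping `A` onto `B`. -/
noncomputable def pick (N A B : Finset α) : Equiv.Perm α :=
  if h : ∃ π : Equiv.Perm α, (∀ z, z ∉ N → π z = z) ∧ ∀ z ∈ N, (π z ∈ B ↔ z ∈ A)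
  then h.choose else 1

theorem pick_of_notMem (N A B : Finset α) {z : α} (hz : z ∉ N) : pick N A B z = z := by
  classical
  unfold pick
  split_ifs with h
  exacts [h.choose_spec.1 z hz, rfl]

theorem pick_mem_iff {N A B : Finset α} (hA : A ⊆ N) (hB : B ⊆ N) (h : A.card = B.card) {z : α}
    (hz : z ∈ N) : pick N A B z ∈ B ↔ z ∈ A := by
  classical
  rw [pick, dif_pos (exists_perm_image N A B hA hB h)]
  exact (exists_perm_image N A B hA hB h).choose_spec.2 z hz

theorem pick_mem {N A B : Finset α} {z : α} (hz : z ∈ N) : pick N A B z ∈ N := by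
  by_contra hc
  have := (pick N A B).injective (pick_of_notMem N A B hc)
  exact hc (by rw [this]; exact hz)

end Pick

variable {T : Tower S} {m : ℕ} {ax : Bool} {B : ℕ}

/-- The cells closer to the edge than to its ends. -/
def Cone (z : Cell n T m ax B) : Prop :=
  (hdi (cr z) : ℤ) < al z ∧ (hdi (cr z) : ℤ) < (T.W m : ℤ) - 1 - al z

instance : DecidablePred (Cone (n := n) (T := T) (m := m) (ax := ax) (B := B)) :=
  fun z => inferInstanceAs (Decidable (_ ∧ _))

/-- The permutation keeps the sides. -/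
def KeepsSides (π : Equiv.Perm (Cell n T m ax B)) : Prop := ∀ z, Up (π z) ↔ Up z

theorem KeepsSides.mul {π π' : Equiv.Perm (Cell n T m ax B)} (h : KeepsSides π)
    (h' : KeepsSides π') : KeepsSides (π * π') := fun z => (h _).trans (h' z)

theorem KeepsSides.inv {π : Equiv.Perm (Cell n T m ax B)} (h : KeepsSides π) :
    KeepsSides π⁻¹ := fun z => by
  have := h (π⁻¹ z)
  rw [Equiv.Perm.coe_inv, Equiv.apply_symm_apply] at this
  exact this.symm

theorem KeepsSides.swap {u v : Cell n T m ax B} (h : Up u ↔ Up v) :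
    KeepsSides (Equiv.swap u v) := fun z => by
  rcases eq_or_ne z u with rfl | hu
  · rw [Equiv.swap_apply_left]; exact h.symm
  rcases eq_or_ne z v with rfl | hv
  · rw [Equiv.swap_apply_right]; exact h
  rw [Equiv.swap_apply_of_ne_of_ne hu hv]

open Classical in
/-- The restriction to the upper side. -/
noncomputable def upPart (π : Equiv.Perm (Cell n T m ax B)) : Equiv.Perm (Cell n T m ax B) :=
  if h : KeepsSides π then (π.subtypePerm (p := Up) h).ofSubtype else 1

theorem upPart_of_up {π : Equiv.Perm (Cell n T m ax B)} (h : KeepsSides π) {z : Cell n T m ax B}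
    (hz : Up z) : upPart π z = π z := by
  rw [upPart, dif_pos h, Equiv.Perm.ofSubtype_apply_of_mem _ hz]
  rfl

theorem upPart_of_not_up (π : Equiv.Perm (Cell n T m ax B)) {z : Cell n T m ax B} (hz : ¬ Up z) :
    upPart π z = z := by
  unfold upPart
  split_ifs
  exacts [Equiv.Perm.ofSubtype_apply_of_not_mem _ hz, rfl]

/-- The sign on the upper side. -/
noncomputable def upSign (π : Equiv.Perm (Cell n T m ax B)) : ℤˣ := Equiv.Perm.sign (upPart π)

theorem upSign_mul {π π' : Equiv.Perm (Cell n T m ax B)} (h : KeepsSides π) (h' : KeepsSides π') :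
    upSign (π * π') = upSign π * upSign π' := by
  rw [upSign, upSign, upSign, ← map_mul]
  refine congrArg _ (Equiv.ext fun z => ?_)
  by_cases hz : Up z
  · rw [Equiv.Perm.mul_apply, upPart_of_up h' hz, upPart_of_up h ((h' z).2 hz),
      upPart_of_up (h.mul h') hz, Equiv.Perm.mul_apply]
  · rw [Equiv.Perm.mul_apply, upPart_of_not_up _ hz, upPart_of_not_up _ hz,
      upPart_of_not_up _ hz]

theorem upSign_swap_up {u v : Cell n T m ax B} (hne : u ≠ v) (hu : Up u) (hv : Up v) :
    upSign (Equiv.swap u v) = -1 := by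
  rw [upSign, ← Equiv.Perm.sign_swap hne]
  refine congrArg _ (Equiv.ext fun z => ?_)
  by_cases hz : Up z
  · exact upPart_of_up (KeepsSides.swap (iff_of_true hu hv)) hz
  · rw [upPart_of_not_up _ hz, Equiv.swap_apply_of_ne_of_ne]
    · exact fun e => hz (e ▸ hu)
    · exact fun e => hz (e ▸ hv)

theorem upSign_swap_down {u v : Cell n T m ax B} (hu : ¬ Up u) (hv : ¬ Up v) :
    upSign (Equiv.swap u v) = 1 := by
  rw [upSign, ← map_one (Equiv.Perm.sign (α := Cell n T m ax B))]
  refine congrArg _ (Equiv.ext fun z => ?_)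
  by_cases hz : Up z
  · rw [upPart_of_up (KeepsSides.swap (iff_of_false hu hv)) hz, Equiv.swap_apply_of_ne_of_ne]
    · rfl
    · exact fun e => hu (e ▸ hz)
    · exact fun e => hv (e ▸ hz)
  · rw [upPart_of_not_up _ hz, Equiv.Perm.one_apply]

theorem upSign_one : upSign (1 : Equiv.Perm (Cell n T m ax B)) = 1 := by
  have e := upSign_mul (π := (1 : Equiv.Perm (Cell n T m ax B))) (π' := 1) (fun _ => Iff.rfl)
    (fun _ => Iff.rfl)
  rw [one_mul] at e
  exact left_eq_mul.1 e

/-- The extent of the slots. -/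
def zone (b : ℕ) (o κ : ℕ × ℕ) : ℕ := 2 * b + (o.1 + o.2 + κ.1 + κ.2)

/-- What is assumed on the permutation. -/
structure EdgeOK (_hn : 8 ≤ n) (b : ℕ) (o κ : ℕ × ℕ) (σ : Equiv.Perm (Cell n T m ax B)) : Prop where
  hb : 2 ≤ b
  hB : b < B
  hBW : 2 * B ≤ T.W m
  hW : 4 * (zone b o κ + 1) ≤ T.W m
  even : Equiv.Perm.sign σ = 1
  moved : ∀ z, σ z ≠ z → hdi (cr z) < b ∧ Cone z
  middle : ∀ z, 2 * (b : ℤ) ≤ al z → al z < (T.W m : ℤ) - 2 * b → (Up (σ z) ↔ Up z)
  flow : ∑ z ∈ Finset.univ.filter (fun z : Cell n T m ax B => al z < 2 * (b : ℤ)),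
    ((if Up z then (1 : ℤ) else 0) - if Up (σ z) then 1 else 0) = (κ.2 : ℤ) - κ.1

section Edge

variable (hn : 8 ≤ n) (b : ℕ) (o κ : ℕ × ℕ)

/-- The cells near the near end. -/
def InNear (z : Cell n T m ax B) : Prop :=
  (al z < 2 * (b : ℤ) ∧ (hdi (cr z) : ℤ) < al z) ∨
    (z.2 = col hn 0 ∧ Sl b o κ (al z) (cr z))

/-- The cells near the far end. -/
def InFar (z : Cell n T m ax B) : Prop :=
  ((T.W m : ℤ) - 2 * b ≤ al z ∧ (hdi (cr z) : ℤ) < (T.W m : ℤ) - 1 - al z) ∨
    (z.2 = col hn 0 ∧ Sl b o κ ((T.W m : ℤ) - 1 - al z) (-1 - cr z))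

open Classical in
/-- The near cells. -/
noncomputable def nearN : Finset (Cell n T m ax B) := Finset.univ.filter (InNear hn b o κ)

open Classical in
/-- The far cells. -/
noncomputable def farN : Finset (Cell n T m ax B) := Finset.univ.filter (InFar hn b o κ)

variable (T m ax B) in
/-- An auxiliary transposition. -/
noncomputable def aux (i r : ℤ) : Equiv.Perm (Cell n T m ax B) :=
  if h : (0 ≤ i ∧ i < T.W m) ∧ -(B : ℤ) ≤ r ∧ r < B then
    Equiv.swap (mkCell i r (col hn 4) h) (mkCell i r (col hn 5) h) else 1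

variable (σ : Equiv.Perm (Cell n T m ax B))

/-- Composed with the slot swaps. -/
noncomputable def shifted : Equiv.Perm (Cell n T m ax B) := σ * flipPerm hn b o κ

/-- The first choice near the near end. -/
noncomputable def tn0 : Equiv.Perm (Cell n T m ax B) :=
  pick (nearN hn b o κ) ((nearN hn b o κ).filter fun z => Up (shifted hn b o κ σ z))
    ((nearN hn b o κ).filter Up)

/-- The first choice near the far end. -/
noncomputable def tf0 : Equiv.Perm (Cell n T m ax B) :=
  pick (farN hn b o κ) ((farN hn b o κ).filter fun z => Up (shifted hn b o κ σ z))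
    ((farN hn b o κ).filter Up)

/-- The correction near the far end. -/
noncomputable def tf : Equiv.Perm (Cell n T m ax B) :=
  if Equiv.Perm.sign (tf0 hn b o κ σ) = 1 then tf0 hn b o κ σ
  else aux T m ax B hn ((T.W m : ℤ) - 2 * b) b * tf0 hn b o κ σ

/-- The first straightened permutation. -/
noncomputable def straight0 : Equiv.Perm (Cell n T m ax B) :=
  shifted hn b o κ σ * (tn0 hn b o κ σ * tf hn b o κ σ)⁻¹

/-- Near the near end, before the last correction. -/
noncomputable def tn1 : Equiv.Perm (Cell n T m ax B) :=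
  if upSign (straight0 hn b o κ σ) = 1 then tn0 hn b o κ σ
  else aux T m ax B hn (2 * (b : ℤ) - 1) b * tn0 hn b o κ σ

/-- The correction near the near end. -/
noncomputable def tn : Equiv.Perm (Cell n T m ax B) :=
  if Equiv.Perm.sign (tn1 hn b o κ σ) = 1 then tn1 hn b o κ σ
  else aux T m ax B hn (2 * (b : ℤ) - 1) (-(b : ℤ) - 1) * tn1 hn b o κ σ

/-- The straightened permutation. -/
noncomputable def straight : Equiv.Perm (Cell n T m ax B) :=
  shifted hn b o κ σ * (tn hn b o κ σ * tf hn b o κ σ)⁻¹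

/-- The part of the straightened permutation on the upper side. -/
noncomputable def straightUp : Equiv.Perm (Cell n T m ax B) := upPart (straight hn b o κ σ)

/-- The part of the straightened permutation on the lower side. -/
noncomputable def straightDown : Equiv.Perm (Cell n T m ax B) :=
  (straightUp hn b o κ σ)⁻¹ * straight hn b o κ σ

variable {hn b o κ σ}

theorem eq_straight : σ = straightUp hn b o κ σ * straightDown hn b o κ σ * tn hn b o κ σ *
    tf hn b o κ σ * flipPerm hn b o κ := by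
  simp only [straightDown, straight, shifted, mul_inv_rev, mul_assoc, inv_mul_cancel_left,
    mul_inv_cancel_left, flipPerm_mul_self, mul_one]

theorem mem_nearN {z : Cell n T m ax B} : z ∈ nearN hn b o κ ↔ InNear hn b o κ z := by
  classical
  simp [nearN]

theorem mem_farN {z : Cell n T m ax B} : z ∈ farN hn b o κ ↔ InFar hn b o κ z := by
  classical
  simp [farN]

theorem InNear.al_lt {z : Cell n T m ax B} (h : InNear hn b o κ z) : al z < zone b o κ := by
  rcases h with h | ⟨-, h⟩
  · simp only [zone]; omega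
  · have := sl_bounds h; simp only [zone]; omega

theorem InFar.lt_al {z : Cell n T m ax B} (h : InFar hn b o κ z) :
    (T.W m : ℤ) - zone b o κ ≤ al z := by
  rcases h with h | ⟨-, h⟩
  · simp only [zone]; omega
  · have := sl_bounds h; simp only [zone]; omega

theorem InNear.not_far (hW : 2 * zone b o κ < T.W m) {z : Cell n T m ax B}
    (h : InNear hn b o κ z) : ¬ InFar hn b o κ z := fun h' => by
  have := h.al_lt; have := h'.lt_al; omega

theorem InNear.cone (hb : 2 ≤ b) (hW : 4 * (zone b o κ + 1) ≤ T.W m) {z : Cell n T m ax B}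
    (h : InNear hn b o κ z) : Cone z := by
  have := h.al_lt
  rcases h with ⟨h1, h2⟩ | ⟨-, h⟩
  · exact ⟨h2, by simp only [zone] at *; omega⟩
  · have := sl_bounds h
    exact ⟨by omega, by simp only [zone] at *; omega⟩

theorem InFar.cone (hb : 2 ≤ b) (hW : 4 * (zone b o κ + 1) ≤ T.W m) {z : Cell n T m ax B}
    (h : InFar hn b o κ z) : Cone z := by
  have := h.lt_al
  rcases h with ⟨h1, h2⟩ | ⟨-, h⟩
  · exact ⟨by simp only [zone] at *; omega, h2⟩
  · have h0 := sl_bounds h
    have e : hdi (cr z) = hdi (-1 - cr z) := by unfold hdi; split_ifs <;> omega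
    exact ⟨by simp only [zone] at *; omega, by omega⟩

/-- The slots avoid the short ends, and are fixed. -/
theorem EdgeOK.flip_cases (h : EdgeOK hn b o κ σ) (z : Cell n T m ax B) :
    (flipFun hn b o κ z = z) ∨
      (InNear hn b o κ z ∧ InFar hn b o κ (mirror z) ∧ 2 * (b : ℤ) ≤ al z ∧
        flipFun hn b o κ z = mirror z ∧ σ z = z ∧ σ (mirror z) = mirror z) ∨
      (InFar hn b o κ z ∧ InNear hn b o κ (mirror z) ∧ al z < (T.W m : ℤ) - 2 * b ∧
        flipFun hn b o κ z = mirror z ∧ σ z = z ∧ σ (mirror z) = mirror z) ∨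
      ((Up (flipFun hn b o κ z) ↔ Up z) ∧ σ (flipFun hn b o κ z) = flipFun hn b o κ z ∧
        σ z = z ∧ Cone z ∧ al (flipFun hn b o κ z) = al z) := by
  have hb := h.hb
  have hW := h.hW
  have fix : ∀ w : Cell n T m ax B, b ≤ hdi (cr w) → σ w = w := fun w hw => by
    by_contra hc; have := (h.moved w hc).1; omega
  have em : hdi (cr (mirror z)) = hdi (cr z) := by
    simp only [mirror, cr_mkCell, hdi]; split_ifs <;> omega
  rcases flipFun_cases (hn := hn) (b := b) (o := o) (κ := κ) z with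
    ⟨hc, s | s, e⟩ | ⟨-, s, e⟩ | ⟨-, s, e⟩ | e
  · have hs := sl_bounds s
    refine Or.inr (Or.inl ⟨Or.inr ⟨hc, s⟩, Or.inr ⟨hc, ?_⟩, hs.1, e, fix z ?_, fix _ ?_⟩)
    · simpa [mirror] using s
    all_goals omega
  · have hs := sl_bounds s
    have e2 : hdi (cr z) = hdi (-1 - cr z) := by unfold hdi; split_ifs <;> omega
    refine Or.inr (Or.inr (Or.inl ⟨Or.inr ⟨hc, s⟩, Or.inr ⟨hc, ?_⟩, ?_, e, fix z ?_, fix _ ?_⟩))
    · simpa [mirror] using s
    all_goals omega
  · have hs := sl_bounds s
    refine Or.inr (Or.inr (Or.inr ?_))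
    rw [e]
    refine ⟨Iff.rfl, fix _ ?_, fix _ (by omega), ⟨?_, ?_⟩, rfl⟩
    · show b ≤ hdi (cr z); omega
    all_goals (simp only [zone] at hW; omega)
  · have hs := sl_bounds s
    refine Or.inr (Or.inr (Or.inr ?_))
    rw [e]
    refine ⟨Iff.rfl, fix _ ?_, fix _ (by omega), ⟨?_, ?_⟩, rfl⟩
    · show b ≤ hdi (cr z); omega
    all_goals (simp only [zone] at hW; omega)
  · exact Or.inl e

/-- Away from the ends the shifted permutation keeps the sides. -/
theorem EdgeOK.shifted_middle (h : EdgeOK hn b o κ σ) {z : Cell n T m ax B}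
    (hn' : ¬ InNear hn b o κ z) (hf : ¬ InFar hn b o κ z) :
    Up (shifted hn b o κ σ z) ↔ Up z := by
  rw [shifted, Equiv.Perm.mul_apply, flipPerm_apply]
  rcases h.flip_cases z with e | ⟨a, -⟩ | ⟨a, -⟩ | ⟨a, e, -, -, -⟩
  · rw [e]
    by_cases hm : σ z = z
    · rw [hm]
    · have hc := (h.moved z hm).2
      have hcr := (h.moved z hm).1
      exact h.middle z (by by_contra hh; exact hn' (Or.inl ⟨not_le.1 hh, hc.1⟩))
        (by by_contra hh; exact hf (Or.inl ⟨not_lt.1 hh, hc.2⟩))
  · exact absurd a hn'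
  · exact absurd a hf
  · rw [e]; exact a

theorem card_run (hbW : 4 * (zone b o κ + 1) ≤ T.W m) (hB : b < B) (r : ℤ) (lo k : ℕ)
    (hr : r = b ∨ r = -(b : ℤ) - 1) (hlo : lo + k ≤ o.1 + o.2 + κ.1 + κ.2)
    (t : Finset (Cell n T m ax B))
    (ht : ∀ z, z ∈ t ↔ z.2 = col hn 0 ∧ cr z = r ∧ 2 * (b : ℤ) + lo ≤ al z ∧
      al z < 2 * b + lo + k) : t.card = k := by
  rw [← Finset.card_range k]
  have hb : ∀ j : ℕ, j < k → (0 ≤ 2 * (b : ℤ) + lo + j ∧ 2 * (b : ℤ) + lo + j < T.W m) ∧
      -(B : ℤ) ≤ r ∧ r < B := fun j hj => by simp only [zone] at hbW; omega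
  refine (Finset.card_bij (fun (j : ℕ) hj => mkCell (2 * (b : ℤ) + lo + j) r (col hn 0)
    (hb j (Finset.mem_range.1 hj))) ?_ ?_ ?_).symm
  · intro j hj
    rw [Finset.mem_range] at hj
    rw [ht]
    exact ⟨rfl, cr_mkCell, by rw [al_mkCell]; omega, by rw [al_mkCell]; omega⟩
  · intro i _ j _ e
    have := congrArg al e
    simp only [al_mkCell] at this
    omega
  · intro z hz
    rw [ht] at hz
    refine ⟨(al z - 2 * b - lo).toNat, Finset.mem_range.2 (by omega), ?_⟩
    exact cell_ext (by rw [al_mkCell]; omega) (by rw [cr_mkCell]; omega) hz.1.symm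

theorem EdgeOK.near_balance (h : EdgeOK hn b o κ σ) :
    ∑ z ∈ nearN hn b o κ, ((if Up z then (1 : ℤ) else 0) -
      if Up (shifted hn b o κ σ z) then 1 else 0) = 0 := by
  classical
  have hb := h.hb
  have hW := h.hW
  set g := fun z : Cell n T m ax B => (if Up z then (1 : ℤ) else 0) -
    if Up (shifted hn b o κ σ z) then 1 else 0
  set A := (Finset.univ : Finset (Cell n T m ax B)).filter
    (fun z => al z < 2 * (b : ℤ) ∧ (hdi (cr z) : ℤ) < al z)
  set P := (Finset.univ : Finset (Cell n T m ax B)).filter (fun z => z.2 = col hn 0 ∧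
    cr z = (b : ℤ) ∧ 2 * (b : ℤ) + o.1 ≤ al z ∧ al z < 2 * b + o.1 + κ.1)
  set Q := (Finset.univ : Finset (Cell n T m ax B)).filter (fun z => z.2 = col hn 0 ∧
    cr z = -(b : ℤ) - 1 ∧ 2 * (b : ℤ) + o.2 ≤ al z ∧ al z < 2 * b + o.2 + κ.2)
  have hN : nearN hn b o κ = A ∪ (P ∪ Q) := by
    ext z
    simp only [mem_nearN, InNear, Sl, A, P, Q, Finset.mem_union, Finset.mem_filter,
      Finset.mem_univ, true_and]
    tauto
  have d1 : Disjoint A (P ∪ Q) := by
    refine Finset.disjoint_left.2 fun z hz hz' => ?_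
    simp only [A, P, Q, Finset.mem_union, Finset.mem_filter, Finset.mem_univ, true_and] at hz hz'
    omega
  have d2 : Disjoint P Q := by
    refine Finset.disjoint_left.2 fun z hz hz' => ?_
    simp only [P, Q, Finset.mem_filter, Finset.mem_univ, true_and] at hz hz'
    omega
  have hA : ∑ z ∈ A, g z = (κ.2 : ℤ) - κ.1 := by
    rw [← h.flow]
    have e : ∀ z : Cell n T m ax B, al z < 2 * (b : ℤ) →
        g z = (if Up z then (1 : ℤ) else 0) - if Up (σ z) then 1 else 0 := by
      intro z hz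
      refine congrArg (_ - ·) (if_congr ?_ rfl rfl)
      simp only [shifted, Equiv.Perm.mul_apply, flipPerm_apply]
      rcases h.flip_cases z with e | ⟨-, -, a, -⟩ | ⟨a, -⟩ | ⟨a, e, e', -, -⟩
      · rw [e]
      · omega
      · have := a.lt_al; simp only [zone] at *; omega
      · rw [e, e']; exact a
    refine Finset.sum_subset (fun z hz => ?_) (fun z hz hz' => ?_) |>.trans
      (Finset.sum_congr rfl fun z hz => e z (Finset.mem_filter.1 hz).2)
    · simp only [A, Finset.mem_filter, Finset.mem_univ, true_and] at hz ⊢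
      exact hz.1
    · simp only [Finset.mem_filter, Finset.mem_univ, true_and, A] at hz hz'
      rw [e z hz]
      have : σ z = z := by
        by_contra hc; exact hz' ⟨hz, (h.moved z hc).2.1⟩
      rw [this, sub_self]
  have run : ∀ z : Cell n T m ax B, z.2 = col hn 0 → Sl b o κ (al z) (cr z) →
      (Up (shifted hn b o κ σ z) ↔ ¬ Up z) := by
    intro z hc hs
    simp only [shifted, Equiv.Perm.mul_apply, flipPerm_apply, flipFun_zero hc (Or.inl hs)]
    have hb' := sl_bounds hs
    rcases h.flip_cases z with e | ⟨-, -, -, -, -, e⟩ | ⟨a, -⟩ | ⟨-, -, -, -, e⟩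
    · rw [flipFun_zero hc (Or.inl hs)] at e
      have := congrArg cr e
      simp only [mirror, cr_mkCell] at this
      omega
    · rw [e]
      simp only [Up, mirror, cr_mkCell]
      omega
    · have := a.lt_al; simp only [zone] at *; omega
    · rw [flipFun_zero hc (Or.inl hs)] at e
      simp only [mirror, al_mkCell] at e
      simp only [zone] at *; omega
  have hP : ∑ z ∈ P, g z = κ.1 := by
    have e : ∀ z ∈ P, g z = 1 := fun z hz => by
      simp only [P, Finset.mem_filter, Finset.mem_univ, true_and] at hz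
      have hu : Up z := by simp only [Up]; omega
      simp only [g, run z hz.1 (Or.inl hz.2), hu, not_true_eq_false, if_true, if_false, sub_zero]
    rw [Finset.sum_congr rfl e, Finset.sum_const, nsmul_eq_mul, mul_one,
      card_run (hn := hn) hW h.hB (b : ℤ) o.1 κ.1 (Or.inl rfl) (by omega) P fun z => by simp [P]]
  have hQ : ∑ z ∈ Q, g z = -(κ.2 : ℤ) := by
    have e : ∀ z ∈ Q, g z = -1 := fun z hz => by
      simp only [Q, Finset.mem_filter, Finset.mem_univ, true_and] at hz
      have hu : ¬ Up z := by simp only [Up]; omega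
      simp only [g, run z hz.1 (Or.inr hz.2), hu, not_false_eq_true, if_true, if_false, zero_sub]
    rw [Finset.sum_congr rfl e, Finset.sum_const, nsmul_eq_mul, mul_neg, mul_one,
      card_run (hn := hn) hW h.hB (-(b : ℤ) - 1) o.2 κ.2 (Or.inr rfl) (by omega) Q fun z => by simp [Q]]
  show ∑ z ∈ nearN hn b o κ, g z = 0
  rw [hN, Finset.sum_union d1, Finset.sum_union d2, hA, hP, hQ]
  ring

theorem EdgeOK.far_balance (h : EdgeOK hn b o κ σ) :
    ∑ z ∈ farN hn b o κ, ((if Up z then (1 : ℤ) else 0) -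
      if Up (shifted hn b o κ σ z) then 1 else 0) = 0 := by
  classical
  have hW := h.hW
  have total : ∑ z, ((if Up z then (1 : ℤ) else 0) -
      if Up (shifted hn b o κ σ z) then 1 else 0) = 0 := by
    rw [Finset.sum_sub_distrib, sub_eq_zero]
    exact (Equiv.sum_comp (shifted hn b o κ σ) (fun z => if Up z then (1 : ℤ) else 0)).symm
  have hd : Disjoint (nearN (T := T) (m := m) (ax := ax) (B := B) hn b o κ) (farN hn b o κ) :=
    Finset.disjoint_left.2 fun z hz hz' =>
      (mem_nearN.1 hz).not_far (by omega) (mem_farN.1 hz')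
  rw [← Finset.sum_subset (Finset.subset_univ (nearN hn b o κ ∪ farN hn b o κ)),
    Finset.sum_union hd, h.near_balance, zero_add] at total
  · exact total
  · intro z _ hz
    rw [Finset.mem_union, mem_nearN, mem_farN, not_or] at hz
    simp only [h.shifted_middle hz.1 hz.2, sub_self]

theorem card_of_balance {N : Finset (Cell n T m ax B)} {π : Equiv.Perm (Cell n T m ax B)}
    (h : ∑ z ∈ N, ((if Up z then (1 : ℤ) else 0) - if Up (π z) then 1 else 0) = 0) :
    (N.filter fun z => Up (π z)).card = (N.filter Up).card := by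
  rw [Finset.sum_sub_distrib, Finset.sum_boole, Finset.sum_boole, sub_eq_zero] at h
  exact_mod_cast h.symm

theorem EdgeOK.tn0_up (h : EdgeOK hn b o κ σ) {z : Cell n T m ax B}
    (hz : InNear hn b o κ z) :
    Up (tn0 hn b o κ σ z) ↔ Up (shifted hn b o κ σ z) := by
  have := pick_mem_iff (A := (nearN hn b o κ).filter fun w => Up (shifted hn b o κ σ w))
    (B := (nearN hn b o κ).filter Up) (Finset.filter_subset _ _) (Finset.filter_subset _ _)
    (card_of_balance h.near_balance) (mem_nearN.2 hz)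
  unfold tn0
  simp only [Finset.mem_filter, pick_mem (mem_nearN.2 hz), mem_nearN.2 hz, true_and] at this
  exact this

theorem EdgeOK.tf0_up (h : EdgeOK hn b o κ σ) {z : Cell n T m ax B}
    (hz : InFar hn b o κ z) :
    Up (tf0 hn b o κ σ z) ↔ Up (shifted hn b o κ σ z) := by
  have := pick_mem_iff (A := (farN hn b o κ).filter fun w => Up (shifted hn b o κ σ w))
    (B := (farN hn b o κ).filter Up) (Finset.filter_subset _ _) (Finset.filter_subset _ _)
    (card_of_balance h.far_balance) (mem_farN.2 hz)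
  unfold tf0
  simp only [Finset.mem_filter, pick_mem (mem_farN.2 hz), mem_farN.2 hz, true_and] at this
  exact this

theorem tn0_fix {z : Cell n T m ax B} (hz : ¬ InNear hn b o κ z) : tn0 hn b o κ σ z = z := by
  unfold tn0
  exact pick_of_notMem _ _ _ (fun e => hz (mem_nearN.1 e))

theorem tf0_fix {z : Cell n T m ax B} (hz : ¬ InFar hn b o κ z) : tf0 hn b o κ σ z = z := by
  unfold tf0
  exact pick_of_notMem _ _ _ (fun e => hz (mem_farN.1 e))

theorem aux_eq {i r : ℤ} (h : (0 ≤ i ∧ i < T.W m) ∧ -(B : ℤ) ≤ r ∧ r < B) :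
    aux T m ax B hn i r =
      Equiv.swap (mkCell i r (col hn 4) h) (mkCell i r (col hn 5) h) := dif_pos h

theorem aux_fix {i r : ℤ} {z : Cell n T m ax B} (hz : ¬ (al z = i ∧ cr z = r)) :
    aux T m ax B hn i r z = z := by
  unfold aux
  split_ifs with h
  · refine Equiv.swap_apply_of_ne_of_ne ?_ ?_ <;> intro e <;> apply hz <;> rw [e] <;> simp
  · rfl

theorem aux_up (i r : ℤ) (z : Cell n T m ax B) : Up (aux T m ax B hn i r z) ↔ Up z := by
  unfold aux
  split_ifs with h
  · exact KeepsSides.swap (by simp [Up]) z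
  · rfl

theorem aux_sign {i r : ℤ} (h : (0 ≤ i ∧ i < T.W m) ∧ -(B : ℤ) ≤ r ∧ r < B) :
    Equiv.Perm.sign (aux T m ax B hn i r) = -1 := by
  rw [aux_eq h]
  refine Equiv.Perm.sign_swap fun e => ?_
  have := congrArg (fun w : Cell n T m ax B => w.2) e
  simp only [snd_mkCell, col_eq_iff] at this
  exact absurd this (by decide)

theorem aux_upSign {i r : ℤ} (h : (0 ≤ i ∧ i < T.W m) ∧ -(B : ℤ) ≤ r ∧ r < B) :
    upSign (aux T m ax B hn i r) = if 0 ≤ r then -1 else 1 := by
  rw [aux_eq h]
  split_ifs with hr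
  · refine upSign_swap_up (fun e => ?_) (by simp [Up, hr]) (by simp [Up, hr])
    have := congrArg (fun w : Cell n T m ax B => w.2) e
    simp only [snd_mkCell, col_eq_iff] at this
    exact absurd this (by decide)
  · exact upSign_swap_down (by simp [Up, hr]) (by simp [Up, hr])

theorem EdgeOK.aux_bounds (h : EdgeOK hn b o κ σ) :
    ((0 ≤ 2 * (b : ℤ) - 1 ∧ 2 * (b : ℤ) - 1 < T.W m) ∧ -(B : ℤ) ≤ (b : ℤ) ∧ (b : ℤ) < B) ∧
    ((0 ≤ 2 * (b : ℤ) - 1 ∧ 2 * (b : ℤ) - 1 < T.W m) ∧
      -(B : ℤ) ≤ -(b : ℤ) - 1 ∧ -(b : ℤ) - 1 < B) ∧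
    ((0 ≤ (T.W m : ℤ) - 2 * b ∧ (T.W m : ℤ) - 2 * b < T.W m) ∧
      -(B : ℤ) ≤ (b : ℤ) ∧ (b : ℤ) < B) := by
  have := h.hb; have := h.hB; have := h.hW; simp only [zone] at *; omega

/-- The corrections stay near the ends. -/
theorem EdgeOK.tn_fix (h : EdgeOK hn b o κ σ) {z : Cell n T m ax B}
    (hz : ¬ InNear hn b o κ z) : tn hn b o κ σ z = z := by
  have hb := h.hb
  have hr : ∀ r : ℤ, (r = b ∨ r = -(b : ℤ) - 1) → aux T m ax B hn (2 * (b : ℤ) - 1) r z = z :=
    fun r hr => aux_fix fun e => hz (Or.inl ⟨by omega, by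
      unfold hdi; split_ifs <;> omega⟩)
  unfold tn tn1
  split_ifs <;> simp only [Equiv.Perm.mul_apply, tn0_fix hz, hr _ (Or.inl rfl),
    hr _ (Or.inr rfl)]

theorem EdgeOK.tf_fix (h : EdgeOK hn b o κ σ) {z : Cell n T m ax B}
    (hz : ¬ InFar hn b o κ z) : tf hn b o κ σ z = z := by
  have hb := h.hb
  have hr : aux T m ax B hn ((T.W m : ℤ) - 2 * b) b z = z :=
    aux_fix fun e => hz (Or.inl ⟨by omega, by unfold hdi; split_ifs <;> omega⟩)
  unfold tf
  split_ifs <;> simp only [Equiv.Perm.mul_apply, tf0_fix hz, hr]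

theorem apply_mem_of_fix {π : Equiv.Perm (Cell n T m ax B)} {P : Cell n T m ax B → Prop}
    (hπ : ∀ z, ¬ P z → π z = z) {z : Cell n T m ax B} (hz : P z) : P (π z) := by
  by_contra hc
  have := π.injective (hπ _ hc)
  exact hc (by rw [this]; exact hz)

theorem inv_apply_fix {π : Equiv.Perm (Cell n T m ax B)} {P : Cell n T m ax B → Prop}
    (hπ : ∀ z, ¬ P z → π z = z) {z : Cell n T m ax B} (hz : ¬ P z) : π⁻¹ z = z := by
  rw [Equiv.Perm.inv_eq_iff_eq]; exact (hπ z hz).symm

theorem tn_up (z : Cell n T m ax B) :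
    Up (tn hn b o κ σ z) ↔ Up (tn0 hn b o κ σ z) := by
  unfold tn tn1; split_ifs <;> simp only [Equiv.Perm.mul_apply, aux_up]

theorem tf_up (z : Cell n T m ax B) :
    Up (tf hn b o κ σ z) ↔ Up (tf0 hn b o κ σ z) := by
  unfold tf; split_ifs <;> simp only [Equiv.Perm.mul_apply, aux_up]

theorem EdgeOK.keeps_straight' (h : EdgeOK hn b o κ σ) (τ : Equiv.Perm (Cell n T m ax B))
    (hfix : ∀ z, ¬ InNear hn b o κ z → τ z = z)
    (hup : ∀ z, Up (τ z) ↔ Up (tn0 hn b o κ σ z)) :
    KeepsSides (shifted hn b o κ σ * (τ * tf hn b o κ σ)⁻¹) := by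
  intro z
  rw [Equiv.Perm.mul_apply]
  obtain ⟨w, rfl⟩ : ∃ w, (τ * tf hn b o κ σ) w = z := ⟨_, (τ * tf hn b o κ σ).apply_symm_apply z⟩
  rw [Equiv.Perm.coe_inv, Equiv.symm_apply_apply, Equiv.Perm.mul_apply]
  by_cases hf : InFar hn b o κ w
  · have h2 : InFar hn b o κ (tf hn b o κ σ w) := apply_mem_of_fix (fun z => h.tf_fix) hf
    rw [hfix _ fun hh => hh.not_far (by have := h.hW; omega) h2, tf_up, h.tf0_up hf]
  · rw [h.tf_fix hf]
    by_cases hnr : InNear hn b o κ w
    · rw [hup, h.tn0_up hnr]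
    · rw [hfix w hnr, h.shifted_middle hnr hf]

theorem EdgeOK.keeps_straight (h : EdgeOK hn b o κ σ) : KeepsSides (straight hn b o κ σ) :=
  h.keeps_straight' _ (fun _ => h.tn_fix) tn_up

theorem EdgeOK.keeps_straight0 (h : EdgeOK hn b o κ σ) : KeepsSides (straight0 hn b o κ σ) :=
  h.keeps_straight' _ (fun _ => tn0_fix) fun _ => Iff.rfl

theorem EdgeOK.sign_tf (h : EdgeOK hn b o κ σ) : Equiv.Perm.sign (tf hn b o κ σ) = 1 := by
  unfold tf
  split_ifs with e
  · exact e
  · rw [map_mul, aux_sign h.aux_bounds.2.2, (Int.units_eq_one_or _).resolve_left e]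
    rfl

theorem EdgeOK.sign_tn (h : EdgeOK hn b o κ σ) : Equiv.Perm.sign (tn hn b o κ σ) = 1 := by
  unfold tn
  split_ifs with e
  · exact e
  · rw [map_mul, aux_sign h.aux_bounds.2.1, (Int.units_eq_one_or _).resolve_left e]
    rfl

theorem EdgeOK.upSign_straight (h : EdgeOK hn b o κ σ) :
    upSign (straight hn b o κ σ) = 1 := by
  have k0 := h.keeps_straight0
  have ka : ∀ i r, KeepsSides (aux T m ax B hn i r) := fun i r z => aux_up i r z
  obtain ⟨c, hc, kc, hs⟩ : ∃ c, tn hn b o κ σ = c * tn0 hn b o κ σ ∧ KeepsSides c ∧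
      upSign c = upSign (straight0 hn b o κ σ) := by
    unfold tn tn1
    by_cases e1 : upSign (straight0 hn b o κ σ) = 1
    · simp only [if_pos e1]
      split_ifs
      · exact ⟨1, (one_mul _).symm, fun _ => Iff.rfl, by rw [upSign_one, e1]⟩
      · refine ⟨_, rfl, ka _ _, ?_⟩
        rw [aux_upSign h.aux_bounds.2.1, if_neg (by omega), e1]
    · simp only [if_neg e1]
      have hv := (Int.units_eq_one_or _).resolve_left e1
      split_ifs
      · refine ⟨_, rfl, ka _ _, ?_⟩
        rw [aux_upSign h.aux_bounds.1, if_pos (by omega), hv]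
      · refine ⟨_, (mul_assoc _ _ _).symm, (ka _ _).mul (ka _ _), ?_⟩
        rw [upSign_mul (ka _ _) (ka _ _), aux_upSign h.aux_bounds.2.1, aux_upSign h.aux_bounds.1,
          if_neg (by omega), if_pos (by omega), hv, one_mul]
  have e : straight hn b o κ σ = straight0 hn b o κ σ * c⁻¹ := by
    simp only [straight, straight0, hc, mul_inv_rev, mul_assoc]
  have hci : upSign c⁻¹ = upSign c := by
    have := upSign_mul kc kc.inv
    rw [mul_inv_cancel, upSign_one] at this
    exact mul_left_cancel (this.symm.trans (Int.units_mul_self _).symm)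
  rw [e, upSign_mul k0 kc.inv, hci, hs, Int.units_mul_self]

theorem EdgeOK.straight_fix (h : EdgeOK hn b o κ σ) {z : Cell n T m ax B} (hz : ¬ Cone z) :
    straight hn b o κ σ z = z := by
  have hb := h.hb
  have hW := h.hW
  have n1 : ¬ InNear hn b o κ z := fun hh => hz (hh.cone hb hW)
  have n2 : ¬ InFar hn b o κ z := fun hh => hz (hh.cone hb hW)
  rw [straight, Equiv.Perm.mul_apply, mul_inv_rev, Equiv.Perm.mul_apply,
    inv_apply_fix (fun z => h.tn_fix) n1, inv_apply_fix (fun z => h.tf_fix) n2, shifted,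
    Equiv.Perm.mul_apply, flipPerm_apply]
  have hs : σ z = z := by by_contra hc; exact hz (h.moved z hc).2
  rcases h.flip_cases z with e | ⟨a, -⟩ | ⟨a, -⟩ | ⟨-, -, -, a, -⟩
  · rw [e, hs]
  · exact absurd a n1
  · exact absurd a n2
  · exact absurd a hz

theorem EdgeOK.sign_straightUp (h : EdgeOK hn b o κ σ) :
    Equiv.Perm.sign (straightUp hn b o κ σ) = 1 := h.upSign_straight

theorem EdgeOK.sign_straightDown (h : EdgeOK hn b o κ σ) :
    Equiv.Perm.sign (straightDown hn b o κ σ) = 1 := by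
  have hW := h.hW
  rw [straightDown, map_mul, Equiv.Perm.sign_inv, h.sign_straightUp, one_mul, straight, map_mul,
    Equiv.Perm.sign_inv, map_mul, h.sign_tn, h.sign_tf, shifted, map_mul, h.even,
    sign_flipPerm h.hB (by simp only [zone] at hW; omega)]
  rfl

theorem straightUp_fix {z : Cell n T m ax B} (hz : ¬ Up z) : straightUp hn b o κ σ z = z :=
  upPart_of_not_up _ hz

theorem EdgeOK.straightUp_cone (h : EdgeOK hn b o κ σ) {z : Cell n T m ax B} (hz : ¬ Cone z) :
    straightUp hn b o κ σ z = z := by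
  by_cases hu : Up z
  · rw [straightUp, upPart_of_up h.keeps_straight hu, h.straight_fix hz]
  · exact straightUp_fix hu

theorem EdgeOK.straightDown_fix (h : EdgeOK hn b o κ σ) {z : Cell n T m ax B}
    (hz : Up z ∨ ¬ Cone z) : straightDown hn b o κ σ z = z := by
  rw [straightDown, Equiv.Perm.mul_apply, Equiv.Perm.inv_eq_iff_eq]
  rcases hz with hz | hz
  · exact (upPart_of_up h.keeps_straight hz).symm
  · rw [h.straight_fix hz, h.straightUp_cone hz]

/-! ### What the corrections depend on -/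

/-- The middle cells of the upper side. -/
abbrev Mid (Z : ℕ) : Type :=
  {z : Cell n T m ax B // Up z ∧ (Z : ℤ) ≤ al z ∧ al z < (T.W m : ℤ) - Z}

/-- A key ordering the cells along the edge. -/
def key (z : Cell n T m ax B) : ℤ := (al z * (2 * B) + (cr z + B)) * n + (z.2 : ℕ)

theorem key_injective : Function.Injective (key (n := n) (T := T) (m := m) (ax := ax) (B := B)) := by
  intro z w e
  have hz := cell_bounds z
  have hw := cell_bounds w
  have hn0 : (0 : ℤ) < n := by have := z.2.isLt; omega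
  simp only [key] at e
  have e1 := congrArg (fun t : ℤ => t / n) e
  simp only [Int.add_comm (_ * (n : ℤ)), Int.add_mul_ediv_right _ _ hn0.ne',
    Int.ediv_eq_zero_of_lt (Int.natCast_nonneg _) (Int.ofNat_lt.2 z.2.isLt),
    Int.ediv_eq_zero_of_lt (Int.natCast_nonneg _) (Int.ofNat_lt.2 w.2.isLt), zero_add] at e1
  have e2 : (z.2 : ℕ) = (w.2 : ℕ) := by
    rw [e1] at e; omega
  have hB : (0 : ℤ) < 2 * B := by omega
  have e3 := congrArg (fun t : ℤ => t / (2 * (B : ℤ))) e1
  simp only [Int.add_comm (_ * (2 * (B : ℤ))), Int.add_mul_ediv_right _ _ hB.ne',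
    Int.ediv_eq_zero_of_lt (show 0 ≤ cr z + B by omega) (show cr z + B < 2 * B by omega),
    Int.ediv_eq_zero_of_lt (show 0 ≤ cr w + B by omega) (show cr w + B < 2 * B by omega),
    zero_add] at e3
  exact cell_ext e3 (by rw [e3] at e1; omega) (Fin.ext e2)

open Classical in
/-- The inversion sign of the middle. -/
noncomputable def midSign (Z : ℕ) (π : Equiv.Perm (Cell n T m ax B)) : ℤˣ :=
  ∏ y : Mid (T := T) (m := m) (ax := ax) (B := B) (n := n) Z,
    invAt (fun y : Mid Z => key y.1) (fun y : Mid Z => key (π y.1)) y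

theorem shifted_congr {σ' : Equiv.Perm (Cell n T m ax B)} (h : EdgeOK hn b o κ σ)
    (h' : EdgeOK hn b o κ σ') (z : Cell n T m ax B) (hz : flipFun hn b o κ z = z → σ z = σ' z) :
    shifted hn b o κ σ z = shifted hn b o κ σ' z := by
  simp only [shifted, Equiv.Perm.mul_apply, flipPerm_apply]
  by_cases e : flipFun hn b o κ z = z
  · rw [e, hz e]
  · have fix : ∀ {τ : Equiv.Perm (Cell n T m ax B)}, EdgeOK hn b o κ τ →
        τ (flipFun hn b o κ z) = flipFun hn b o κ z := by
      intro τ hτ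
      rcases hτ.flip_cases z with c | ⟨-, -, -, c, -, a⟩ | ⟨-, -, -, c, -, a⟩ | ⟨-, a, -, -, -⟩
      · exact absurd c e
      · rw [c, a]
      · rw [c, a]
      · exact a
    rw [fix h, fix h']

theorem tf_congr {σ' : Equiv.Perm (Cell n T m ax B)} (h : EdgeOK hn b o κ σ)
    (h' : EdgeOK hn b o κ σ')
    (he : ∀ z, (T.W m : ℤ) - zone b o κ ≤ al z → σ z = σ' z) :
    tf hn b o κ σ = tf hn b o κ σ' := by
  have e : tf0 hn b o κ σ = tf0 hn b o κ σ' := by
    unfold tf0
    congr 1
    refine Finset.filter_congr fun z hz => ?_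
    rw [shifted_congr h h' z fun _ => he z (mem_farN.1 hz).lt_al]
  unfold tf
  rw [e]

theorem tn_congr {σ' : Equiv.Perm (Cell n T m ax B)} (h : EdgeOK hn b o κ σ)
    (h' : EdgeOK hn b o κ σ')
    (he : ∀ z, (al z < zone b o κ ∨ (T.W m : ℤ) - zone b o κ ≤ al z) → σ z = σ' z)
    (hsign : midSign (zone b o κ) σ = midSign (zone b o κ) σ') :
    tn hn b o κ σ = tn hn b o κ σ' := by
  classical
  have e0 : tn0 hn b o κ σ = tn0 hn b o κ σ' := by
    unfold tn0
    congr 1
    refine Finset.filter_congr fun z hz => ?_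
    rw [shifted_congr h h' z fun _ => he z (Or.inl (mem_nearN.1 hz).al_lt)]
  have ef : tf hn b o κ σ = tf hn b o κ σ' := tf_congr h h' fun z hz => he z (Or.inr hz)
  suffices hu : upSign (straight0 hn b o κ σ) = upSign (straight0 hn b o κ σ') by
    unfold tn tn1
    rw [e0, hu]
  have k := h.keeps_straight0
  have k' := h'.keeps_straight0
  set Z := zone b o κ
  set π := (straight0 hn b o κ σ')⁻¹ * straight0 hn b o κ σ with hπ
  have kπ : KeepsSides π := k'.inv.mul k
  have mid : ∀ z : Cell n T m ax B, (Z : ℤ) ≤ al z → al z < (T.W m : ℤ) - Z → Up z →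
      straight0 hn b o κ σ z = σ z ∧ straight0 hn b o κ σ' z = σ' z := by
    intro z h1 h2 hu
    have n1 : ¬ InNear hn b o κ z := fun hh => by have := hh.al_lt; omega
    have n2 : ¬ InFar hn b o κ z := fun hh => by have := hh.lt_al; omega
    have nf : flipFun hn b o κ z = z := by
      rcases flipFun_cases (hn := hn) (b := b) (o := o) (κ := κ) z with
        ⟨-, s | s, -⟩ | ⟨-, s, -⟩ | ⟨-, s, -⟩ | e
      all_goals first
        | exact e
        | (have := sl_bounds s; simp only [Z, zone] at *; omega)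
    constructor
    · simp only [straight0, shifted, Equiv.Perm.mul_apply, mul_inv_rev,
        inv_apply_fix (fun z => tn0_fix (σ := σ)) n1, inv_apply_fix (fun z => h.tf_fix) n2,
        flipPerm_apply, nf]
    · simp only [straight0, shifted, Equiv.Perm.mul_apply, mul_inv_rev,
        inv_apply_fix (fun z => tn0_fix (σ := σ')) n1, inv_apply_fix (fun z => h'.tf_fix) n2,
        flipPerm_apply, nf]
  have same : ∀ z : Cell n T m ax B, (al z < Z ∨ (T.W m : ℤ) - Z ≤ al z) →
      straight0 hn b o κ σ z = straight0 hn b o κ σ' z := by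
    intro z hz
    simp only [straight0, e0, ef, Equiv.Perm.mul_apply]
    set w := (tn0 hn b o κ σ' * tf hn b o κ σ')⁻¹ z with hw
    have hw' : al w < Z ∨ (T.W m : ℤ) - Z ≤ al w := by
      by_contra hc
      have n1 : ¬ InNear hn b o κ w := fun hh => hc (Or.inl hh.al_lt)
      have n2 : ¬ InFar hn b o κ w := fun hh => hc (Or.inr hh.lt_al)
      have : (tn0 hn b o κ σ' * tf hn b o κ σ') w = w := by
        rw [Equiv.Perm.mul_apply, h'.tf_fix n2, tn0_fix n1]
      rw [hw, Equiv.Perm.coe_inv, Equiv.apply_symm_apply, ← Equiv.Perm.coe_inv, ← hw] at this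
      exact hc (this ▸ hz)
    exact shifted_congr h h' w fun _ => he w hw'
  have fixZ : ∀ z : Cell n T m ax B, ¬ (Up z ∧ (Z : ℤ) ≤ al z ∧ al z < (T.W m : ℤ) - Z) →
      upPart π z = z := by
    intro z hz
    by_cases hu : Up z
    · rw [upPart_of_up kπ hu, hπ, Equiv.Perm.mul_apply, same z ?_, Equiv.Perm.coe_inv,
        Equiv.symm_apply_apply]
      by_contra hc
      exact hz ⟨hu, not_lt.1 fun e => hc (Or.inl e), not_le.1 fun e => hc (Or.inr e)⟩
    · exact upPart_of_not_up _ hu
  have key0 : upSign π = midSign Z σ * midSign Z σ' := by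
    have hpres : ∀ z, (Up (upPart π z) ∧ (Z : ℤ) ≤ al (upPart π z) ∧
        al (upPart π z) < (T.W m : ℤ) - Z) ↔ (Up z ∧ (Z : ℤ) ≤ al z ∧ al z < (T.W m : ℤ) - Z) := by
      intro z
      refine ⟨fun hz => ?_, fun hz => apply_mem_of_fix fixZ hz⟩
      by_contra hc
      exact hc (by rw [← fixZ z hc]; exact hz)
    rw [upSign, ← Equiv.Perm.sign_subtypePerm (upPart π) hpres
      (fun z hz => (by by_contra hc; exact hz (fixZ z hc) :
        Up z ∧ (Z : ℤ) ≤ al z ∧ al z < (T.W m : ℤ) - Z))]
    refine sign_eq_inv (fun y w e => Subtype.ext (key_injective e))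
      (fun y w e => Subtype.ext (σ.injective (key_injective e)))
      (fun y w e => Subtype.ext (σ'.injective (key_injective e))) _ fun y => ?_
    obtain ⟨z, hu, h1, h2⟩ := y
    have hz' := (hpres z).2 ⟨hu, h1, h2⟩
    show key (σ' (upPart π z)) = key (σ z)
    rw [← (mid _ hz'.2.1 hz'.2.2 hz'.1).2, upPart_of_up kπ hu, hπ, Equiv.Perm.mul_apply,
      Equiv.Perm.coe_inv, Equiv.apply_symm_apply, (mid z h1 h2 hu).1]
  rw [hsign, Int.units_mul_self] at key0
  have e2 := upSign_mul k' kπ
  rw [hπ, mul_inv_cancel_left, ← hπ, key0, mul_one] at e2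
  exact e2

end Edge

end Vale.Agent.P196.Full.Kernel
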