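import Vale.Agent.P196.Full.Universal.Kernel.Geo

/-!
# P196: rules of motion of products and of localised generators
-/

namespace Vale.Agent.P196.Full.Kernel

variable {X : Type} [TopologicalSpace X] {n : ℕ} {S : Sys X}

/-- The rule of the identity. -/
def Rule.id (S : Sys X) (n : ℕ) : Rule S n where
  K := 0
  D := 0
  Φ _ _ c _ := (0, c)
  isLocallyConstant_Φ _ _ _ := IsLocallyConstant.const _
  le_D _ _ _ _ := ⟨by simp, by simp⟩

/-- The rule of a product. -/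
def Rule.comp (u v : Rule S n) : Rule S n where
  K := max (u.K + v.D) v.K
  D := u.D + v.D
  Φ i j c x :=
    let p := v.Φ (shiftClip v.K i 0) (shiftClip v.K j 0) c x
    let q := u.Φ (shiftClip u.K i p.1.1) (shiftClip u.K j p.1.2) p.2 (S.sh p.1 x)
    (q.1 + p.1, q.2)
  isLocallyConstant_Φ i j c := by
    refine (IsLocallyConstant.iff_exists_open _).2 fun x => ?_
    obtain ⟨U, hU, hxU, hc⟩ :=
      (v.isLocallyConstant_Φ (shiftClip v.K i 0) (shiftClip v.K j 0) c).exists_open x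
    set p := v.Φ (shiftClip v.K i 0) (shiftClip v.K j 0) c x with hp
    obtain ⟨U', hU', hxU', hc'⟩ :=
      (u.isLocallyConstant_Φ (shiftClip u.K i p.1.1) (shiftClip u.K j p.1.2) p.2).exists_open
        (S.sh p.1 x)
    refine ⟨U ∩ S.sh p.1 ⁻¹' U', hU.inter (hU'.preimage (S.sh p.1).continuous), ⟨hxU, hxU'⟩,
      fun y hy => ?_⟩
    simp only [hc y hy.1]
    rw [hc' _ hy.2]
  le_D i j c x := by
    refine ⟨?_, ?_⟩ <;> simp only [Prod.fst_add, Prod.snd_add] <;>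
      refine (Int.natAbs_add_le _ _).trans (Nat.add_le_add ?_ ?_)
    exacts [(u.le_D _ _ _ _).1, (v.le_D _ _ _ _).1, (u.le_D _ _ _ _).2, (v.le_D _ _ _ _).2]

variable {T : Tower S} {m : ℕ}

theorem follows_one : Follows T m (1 : UGroup S n) (Rule.id S n) := fun z => by
  simp [Rule.id, S.sh_zero]

theorem clip_of_le {K K' : ℕ} (h : K ≤ K') (hW : 2 * K' ≤ T.W m) (a : ZMod (T.W m)) :
    clip K a = shiftClip K (clip K' a) 0 := by
  have : NeZero (T.W m) := ⟨(T.W_pos m).ne'⟩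
  simpa using clip_add hW a 0 (by simpa using h)

theorem Follows.mul {u v : UGroup S n} {ru rv : Rule S n} (hu : Follows T m u ru)
    (hv : Follows T m v rv) (hW : 2 * (ru.comp rv).K ≤ T.W m) :
    Follows T m (u * v) (ru.comp rv) := by
  have : NeZero (T.W m) := ⟨(T.W_pos m).ne'⟩
  intro z
  have hK : rv.K ≤ (ru.comp rv).K := le_max_right _ _
  rw [map_mul, Equiv.Perm.mul_apply, hv z, hu]
  rw [clip_of_le hK hW (T.phase m z.1).1, clip_of_le hK hW (T.phase m z.1).2]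
  set p := rv.Φ (shiftClip rv.K (clip (ru.comp rv).K (T.phase m z.1).1) 0)
    (shiftClip rv.K (clip (ru.comp rv).K (T.phase m z.1).2) 0) z.2 z.1 with hp
  have hd : ru.K + p.1.1.natAbs ≤ (ru.comp rv).K ∧ ru.K + p.1.2.natAbs ≤ (ru.comp rv).K := by
    have h1 := rv.le_D (shiftClip rv.K (clip (ru.comp rv).K (T.phase m z.1).1) 0)
      (shiftClip rv.K (clip (ru.comp rv).K (T.phase m z.1).2) 0) z.2 z.1
    simp only [← hp] at h1
    have h2 : ru.K + rv.D ≤ (ru.comp rv).K := le_max_left _ _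
    omega
  simp only [T.phase_sh, Prod.fst_add, Prod.snd_add, clip_add hW _ _ hd.1, clip_add hW _ _ hd.2,
    S.sh_sh]
  simp only [Rule.comp, hp]

/-! ### Phase classes seen through the signed positions -/

variable (T) in
/-- A family of phase classes seen through the signed positions up to `K`. -/
def Vis (K : ℕ) (P : ∀ m, Ph T m → Prop) : Prop :=
  ∃ P' : Option ℤ → Option ℤ → Prop, ∀ m, 2 * K ≤ T.W m → ∀ c,
    (P m c ↔ P' (clip K c.1) (clip K c.2))

theorem Vis.mono {K K' : ℕ} {P : ∀ m, Ph T m → Prop} (h : Vis T K P) (hK : K ≤ K') :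
    Vis T K' P := by
  obtain ⟨P', h⟩ := h
  refine ⟨fun i j => P' (shiftClip K i 0) (shiftClip K j 0), fun m hW c => ?_⟩
  rw [h m (by omega) c, clip_of_le hK hW, clip_of_le hK hW]

theorem Vis.op {K : ℕ} {P Q : ∀ m, Ph T m → Prop} (f : Prop → Prop → Prop) (hP : Vis T K P)
    (hQ : Vis T K Q) : Vis T K fun m c => f (P m c) (Q m c) := by
  obtain ⟨P', hP⟩ := hP
  obtain ⟨Q', hQ⟩ := hQ
  exact ⟨fun i j => f (P' i j) (Q' i j), fun m hW c => by
    beta_reduce
    rw [propext (hP m hW c), propext (hQ m hW c)]⟩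

theorem Vis.not {K : ℕ} {P : ∀ m, Ph T m → Prop} (hP : Vis T K P) :
    Vis T K fun m c => ¬ P m c :=
  hP.op (fun p _ => ¬ p) hP

theorem vis_hd (ax : Bool) (r K : ℕ) (a : Lat)
    (h : r + (if ax then a.2 else a.1).natAbs ≤ K) :
    Vis T K fun m c => hd (alg T m ax (c + res T m a)) < r := by
  refine ⟨fun i j => (shiftClip r (if ax then j else i) (if ax then a.2 else a.1)).isSome,
    fun m hW c => ?_⟩
  have : NeZero (T.W m) := ⟨(T.W_pos m).ne'⟩
  have e : alg T m ax (c + res T m a) =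
      alg T m ax c + (((if ax then a.2 else a.1 : ℤ)) : ZMod (T.W m)) := by
    cases ax <;> rfl
  have e2 : (if ax then clip K c.2 else clip K c.1) = clip K (alg T m ax c) := by
    cases ax <;> rfl
  beta_reduce
  rw [e, e2, ← clip_add hW _ _ h, Option.isSome_iff_ne_none, Ne, clip_eq_none_iff, not_le]

/-- The piece of a generator on a phase class. -/
noncomputable def piece (T : Tower S) (m : ℕ) (g : Gen X n) (P : Ph T m → Prop) : Gen X n :=
  g.withU ⟨(g.U : Set X) ∩ T.phase m ⁻¹' {c | P c},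
    g.U.isClopen.inter ⟨⟨(T.isLocallyConstant_phase m) {c | P c}ᶜ⟩,
      (T.isLocallyConstant_phase m) {c | P c}⟩⟩

theorem piece_U (g : Gen X n) (P : Ph T m → Prop) {x : X} :
    x ∈ ((piece T m g P).U : Set X) ↔ x ∈ g.U ∧ P (T.phase m x) := Iff.rfl

open Classical in
/-- The rule of a piece of a generator. -/
noncomputable def pieceRule (S : Sys X) (g : Gen X n) (K : ℕ) (P' : Option ℤ → Option ℤ → Prop) :
    Rule S n where
  K := K + (g.p.1.1.natAbs + g.p.1.2.natAbs + g.q.1.1.natAbs + g.q.1.2.natAbs + g.r.1.1.natAbs +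
    g.r.1.2.natAbs)
  D := g.p.1.1.natAbs + g.p.1.2.natAbs + g.q.1.1.natAbs + g.q.1.2.natAbs + g.r.1.1.natAbs +
    g.r.1.2.natAbs
  Φ i j c x :=
    if c = g.p.2 ∧ P' (shiftClip K i (-g.p.1.1)) (shiftClip K j (-g.p.1.2)) ∧
        S.sh (-g.p.1) x ∈ g.U then (g.q.1 - g.p.1, g.q.2)
    else if c = g.q.2 ∧ P' (shiftClip K i (-g.q.1.1)) (shiftClip K j (-g.q.1.2)) ∧
        S.sh (-g.q.1) x ∈ g.U then (g.r.1 - g.q.1, g.r.2)
    else if c = g.r.2 ∧ P' (shiftClip K i (-g.r.1.1)) (shiftClip K j (-g.r.1.2)) ∧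
        S.sh (-g.r.1) x ∈ g.U then (g.p.1 - g.r.1, g.p.2)
    else (0, c)
  isLocallyConstant_Φ i j c := by
    set t : X → Prop × Prop × Prop := fun x =>
      (S.sh (-g.p.1) x ∈ g.U, S.sh (-g.q.1) x ∈ g.U, S.sh (-g.r.1) x ∈ g.U)
    have one : ∀ v : Lat, IsLocallyConstant fun x => S.sh v x ∈ g.U := fun v => by
      refine (IsLocallyConstant.iff_exists_open _).2 fun x => ?_
      have hc : IsClopen (S.sh v ⁻¹' (g.U : Set X)) := g.U.isClopen.preimage (S.sh v).continuous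
      by_cases hx : S.sh v x ∈ g.U
      · exact ⟨_, hc.isOpen, hx, fun y hy => propext (iff_of_true hy hx)⟩
      · exact ⟨_, hc.compl.isOpen, hx, fun y hy => propext (iff_of_false hy hx)⟩
    have ht : IsLocallyConstant t := (one _).prodMk ((one _).prodMk (one _))
    exact ht.comp fun t : Prop × Prop × Prop =>
      if c = g.p.2 ∧ P' (shiftClip K i (-g.p.1.1)) (shiftClip K j (-g.p.1.2)) ∧ t.1
        then (g.q.1 - g.p.1, g.q.2)
      else if c = g.q.2 ∧ P' (shiftClip K i (-g.q.1.1)) (shiftClip K j (-g.q.1.2)) ∧ t.2.1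
        then (g.r.1 - g.q.1, g.r.2)
      else if c = g.r.2 ∧ P' (shiftClip K i (-g.r.1.1)) (shiftClip K j (-g.r.1.2)) ∧ t.2.2
        then (g.p.1 - g.r.1, g.p.2)
      else (0, c)
  le_D i j c x := by
    split_ifs <;> simp only [Prod.fst_sub, Prod.snd_sub, Prod.fst_zero, Prod.snd_zero] <;> omega

theorem follows_piece (g : Gen X n) {K : ℕ} {P' : Option ℤ → Option ℤ → Prop}
    {P : Ph T m → Prop} (hP : ∀ c, P c ↔ P' (clip K c.1) (clip K c.2))
    (hW : 2 * (pieceRule S g K P').K ≤ T.W m) :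
    Follows T m (ugen S (piece T m g P)) (pieceRule S g K P') := by
  classical
  have : NeZero (T.W m) := ⟨(T.W_pos m).ne'⟩
  intro z
  set i := clip (pieceRule S g K P').K (T.phase m z.1).1
  set j := clip (pieceRule S g K P').K (T.phase m z.1).2
  have hv : ∀ a : Lat,
      a.1.natAbs + K ≤ (pieceRule S g K P').K → a.2.natAbs + K ≤ (pieceRule S g K P').K →
      (P (T.phase m (S.sh (-a) z.1)) ↔ P' (shiftClip K i (-a.1)) (shiftClip K j (-a.2))) := by
    intro a h1 h2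
    rw [hP, T.phase_sh, Prod.fst_add, Prod.snd_add,
      clip_add (K' := (pieceRule S g K P').K) hW _ _ (by simp; omega),
      clip_add (K' := (pieceRule S g K P').K) hW _ _ (by simp; omega)]
    rfl
  have hp := hv g.p.1 (by simp only [pieceRule]; omega) (by simp only [pieceRule]; omega)
  have hq := hv g.q.1 (by simp only [pieceRule]; omega) (by simp only [pieceRule]; omega)
  have hr := hv g.r.1 (by simp only [pieceRule]; omega) (by simp only [pieceRule]; omega)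
  rw [ueval_ugen]
  show S.cycFun ((piece T m g P).U : Set X) g.p g.q g.r z = _
  unfold Sys.cycFun
  by_cases c1 : z.2 = g.p.2 ∧ S.sh (-g.p.1) z.1 ∈ ((piece T m g P).U : Set X)
  · have e : (pieceRule S g K P').Φ i j z.2 z.1 = (g.q.1 - g.p.1, g.q.2) :=
      if_pos ⟨c1.1, hp.1 c1.2.2, c1.2.1⟩
    rw [if_pos c1, e]
  have n1 : ¬ (z.2 = g.p.2 ∧ P' (shiftClip K i (-g.p.1.1)) (shiftClip K j (-g.p.1.2)) ∧
      S.sh (-g.p.1) z.1 ∈ g.U) := fun h => c1 ⟨h.1, h.2.2, hp.2 h.2.1⟩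
  by_cases c2 : z.2 = g.q.2 ∧ S.sh (-g.q.1) z.1 ∈ ((piece T m g P).U : Set X)
  · have e : (pieceRule S g K P').Φ i j z.2 z.1 = (g.r.1 - g.q.1, g.r.2) :=
      (if_neg n1).trans (if_pos ⟨c2.1, hq.1 c2.2.2, c2.2.1⟩)
    rw [if_neg c1, if_pos c2, e]
  have n2 : ¬ (z.2 = g.q.2 ∧ P' (shiftClip K i (-g.q.1.1)) (shiftClip K j (-g.q.1.2)) ∧
      S.sh (-g.q.1) z.1 ∈ g.U) := fun h => c2 ⟨h.1, h.2.2, hq.2 h.2.1⟩
  by_cases c3 : z.2 = g.r.2 ∧ S.sh (-g.r.1) z.1 ∈ ((piece T m g P).U : Set X)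
  · have e : (pieceRule S g K P').Φ i j z.2 z.1 = (g.p.1 - g.r.1, g.p.2) :=
      (if_neg n1).trans ((if_neg n2).trans (if_pos ⟨c3.1, hr.1 c3.2.2, c3.2.1⟩))
    rw [if_neg c1, if_neg c2, if_pos c3, e]
  have n3 : ¬ (z.2 = g.r.2 ∧ P' (shiftClip K i (-g.r.1.1)) (shiftClip K j (-g.r.1.2)) ∧
      S.sh (-g.r.1) z.1 ∈ g.U) := fun h => c3 ⟨h.1, h.2.2, hr.2 h.2.1⟩
  have e : (pieceRule S g K P').Φ i j z.2 z.1 = (0, z.2) :=
    (if_neg n1).trans ((if_neg n2).trans (if_neg n3))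
  rw [if_neg c1, if_neg c2, if_neg c3, e, S.sh_zero]

end Vale.Agent.P196.Full.Kernel
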