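import Vale.Agent.P196.Full.Universal.Kernel.Edge
import Vale.Agent.P196.Full.Universal.Kernel.Rules

/-!
# P196: the middle of an arm depends on the windows along the edge

For an element following a rule, the cell permutation is read off from the rule, and the inversion
sign of the middle of an arm is a product of a fixed function of the points along the edge.
-/

namespace Vale.Agent.P196.Full.Kernel

variable {X : Type} [TopologicalSpace X] {n : ℕ} {S : Sys X} {T : Tower S} {m : ℕ}

/-- The signed position of an integer, when small. -/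
def clipi (K : ℕ) (i : ℤ) : Option ℤ := if -(K : ℤ) ≤ i ∧ i < K then some i else none

theorem clip_eq_clipi {K : ℕ} {i : ℤ} (h : 2 * (K + i.natAbs + 1) ≤ T.W m) :
    clip K (i : ZMod (T.W m)) = clipi K i := by
  have : NeZero (T.W m) := ⟨(T.W_pos m).ne'⟩
  have h0 := clip_cast (N := T.W m) (K := K + i.natAbs + 1) (by omega) (i := i) (by omega) (by omega)
  rw [clip_of_le (show K ≤ K + i.natAbs + 1 by omega) (by omega), h0]
  simp [shiftClip, clipi]

/-- The move of a rule at a cell, seen from the corner. -/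
def Rule.at (r : Rule S n) (v : Off n) (x : X) : Off n :=
  r.Φ (clipi r.K v.1.1) (clipi r.K v.1.2) v.2 (S.sh v.1 x)

/-- Cell permutations agree where the rule gives the same moves. -/
theorem cp_congr {L : Finset Lat} (h : InjMod T m L) {u : UGroup S n} (hu : u ∈ Fr T m L)
    {r : Rule S n} (hf : Follows T m u r) {x y : X} (hx : x ∈ base T m) (hy : y ∈ base T m)
    (a : ↥L × Fin n)
    (he : ∀ i j, clip r.K (res T m (a.1 : Lat)).1 = i → clip r.K (res T m (a.1 : Lat)).2 = j →
      r.Φ i j a.2 (S.sh (a.1 : Lat) x) = r.Φ i j a.2 (S.sh (a.1 : Lat) y)) :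
    cp T m L u x a = cp T m L u y a := by
  have e : ∀ z ∈ base T m, ∀ d : Off n,
      r.Φ (clip r.K (res T m (a.1 : Lat)).1) (clip r.K (res T m (a.1 : Lat)).2) a.2
        (S.sh (a.1 : Lat) z) = d →
      res T m ((cp T m L u z a).1 : Lat) = res T m (d.1 + (a.1 : Lat)) ∧
        (cp T m L u z a).2 = d.2 := by
    intro z hz d hd'
    have h1 := hf (pt S z (lat a))
    rw [reads_cp h hu hz, phase_pt hz] at h1
    have h2 := congrArg (fun p : Pt X n => T.phase m p.1) h1
    have h3 := congrArg (fun p : Pt X n => p.2) h1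
    simp only [pt, lat, hd', S.sh_sh] at h2 h3
    refine ⟨?_, h3⟩
    rw [← phase_pt (n := n) hz ((cp T m L u z a).1, a.2),
      ← phase_pt (n := n) hz (d.1 + (a.1 : Lat), a.2)]
    exact h2
  obtain ⟨e1, e2⟩ := e x hx _ rfl
  obtain ⟨e1', e2'⟩ := e y hy _ (he _ _ rfl rfl).symm
  exact Prod.ext (Subtype.ext (h (cp T m L u x a).1.2 (cp T m L u y a).1.2 (e1.trans e1'.symm)))
    (e2.trans e2'.symm)

variable {ax : Bool} {B : ℕ}

/-- The move of a rule at a cell far from both ends of its edge. -/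
def Rule.midAt (rr : Rule S n) (ax : Bool) (r : ℤ) (c : Fin n) (y : X) : ℤ × ℤ × Fin n :=
  let d := rr.Φ (if ax then clipi rr.K r else none) (if ax then none else clipi rr.K r) c
    (S.sh (axisVec ax 0 r) y)
  (lal ax d.1, lcr ax d.1, d.2)

theorem midAt_le (rr : Rule S n) (ax : Bool) (r : ℤ) (c : Fin n) (y : X) :
    (rr.midAt ax r c y).1.natAbs ≤ rr.D ∧ (rr.midAt ax r c y).2.1.natAbs ≤ rr.D := by
  have h := rr.le_D (if ax then clipi rr.K r else none) (if ax then none else clipi rr.K r) c
    (S.sh (axisVec ax 0 r) y)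
  cases ax <;> simp only [Rule.midAt, lal, lcr, if_true, if_false, Bool.false_eq_true] at h ⊢
  · exact h
  · exact ⟨h.2, h.1⟩

theorem cp_middle (hB : 2 * B ≤ T.W m) {u : UGroup S n} (hu : u ∈ Fr T m (strip T m ax B))
    {rr : Rule S n} (hf : Follows T m u rr) (hW : 2 * (rr.K + rr.D + B + 1) ≤ T.W m) {x : X}
    (hx : x ∈ base T m) (z : Cell n T m ax B) (h1 : (rr.K + rr.D : ℕ) ≤ al z)
    (h2 : al z < (T.W m : ℤ) - (rr.K + rr.D : ℕ)) :
    al (cp T m (strip T m ax B) u x z) =
        al z + (rr.midAt ax (cr z) z.2 (S.sh (axisVec ax (al z) 0) x)).1 ∧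
      cr (cp T m (strip T m ax B) u x z) =
        cr z + (rr.midAt ax (cr z) z.2 (S.sh (axisVec ax (al z) 0) x)).2.1 ∧
      (cp T m (strip T m ax B) u x z).2 =
        (rr.midAt ax (cr z) z.2 (S.sh (axisVec ax (al z) 0) x)).2.2 := by
  have : NeZero (T.W m) := ⟨(T.W_pos m).ne'⟩
  obtain ⟨hz1, hz2⟩ := cell_bounds z
  set σz := cp T m (strip T m ax B) u x z with hσ
  have hnone : clip rr.K (al z : ZMod (T.W m)) = none := by
    rw [clip_eq_none_iff, ← (phase_cell z).1, hd_alg_cell]
    omega
  have hcr : clip rr.K (cr z : ZMod (T.W m)) = clipi rr.K (cr z) := clip_eq_clipi (by omega)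
  have hi : clip rr.K (res T m (z.1 : Lat)).1 = (if ax then clipi rr.K (cr z) else none) ∧
      clip rr.K (res T m (z.1 : Lat)).2 = (if ax then none else clipi rr.K (cr z)) := by
    have p1 := (phase_cell z).1
    have p2 := (phase_cell z).2
    cases ax <;> simp only [alg, crs, if_true, if_false, Bool.false_eq_true] at p1 p2 ⊢ <;>
      rw [p1, p2]
    exacts [⟨hnone, hcr⟩, ⟨hcr, hnone⟩]
  have hpt : S.sh (axisVec ax 0 (cr z)) (S.sh (axisVec ax (al z) 0) x) = S.sh (z.1 : Lat) x := by
    rw [S.sh_sh]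
    congr 2
    conv_rhs => rw [← axisVec_lal ax (z.1 : Lat)]
    cases ax <;> simp [axisVec, al, cr]
  have h0 := hf (pt S x (lat z))
  rw [reads_cp (injMod_strip hB) hu hx, phase_pt hx, ← hσ] at h0
  simp only [lat, hi] at h0
  have hd' : rr.Φ (if ax then clipi rr.K (cr z) else none) (if ax then none else clipi rr.K (cr z))
      z.2 (pt S x ((z.1 : Lat), z.2)).1 =
      rr.Φ (if ax then clipi rr.K (cr z) else none) (if ax then none else clipi rr.K (cr z))
      z.2 (S.sh (axisVec ax 0 (cr z)) (S.sh (axisVec ax (al z) 0) x)) := by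
    rw [hpt]; rfl
  simp only [pt_snd, hd'] at h0
  set d := rr.Φ (if ax then clipi rr.K (cr z) else none) (if ax then none else clipi rr.K (cr z))
      z.2 (S.sh (axisVec ax 0 (cr z)) (S.sh (axisVec ax (al z) 0) x)) with hd
  have hc : σz.2 = d.2 := congrArg (fun p : Pt X n => p.2) h0
  have hres : res T m (σz.1 : Lat) = res T m (d.1 + (z.1 : Lat)) := by
    rw [← phase_pt (n := n) hx ((σz.1 : Lat), σz.2),
      ← phase_pt (n := n) hx (d.1 + (z.1 : Lat), σz.2)]
    have h2' := congrArg (fun p : Pt X n => T.phase m p.1) h0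
    simp only [pt, S.sh_sh] at h2' ⊢
    exact h2'
  have hD := rr.le_D (if ax then clipi rr.K (cr z) else none)
    (if ax then none else clipi rr.K (cr z)) z.2
    (S.sh (axisVec ax 0 (cr z)) (S.sh (axisVec ax (al z) 0) x))
  simp only [← hd] at hD
  have ea := congrArg (alg T m ax) hres
  have ec := congrArg (crs T m ax) hres
  rw [(phase_cell σz).1] at ea
  rw [(phase_cell σz).2] at ec
  have e1 : alg T m ax (res T m (d.1 + (z.1 : Lat))) =
      ((lal ax d.1 + al z : ℤ) : ZMod (T.W m)) := by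
    rw [res_add, Int.cast_add, ← (phase_cell z).1]
    cases ax <;> rfl
  have e2 : crs T m ax (res T m (d.1 + (z.1 : Lat))) =
      ((lcr ax d.1 + cr z : ℤ) : ZMod (T.W m)) := by
    rw [res_add, Int.cast_add, ← (phase_cell z).2]
    cases ax <;> rfl
  rw [e1] at ea
  rw [e2] at ec
  obtain ⟨⟨hs1, hs1'⟩, hs2⟩ := cell_bounds σz
  have hl : (lal ax d.1).natAbs ≤ rr.D ∧ (lcr ax d.1).natAbs ≤ rr.D := by
    cases ax <;> simp only [lal, lcr, if_true, if_false, Bool.false_eq_true] <;>
      first | exact hD | exact ⟨hD.2, hD.1⟩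
  have ea' := cast_eq_cast le_rfl (by omega) ea
  have ec' := cast_eq_cast le_rfl (by omega) ec
  simp only [Rule.midAt, ← hd]
  exact ⟨by omega, by omega, hc⟩

/-- The key of coordinates. -/
def keyI (n B : ℕ) (i r : ℤ) (c : Fin n) : ℤ := (i * (2 * B) + (r + B)) * n + (c : ℕ)

theorem key_eq (z : Cell n T m ax B) : key z = keyI n B (al z) (cr z) z.2 := rfl

theorem keyI_add (i t r : ℤ) (c : Fin n) :
    keyI n B (i + t) r c = keyI n B t r c + i * (2 * B) * n := by
  simp only [keyI]; ring

theorem keyI_lt {i i' r r' : ℤ} {c c' : Fin n} (h : i < i') (hr : r < B)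
    (hr' : -(B : ℤ) ≤ r') : keyI n B i r c < keyI n B i' r' c' := by
  have hc : ((c : ℕ) : ℤ) < n := by exact_mod_cast c.isLt
  have hn : (0 : ℤ) ≤ n := Int.natCast_nonneg n
  have hB : (0 : ℤ) ≤ 2 * B := by omega
  have hA : i * (2 * B) + (r + B) + 1 ≤ i' * (2 * B) + (r' + B) := by nlinarith
  have hA' := mul_le_mul_of_nonneg_right hA hn
  simp only [keyI]
  nlinarith

open Classical in
/-- The inversion signs of the windows starting at a point of the edge. -/
noncomputable def winSign (rr : Rule S n) (ax : Bool) (B : ℕ) (y : X) : ℤˣ :=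
  ∏ p ∈ Finset.Ico (0 : ℤ) B ×ˢ (Finset.univ : Finset (Fin n)),
    ∏ q ∈ Finset.Icc (0 : ℤ) (2 * rr.D) ×ˢ Finset.Ico (0 : ℤ) B ×ˢ
        (Finset.univ : Finset (Fin n)),
      if keyI n B 0 p.1 p.2 < keyI n B q.1 q.2.1 q.2.2 then
        (if keyI n B (rr.midAt ax p.1 p.2 y).1 (p.1 + (rr.midAt ax p.1 p.2 y).2.1)
              (rr.midAt ax p.1 p.2 y).2.2 <
            keyI n B (q.1 + (rr.midAt ax q.2.1 q.2.2 (S.sh (axisVec ax q.1 0) y)).1)
              (q.2.1 + (rr.midAt ax q.2.1 q.2.2 (S.sh (axisVec ax q.1 0) y)).2.1)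
              (rr.midAt ax q.2.1 q.2.2 (S.sh (axisVec ax q.1 0) y)).2.2
          then 1 else -1)
      else 1

section mid

variable {u : UGroup S n} {rr : Rule S n} {Z : ℕ}

/-- The term of a deep cell of the middle. -/
theorem invAt_deep (hB : 2 * B ≤ T.W m) (hu : u ∈ Fr T m (strip T m ax B))
    (hf : Follows T m u rr) (hW : 2 * (rr.K + rr.D + B + 1) ≤ T.W m) (hZ : rr.K + rr.D ≤ Z)
    {x : X} (hx : x ∈ base T m) (y : Mid (n := n) (T := T) (m := m) (ax := ax) (B := B) Z)
    (hy : al y.1 < (T.W m : ℤ) - Z - 2 * rr.D) :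
    invAt (fun y : Mid Z => key y.1)
        (fun y : Mid Z => key (cp T m (strip T m ax B) u x y.1)) y =
      ∏ q ∈ Finset.Icc (0 : ℤ) (2 * rr.D) ×ˢ Finset.Ico (0 : ℤ) B ×ˢ
          (Finset.univ : Finset (Fin n)),
        if keyI n B 0 (cr y.1) y.1.2 < keyI n B q.1 q.2.1 q.2.2 then
          (if keyI n B (rr.midAt ax (cr y.1) y.1.2 (S.sh (axisVec ax (al y.1) 0) x)).1
                (cr y.1 + (rr.midAt ax (cr y.1) y.1.2 (S.sh (axisVec ax (al y.1) 0) x)).2.1)
                (rr.midAt ax (cr y.1) y.1.2 (S.sh (axisVec ax (al y.1) 0) x)).2.2 <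
              keyI n B (q.1 + (rr.midAt ax q.2.1 q.2.2
                  (S.sh (axisVec ax q.1 0) (S.sh (axisVec ax (al y.1) 0) x))).1)
                (q.2.1 + (rr.midAt ax q.2.1 q.2.2
                  (S.sh (axisVec ax q.1 0) (S.sh (axisVec ax (al y.1) 0) x))).2.1)
                (rr.midAt ax q.2.1 q.2.2
                  (S.sh (axisVec ax q.1 0) (S.sh (axisVec ax (al y.1) 0) x))).2.2
            then 1 else -1)
        else 1 := by
  classical
  obtain ⟨y, hup, hy1, hy2⟩ := y
  simp only at hy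
  have h0 : (rr.K + rr.D : ℕ) ≤ al y := by omega
  have img : ∀ z : Cell n T m ax B, (Z : ℤ) ≤ al z → al z < (T.W m : ℤ) - Z →
      key (cp T m (strip T m ax B) u x z) =
        keyI n B (al z + (rr.midAt ax (cr z) z.2 (S.sh (axisVec ax (al z) 0) x)).1)
          (cr z + (rr.midAt ax (cr z) z.2 (S.sh (axisVec ax (al z) 0) x)).2.1)
          (rr.midAt ax (cr z) z.2 (S.sh (axisVec ax (al z) 0) x)).2.2 := by
    intro z h1 h2
    obtain ⟨e1, e2, e3⟩ := cp_middle hB hu hf hW hx z (by omega) (by omega)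
    rw [key_eq, e1, e2, e3]
  rw [invAt, Finset.prod_filter]
  have hsub : ∏ y' : Mid (n := n) (T := T) (m := m) (ax := ax) (B := B) Z,
      (if key y < key y'.1 then
        (if key (cp T m (strip T m ax B) u x y) < key (cp T m (strip T m ax B) u x y'.1)
          then (1 : ℤˣ) else -1) else 1) =
      ∏ y' ∈ (Finset.univ : Finset (Mid (n := n) (T := T) (m := m) (ax := ax) (B := B) Z)).filter
          (fun y' => al y ≤ al y'.1 ∧ al y'.1 ≤ al y + 2 * rr.D),
        (if key y < key y'.1 then
          (if key (cp T m (strip T m ax B) u x y) < key (cp T m (strip T m ax B) u x y'.1)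
            then (1 : ℤˣ) else -1) else 1) := by
    refine (Finset.prod_subset (Finset.filter_subset _ _) fun y' _ hy' => ?_).symm
    simp only [Finset.mem_filter, Finset.mem_univ, true_and, not_and_or, not_le] at hy'
    rcases hy' with hlt | hlt
    · exact if_neg (fun e => absurd e (not_lt.2 (le_of_lt (keyI_lt hlt (cell_bounds y'.1).2.2
        (cell_bounds y).2.1))))
    · by_cases hk : key y < key y'.1
      · rw [if_pos hk, if_pos]
        obtain ⟨-, h1, h2⟩ := y'.2
        rw [img y hy1 hy2, img y'.1 h1 h2]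
        have d1 := midAt_le rr ax (cr y) y.2 (S.sh (axisVec ax (al y) 0) x)
        have d2 := midAt_le rr ax (cr y'.1) y'.1.2 (S.sh (axisVec ax (al y'.1) 0) x)
        have b1 := cell_bounds (cp T m (strip T m ax B) u x y)
        have b2 := cell_bounds (cp T m (strip T m ax B) u x y'.1)
        rw [(cp_middle hB hu hf hW hx y h0 (by omega)).2.1] at b1
        rw [(cp_middle hB hu hf hW hx y'.1 (by omega) (by omega)).2.1] at b2
        exact keyI_lt (by omega) b1.2.2 b2.2.1
      · rw [if_neg hk]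
  refine hsub.trans (Finset.prod_bij' (fun y' _ => (al y'.1 - al y, cr y'.1, y'.1.2))
    (fun q hq => (⟨mkCell (al y + q.1) q.2.1 q.2.2 ?_, ?_⟩ : Mid Z)) ?_ ?_ ?_ ?_ ?_)
  · simp only [Finset.mem_product, Finset.mem_Icc, Finset.mem_Ico] at hq
    have := cell_bounds y
    omega
  · simp only [Finset.mem_product, Finset.mem_Icc, Finset.mem_Ico] at hq
    simp only [Up, cr_mkCell, al_mkCell]
    omega
  · intro y' hy'
    simp only [Finset.mem_filter, Finset.mem_univ, true_and] at hy'
    have h2 := (cell_bounds y'.1).2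
    have h3 : (0 : ℤ) ≤ cr y'.1 := y'.2.1
    simp only [Finset.mem_product, Finset.mem_Icc, Finset.mem_Ico, Finset.mem_univ, and_true]
    omega
  · intro q hq
    simp only [Finset.mem_product, Finset.mem_Icc, Finset.mem_Ico] at hq
    simp only [Finset.mem_filter, Finset.mem_univ, true_and, al_mkCell]
    omega
  · intro y' hy'
    exact Subtype.ext (cell_ext (by rw [al_mkCell]; omega) (by rw [cr_mkCell]) rfl)
  · intro q hq
    simp only [al_mkCell, cr_mkCell, snd_mkCell, add_sub_cancel_left]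
  · intro y' hy'
    simp only [Finset.mem_filter, Finset.mem_univ, true_and] at hy'
    rw [img y hy1 hy2, img y'.1 y'.2.2.1 y'.2.2.2]
    have e : S.sh (axisVec ax (al y'.1 - al y) 0) (S.sh (axisVec ax (al y) 0) x) =
        S.sh (axisVec ax (al y'.1) 0) x := by
      rw [S.sh_sh]; congr 2; cases ax <;> simp [axisVec]
    have k1 : key y = keyI n B 0 (cr y) y.2 + al y * (2 * B) * n := by
      rw [key_eq, ← keyI_add, add_zero]
    have k2 : key y'.1 =
        keyI n B (al y'.1 - al y) (cr y'.1) y'.1.2 + al y * (2 * B) * n := by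
      rw [key_eq, ← keyI_add, add_sub_cancel]
    dsimp only
    rw [e, k1, k2, keyI_add (al y), show al y'.1 +
        (rr.midAt ax (cr y'.1) y'.1.2 (S.sh (axisVec ax (al y'.1) 0) x)).1 = al y +
          (al y'.1 - al y + (rr.midAt ax (cr y'.1) y'.1.2 (S.sh (axisVec ax (al y'.1) 0) x)).1) by
        omega, keyI_add (al y)]
    simp only [add_lt_add_iff_right]

open Classical in
/-- The deep part of the middle as a product along the edge. -/
theorem prod_deep (hB : 2 * B ≤ T.W m) (hu : u ∈ Fr T m (strip T m ax B))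
    (hf : Follows T m u rr) (hW : 2 * (rr.K + rr.D + B + 1) ≤ T.W m) (hZ : rr.K + rr.D ≤ Z)
    {w : X} (hw : w ∈ base T m) :
    ∏ y ∈ (Finset.univ : Finset (Mid (n := n) (T := T) (m := m) (ax := ax) (B := B) Z)).filter
        (fun y => al y.1 < (T.W m : ℤ) - Z - 2 * rr.D),
      invAt (fun y : Mid Z => key y.1)
        (fun y : Mid Z => key (cp T m (strip T m ax B) u w y.1)) y =
    ∏ j ∈ (Finset.univ : Finset (Fin (T.W m))).filter
        (fun j : Fin (T.W m) => ¬ ((j : ℤ) < Z ∨ (T.W m : ℤ) - Z - 2 * rr.D ≤ (j : ℤ))),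
      winSign rr ax B (S.sh (axisVec ax (j : ℤ) 0) w) := by
  unfold winSign
  rw [← Finset.prod_product']
  refine Finset.prod_bij'
    (fun y _ => (⟨(al y.1).toNat, by have := cell_bounds y.1; omega⟩, cr y.1, y.1.2))
    (fun q hq => (⟨mkCell (q.1 : ℤ) q.2.1 q.2.2 ?_, ?_⟩ : Mid Z)) ?_ ?_ ?_ ?_ ?_
  · simp only [Finset.mem_product, Finset.mem_filter, Finset.mem_univ, true_and, and_true,
      Finset.mem_Ico, not_or, not_lt, not_le] at hq
    omega
  · simp only [Finset.mem_product, Finset.mem_filter, Finset.mem_univ, true_and, and_true,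
      Finset.mem_Ico, not_or, not_lt, not_le] at hq
    simp only [Up, cr_mkCell, al_mkCell]
    omega
  · intro y hy
    simp only [Finset.mem_filter, Finset.mem_univ, true_and] at hy
    have := (cell_bounds y.1).2
    have h3 : (0 : ℤ) ≤ cr y.1 := y.2.1
    have h4 := y.2.2
    simp only [Finset.mem_product, Finset.mem_filter, Finset.mem_univ, true_and, and_true,
      Finset.mem_Ico, not_or, not_lt, not_le]
    omega
  · intro q hq
    simp only [Finset.mem_product, Finset.mem_filter, Finset.mem_univ, true_and, and_true,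
      Finset.mem_Ico, not_or, not_lt, not_le] at hq
    simp only [Finset.mem_filter, Finset.mem_univ, true_and, al_mkCell]
    omega
  · intro y hy
    have := (cell_bounds y.1).1
    exact Subtype.ext (cell_ext (by simp; omega) (by rw [cr_mkCell]) rfl)
  · intro q hq
    simp
  · intro y hy
    simp only [Finset.mem_filter, Finset.mem_univ, true_and] at hy
    rw [invAt_deep hB hu hf hW hZ hw y hy]
    dsimp only
    rw [Int.toNat_of_nonneg (cell_bounds y.1).1.1]

/-- The shallow terms only see the ends. -/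
theorem invAt_shallow {Z D : ℕ} {π π' : Equiv.Perm (Cell n T m ax B)}
    (he : ∀ z, (T.W m : ℤ) - Z - 2 * D ≤ al z → π z = π' z)
    (y : Mid (n := n) (T := T) (m := m) (ax := ax) (B := B) Z)
    (hy : ¬ al y.1 < (T.W m : ℤ) - Z - 2 * D) :
    invAt (fun y : Mid Z => key y.1) (fun y : Mid Z => key (π y.1)) y =
      invAt (fun y : Mid Z => key y.1) (fun y : Mid Z => key (π' y.1)) y := by
  classical
  unfold invAt
  refine Finset.prod_congr rfl fun y' hy' => ?_
  simp only [Finset.mem_filter, Finset.mem_univ, true_and] at hy'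
  have h1 : al y.1 ≤ al y'.1 := by
    by_contra hc
    exact absurd hy' (not_lt.2 (le_of_lt (keyI_lt (not_le.1 hc) (cell_bounds y'.1).2.2
      (cell_bounds y.1).2.1)))
  have e1 := he y.1 (not_lt.1 hy)
  have e2 := he y'.1 (le_trans (not_lt.1 hy) h1)
  simp only [e1, e2]

/-- The inversion sign of the middle is decided by the ends and by the product along the edge. -/
theorem midSign_congr (hB : 2 * B ≤ T.W m) (hu : u ∈ Fr T m (strip T m ax B))
    (hf : Follows T m u rr) (hW : 2 * (rr.K + rr.D + B + 1) + 4 * Z + 4 * rr.D ≤ T.W m)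
    (hZ : rr.K + rr.D ≤ Z) {x x' : X} (hx : x ∈ base T m) (hx' : x' ∈ base T m)
    (he : ∀ z, (T.W m : ℤ) - Z - 2 * rr.D ≤ al z →
      cp T m (strip T m ax B) u x z = cp T m (strip T m ax B) u x' z)
    (hend : ∀ j : Fin (T.W m), ((j : ℤ) < Z ∨ (T.W m : ℤ) - Z - 2 * rr.D ≤ (j : ℤ)) →
      winSign rr ax B (S.sh (axisVec ax (j : ℤ) 0) x) =
        winSign rr ax B (S.sh (axisVec ax (j : ℤ) 0) x'))
    (hall : ∏ j : Fin (T.W m), winSign rr ax B (S.sh (axisVec ax (j : ℤ) 0) x) =
      ∏ j : Fin (T.W m), winSign rr ax B (S.sh (axisVec ax (j : ℤ) 0) x')) :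
    midSign Z (cp T m (strip T m ax B) u x) = midSign Z (cp T m (strip T m ax B) u x') := by
  classical
  have hW' : 2 * (rr.K + rr.D + B + 1) ≤ T.W m := by omega
  have d1 := prod_deep hB hu hf hW' hZ hx
  have d2 := prod_deep hB hu hf hW' hZ hx'
  set p : Fin (T.W m) → Prop := fun j => (j : ℤ) < Z ∨ (T.W m : ℤ) - Z - 2 * rr.D ≤ (j : ℤ)
  set G : Fin (T.W m) → ℤˣ := fun j => winSign rr ax B (S.sh (axisVec ax (j : ℤ) 0) x)
  set G' : Fin (T.W m) → ℤˣ := fun j => winSign rr ax B (S.sh (axisVec ax (j : ℤ) 0) x')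
  have r1 : (Finset.univ.filter p).prod G = (Finset.univ.filter p).prod G' :=
    Finset.prod_congr rfl fun j hj => hend j (Finset.mem_filter.1 hj).2
  have r2 : (Finset.univ.filter fun j => ¬ p j).prod G =
      (Finset.univ.filter fun j => ¬ p j).prod G' := by
    have h1 := Finset.prod_filter_mul_prod_filter_not Finset.univ p G
    have h2 := Finset.prod_filter_mul_prod_filter_not Finset.univ p G'
    exact mul_left_cancel ((h1.trans hall).trans (h2.symm.trans (by rw [r1])))
  unfold midSign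
  refine (Finset.prod_filter_mul_prod_filter_not Finset.univ
    (fun y : Mid (n := n) (T := T) (m := m) (ax := ax) (B := B) Z =>
      al y.1 < (T.W m : ℤ) - Z - 2 * rr.D) _).symm.trans (Eq.trans ?_
    (Finset.prod_filter_mul_prod_filter_not Finset.univ
      (fun y : Mid (n := n) (T := T) (m := m) (ax := ax) (B := B) Z =>
        al y.1 < (T.W m : ℤ) - Z - 2 * rr.D) _))
  exact congrArg₂ (· * ·) (d1.trans (r2.trans d2.symm))
    (Finset.prod_congr rfl fun y hy => invAt_shallow he y (Finset.mem_filter.1 hy).2)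

end mid

end Vale.Agent.P196.Full.Kernel
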