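import Vale.Agent.P196.Full.Universal.Kernel.Conserve
import Vale.Agent.P196.Full.Universal.Kernel.Window
import Vale.Agent.P196.Full.Universal.Defs

/-!
# P196: normal forms of kernel elements at a grid level, and corner observables
-/

namespace Vale.Agent.P196.Full.Kernel

variable {X : Type} [TopologicalSpace X] {n : ℕ} {S : Sys X}

/-- The pair of the slots of an axis. -/
def kax (ax : Bool) (p : ℕ × ℕ) : ℕ × ℕ := if ax then p.swap else p

theorem kax_add (ax : Bool) (p q : ℕ × ℕ) : kax ax (p + q) = kax ax p + kax ax q := by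
  cases ax <;> rfl

theorem kax_sum (ax : Bool) (p : ℕ × ℕ) : (kax ax p).1 + (kax ax p).2 = p.1 + p.2 := by
  cases ax
  exacts [rfl, Nat.add_comm _ _]

variable (T : Tower S) (m : ℕ)

/-- The slot swaps of an axis, as an element. -/
def IsSlots (hn : 8 ≤ n) (b : ℕ) (o κ : ℕ × ℕ) (ax : Bool) (u : UGroup S n) : Prop :=
  u ∈ Fr T m (strip T m ax (2 * b)) ∧ ∀ x ∈ base T m,
    cp T m (strip T m ax (2 * b)) u x = flipPerm hn b (kax ax o) (kax ax κ)

/-- The room of the part at a corner. -/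
def Room (hn : 8 ≤ n) (b : ℕ) (J : ℕ × ℕ) (c : Ph T m) (k : Fin n) : Prop :=
  InBall T m (2 * b) c ∨ ∃ ax, SlotPh T m hn ax b 0 (kax ax J) c k

/-- The radius of the room. -/
def roomRad (b : ℕ) (J : ℕ × ℕ) : ℕ := 2 * b + (J.1 + J.2)

/-- The count parities along the edge leaving a corner agree. -/
def SameCount {α : Type} (f : X → α) (x y : X) : Prop :=
  ∀ (ax : Bool) (a : α),
    (Nat.card {j : Fin (T.W m) // f (S.sh (axisVec ax (j : ℤ) 0) x) = a} : ZMod 2) =
      Nat.card {j : Fin (T.W m) // f (S.sh (axisVec ax (j : ℤ) 0) y) = a}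

/-- Two corners have the same key for an observable: its values there and at the next corners,
and its count parities along the two edges. -/
def SameKey {α : Type} (f : X → α) (x y : X) : Prop :=
  f x = f y ∧
    (∀ ax, f (S.sh (gvec T m (axisVec ax 1 0)) x) = f (S.sh (gvec T m (axisVec ax 1 0)) y)) ∧
    SameCount T m f x y

/-- The normal form: a face, a part at the corners, and slot swaps. -/
def Form (hn : 8 ≤ n) (b : ℕ) (o κ : ℕ × ℕ) (same : X → X → Prop) (u : UGroup S n) : Prop :=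
  ∃ a γ : UGroup S n, ∃ x0 x1 : UGroup S n, u = a * γ * (x0 * x1) ∧
    a ∈ Fr T m (face T m) ∧ γ ∈ Fr T m (ball (roomRad b (o + κ))) ∧
    MovesIn T m γ (Room T m hn b (o + κ)) ∧
    IsSlots T m hn b o κ false x0 ∧ IsSlots T m hn b o κ true x1 ∧
    ∀ x ∈ base T m, ∀ y ∈ base T m, same x y →
      cp T m (ball (roomRad b (o + κ))) γ x = cp T m (ball (roomRad b (o + κ))) γ y

variable {T m}

theorem Form.mono {hn : 8 ≤ n} {b : ℕ} {o κ : ℕ × ℕ} {same same' : X → X → Prop}
    {u : UGroup S n} (h : Form T m hn b o κ same u)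
    (hs : ∀ x ∈ base T m, ∀ y ∈ base T m, same' x y → same x y) :
    Form T m hn b o κ same' u := by
  obtain ⟨a, γ, x0, x1, e, h1, h2, h3, h4, h5, h6⟩ := h
  exact ⟨a, γ, x0, x1, e, h1, h2, h3, h4, h5, fun x hx y hy hxy => h6 x hx y hy (hs x hx y hy hxy)⟩

theorem slotPh_mono {hn : 8 ≤ n} {ax : Bool} {b : ℕ} {o κ J : ℕ × ℕ} {c : Ph T m} {k : Fin n}
    (h : SlotPh T m hn ax b o κ c k) (hJ1 : o.1 + κ.1 ≤ J.1) (hJ2 : o.2 + κ.2 ≤ J.2) :
    SlotPh T m hn ax b 0 J c k := by
  obtain ⟨i, r, hs, h⟩ := h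
  refine ⟨i, r, ?_, h⟩
  simp only [Sl, Prod.fst_zero, Prod.snd_zero, Nat.cast_zero, add_zero] at hs ⊢
  omega

/-- A product along the edge only sees the parities of the counts. -/
theorem prod_eq_of_sameCount {α : Type} [Finite α] {f : X → α} {x y : X}
    (h : SameCount T m f x y) (ax : Bool) (g : α → ℤˣ) :
    ∏ j : Fin (T.W m), g (f (S.sh (axisVec ax (j : ℤ) 0) x)) =
      ∏ j : Fin (T.W m), g (f (S.sh (axisVec ax (j : ℤ) 0) y)) := by
  classical
  have := Fintype.ofFinite α
  have e : ∀ z : X, ∏ j : Fin (T.W m), g (f (S.sh (axisVec ax (j : ℤ) 0) z)) =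
      ∏ a : α, g a ^ (Nat.card {j : Fin (T.W m) // f (S.sh (axisVec ax (j : ℤ) 0) z) = a}) := by
    intro z
    rw [← Finset.prod_fiberwise Finset.univ (fun j : Fin (T.W m) =>
      f (S.sh (axisVec ax (j : ℤ) 0) z))]
    refine Finset.prod_congr rfl fun a _ => ?_
    rw [Finset.prod_congr rfl (fun j hj => congrArg g (Finset.mem_filter.1 hj).2),
      Finset.prod_const, Nat.card_eq_fintype_card, Fintype.card_subtype]
  rw [e x, e y]
  refine Finset.prod_congr rfl fun a _ => ?_
  rw [Int.units_pow_eq_pow_mod_two (g a)]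
  conv_rhs => rw [Int.units_pow_eq_pow_mod_two (g a)]
  have := (ZMod.natCast_eq_natCast_iff' _ _ 2).1 (h ax a)
  rw [this]

/-- Equal cell permutations give equal cell permutations in a shifted box. -/
theorem cp_shift_congr {L' L1 L2 : Finset Lat} (h1 : InjMod T m L1) (h2 : InjMod T m L2)
    (hL1 : L' ⊆ L1) (k : Lat) (hL2 : ∀ v ∈ L', v - gvec T m k ∈ L2) {u : UGroup S n}
    (hu : u ∈ Fr T m L') {x y : X} (hx : x ∈ base T m) (hy : y ∈ base T m)
    (he : cp T m L1 u (S.sh (-gvec T m k) x) = cp T m L1 u (S.sh (-gvec T m k) y)) :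
    cp T m L2 u x = cp T m L2 u y := by
  have hL2' : L'.image (fun v => v - gvec T m k) ⊆ L2 := by
    intro v hv
    obtain ⟨w, hw, rfl⟩ := Finset.mem_image.1 hv
    exact hL2 w hw
  have hu2 : u ∈ Fr T m L2 := Fr_mono hL2' (by rw [Fr_shift]; exact hu)
  have hu1 : u ∈ Fr T m L1 := Fr_mono hL1 hu
  refine Equiv.ext fun a => ?_
  by_cases ha : ∃ c ∈ L', res T m c = res T m (a.1 : Lat)
  · obtain ⟨c, hc, hca⟩ := ha
    have e : (a.1 : Lat) = c - gvec T m k := by
      refine h2 a.1.2 (hL2 c hc) ?_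
      rw [sub_eq_add_neg, res_add, show res T m (-gvec T m k) = 0 by simp [res, gvec], add_zero,
        hca]
    have hneg : -gvec T m k = gvec T m (-k) := by simp [gvec]
    have key : ∀ z ∈ base T m, pt S z (lat (cp T m L2 u z a)) =
        pt S z (((cp T m L1 u (S.sh (-gvec T m k) z) (⟨c, hL1 hc⟩, a.2)).1 : Lat) - gvec T m k,
          (cp T m L1 u (S.sh (-gvec T m k) z) (⟨c, hL1 hc⟩, a.2)).2) := by
      intro z hz
      have hz' : S.sh (-gvec T m k) z ∈ base T m := by rw [hneg]; exact sh_gvec_mem _ hz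
      rw [← reads_cp h2 hu2 hz a]
      have e1 : pt S z (lat a) =
          pt S (S.sh (-gvec T m k) z) (lat ((⟨c, hL1 hc⟩, a.2) : ↥L1 × Fin n)) := by
        rw [pt_sh]
        simp only [lat, e, sub_eq_add_neg]
      rw [e1, reads_cp h1 hu1 hz', pt_sh]
      simp only [lat, sub_eq_add_neg]
    have h3 := key y hy
    rw [← he] at h3
    have h4 := key x hx
    have r1 := congrArg (fun p : Pt X n => T.phase m p.1) h4
    have r2 := congrArg (fun p : Pt X n => T.phase m p.1) h3
    simp only [phase_pt hx] at r1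
    simp only [phase_pt hy] at r2
    have c1 := congrArg (fun p : Pt X n => p.2) h4
    have c2 := congrArg (fun p : Pt X n => p.2) h3
    simp only [pt_snd] at c1 c2
    exact Prod.ext (Subtype.ext (h2 (cp T m L2 u x a).1.2 (cp T m L2 u y a).1.2
      (r1.trans r2.symm))) (c1.trans c2.symm)
  · have fix : ∀ z ∈ base T m, cp T m L2 u z a = a := by
      intro z hz
      refine cp_fix h2 hu2 (P := fun c _ => ∃ v ∈ L', res T m v = c) ?_ hz ?_
      · intro w hw
        refine ueval_frameSubLe_fix hu fun hr => hw ?_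
        obtain ⟨p, hp, q, rfl⟩ := exists_pt hr
        exact ⟨q.1, q.1.2, (phase_pt hp (lat q)).symm⟩
      · exact ha
    rw [fix x hx, fix y hy]

end Vale.Agent.P196.Full.Kernel
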