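import Vale.Agent.P196.Full.Universal.Kernel.Base

/-!
# P196: coordinates around the corners of a grid

`hd` is the distance from the grid lines (symmetrical: cells `0` and `-1` have distance `0`), `clip`
is the signed position near a grid line.
-/

namespace Vale.Agent.P196.Full.Kernel

variable {X : Type} [TopologicalSpace X] {n : ℕ} {S : Sys X}

section cyclic

variable {N : ℕ}

/-- The distance from the grid line. -/
def hd (a : ZMod N) : ℕ := min a.val (N - 1 - a.val)

/-- The signed position, when near the grid line. -/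
def clip (K : ℕ) (a : ZMod N) : Option ℤ :=
  if a.val < K then some (a.val : ℤ) else if N ≤ a.val + K then some ((a.val : ℤ) - N) else none

/-- The signed position after a move. -/
def shiftClip (K : ℕ) (o : Option ℤ) (d : ℤ) : Option ℤ :=
  o.bind fun i => if -(K : ℤ) ≤ i + d ∧ i + d < K then some (i + d) else none

/-- The distance of a signed position from the grid line. -/
def hdi (i : ℤ) : ℕ := if 0 ≤ i then i.toNat else (-1 - i).toNat

theorem hdi_lt {i : ℤ} {K : ℕ} : hdi i < K ↔ -(K : ℤ) ≤ i ∧ i < K := by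
  unfold hdi; split <;> omega

theorem hdi_add_le (i d : ℤ) : hdi (i + d) ≤ hdi i + d.natAbs := by
  unfold hdi; split <;> split <;> omega

variable [NeZero N]

theorem val_cast_cases (i : ℤ) :
    ((i : ZMod N).val : ℤ) = i % (N : ℤ) := ZMod.val_intCast i

theorem hd_cast_le (i : ℤ) : hd (i : ZMod N) ≤ hdi i := by
  have h1 := val_cast_cases (N := N) i
  have hN : (0 : ℤ) < N := by exact_mod_cast Nat.pos_of_ne_zero (NeZero.ne N)
  have h2 := Int.mul_ediv_add_emod i (N : ℤ)
  have h3 := Int.emod_nonneg i hN.ne'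
  have h4 := Int.emod_lt_of_pos i hN
  unfold hd hdi
  split
  · have : i % (N : ℤ) ≤ i := by
      have : 0 ≤ (N : ℤ) * (i / N) := mul_nonneg hN.le (Int.ediv_nonneg (by assumption) hN.le)
      omega
    omega
  · have : (N : ℤ) * (i / N) ≤ (N : ℤ) * (-1) :=
      mul_le_mul_of_nonneg_left (by
        have := Int.ediv_neg_of_neg_of_pos (a := i) (by omega) hN
        omega) hN.le
    omega

theorem exists_cast_hdi (a : ZMod N) : ∃ i : ℤ, a = (i : ZMod N) ∧ hdi i = hd a := by
  have ha := ZMod.val_lt a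
  by_cases h : a.val ≤ N - 1 - a.val
  · refine ⟨a.val, by simp, ?_⟩
    unfold hd hdi; split <;> omega
  · refine ⟨(a.val : ℤ) - N, by simp, ?_⟩
    unfold hd hdi; split <;> omega

theorem hd_add_le (a : ZMod N) (d : ℤ) : hd (a + (d : ZMod N)) ≤ hd a + d.natAbs := by
  obtain ⟨i, rfl, hi⟩ := exists_cast_hdi a
  rw [← hi, ← Int.cast_add]
  exact (hd_cast_le _).trans (hdi_add_le i d)

theorem hd_le_add (a : ZMod N) (d : ℤ) : hd a ≤ hd (a + (d : ZMod N)) + d.natAbs := by
  have := hd_add_le (a + (d : ZMod N)) (-d)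
  rwa [Int.cast_neg, add_neg_cancel_right, Int.natAbs_neg] at this

omit [NeZero N] in
theorem cast_eq_cast {i j : ℤ} {K : ℕ} (hK : K ≤ N) (h : (i - j).natAbs < K)
    (e : (i : ZMod N) = j) : i = j := by
  rw [ZMod.intCast_eq_intCast_iff_dvd_sub] at e
  have := Int.eq_zero_of_abs_lt_dvd e (by rw [Int.abs_eq_natAbs]; omega)
  omega

theorem clip_spec {K : ℕ} {a : ZMod N} {i : ℤ} (h : clip K a = some i) :
    a = (i : ZMod N) ∧ -(K : ℤ) ≤ i ∧ i < K := by
  have ha := ZMod.val_lt a
  unfold clip at h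
  split at h
  · cases h; exact ⟨by simp, by omega, by omega⟩
  · split at h
    · cases h; exact ⟨by simp, by omega, by omega⟩
    · cases h

theorem clip_eq_none_iff {K : ℕ} {a : ZMod N} : clip K a = none ↔ K ≤ hd a := by
  have ha := ZMod.val_lt a
  unfold clip hd
  split
  · exact iff_of_false (by simp) (by omega)
  · split
    · exact iff_of_false (by simp) (by omega)
    · exact iff_of_true rfl (by omega)

theorem clip_cast {K : ℕ} (hK : 2 * K ≤ N) {i : ℤ} (h1 : -(K : ℤ) ≤ i) (h2 : i < K) :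
    clip K (i : ZMod N) = some i := by
  match hc : clip K (i : ZMod N) with
  | none =>
    have h0 := (clip_eq_none_iff.1 hc).trans (hd_cast_le i)
    have := hdi_lt.2 ⟨h1, h2⟩
    omega
  | some j =>
    obtain ⟨e, hj1, hj2⟩ := clip_spec hc
    rw [cast_eq_cast hK (by omega) e]

theorem hd_eq_of_clip {K : ℕ} (hK : 2 * K ≤ N) {a : ZMod N} {i : ℤ} (h : clip K a = some i) :
    hd a = hdi i := by
  have ha := ZMod.val_lt a
  unfold clip at h
  unfold hd hdi
  split at h
  · cases h; split <;> omega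
  · split at h
    · cases h; split <;> omega
    · cases h

theorem clip_add {K K' : ℕ} (hN : 2 * K' ≤ N) (a : ZMod N) (d : ℤ) (h : K + d.natAbs ≤ K') :
    clip K (a + (d : ZMod N)) = shiftClip K (clip K' a) d := by
  match hc : clip K' a with
  | some i =>
    obtain ⟨rfl, h1, h2⟩ := clip_spec hc
    simp only [shiftClip, Option.bind_some]
    rw [← Int.cast_add]
    split
    · exact clip_cast (by omega) (by omega) (by omega)
    · match hj : clip K (((i + d : ℤ)) : ZMod N) with
      | none => rfl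
      | some j =>
        obtain ⟨e, hj1, hj2⟩ := clip_spec hj
        have := cast_eq_cast hN (by omega) e
        omega
  | none =>
    simp only [shiftClip, Option.bind_none]
    refine clip_eq_none_iff.2 ?_
    have h1 := clip_eq_none_iff.1 hc
    have h2 := hd_le_add a d
    omega

theorem hd_cast_of_lt {K : ℕ} (hK : 2 * K ≤ N) {i : ℤ} (h1 : -(K : ℤ) ≤ i) (h2 : i < K) :
    hd (i : ZMod N) = hdi i :=
  hd_eq_of_clip hK (clip_cast hK h1 h2)

end cyclic

variable (T : Tower S) (m : ℕ)

/-- The phase along an axis. -/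
def alg (ax : Bool) (c : Ph T m) : ZMod (T.W m) := if ax then c.2 else c.1

/-- The phase across an axis. -/
def crs (ax : Bool) (c : Ph T m) : ZMod (T.W m) := if ax then c.1 else c.2

/-- The neighbourhood of the corners. -/
def InBall (r : ℕ) (c : Ph T m) : Prop := hd c.1 < r ∧ hd c.2 < r

/-- The arm along an axis: close to its grid line, away from the crossing line. -/
def InArm (ax : Bool) (s : ℕ) (c : Ph T m) : Prop := hd (crs T m ax c) < s ∧ s ≤ hd (alg T m ax c)

/-- The strip of half width `B` along an axis. -/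
noncomputable def strip (ax : Bool) (B : ℕ) : Finset Lat :=
  (Finset.Ico (0 : ℤ) (T.W m) ×ˢ Finset.Ico (-(B : ℤ)) B).image fun v => axisVec ax v.1 v.2

/-- The box of half width `B` around the corner. -/
noncomputable def ball (B : ℕ) : Finset Lat := Finset.Ico (-(B : ℤ)) B ×ˢ Finset.Ico (-(B : ℤ)) B

variable {T m}

theorem axisVec_inj {ax : Bool} {a b a' b' : ℤ} (e : axisVec ax a b = axisVec ax a' b') :
    a = a' ∧ b = b' := by
  cases ax <;> simp_all [axisVec]

theorem alg_axisVec (ax : Bool) (a b : ℤ) :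
    alg T m ax (res T m (axisVec ax a b)) = (a : ZMod (T.W m)) := by
  cases ax <;> rfl

theorem crs_axisVec (ax : Bool) (a b : ℤ) :
    crs T m ax (res T m (axisVec ax a b)) = (b : ZMod (T.W m)) := by
  cases ax <;> rfl

theorem mem_strip {ax : Bool} {B : ℕ} {a b : ℤ} :
    axisVec ax a b ∈ strip T m ax B ↔ (0 ≤ a ∧ a < T.W m) ∧ -(B : ℤ) ≤ b ∧ b < B := by
  refine ⟨fun h => ?_, fun h => Finset.mem_image.2
    ⟨(a, b), Finset.mem_product.2 ⟨Finset.mem_Ico.2 h.1, Finset.mem_Ico.2 h.2⟩, rfl⟩⟩
  obtain ⟨v, hv, e⟩ := Finset.mem_image.1 h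
  obtain ⟨rfl, rfl⟩ := axisVec_inj e
  simpa only [Finset.mem_product, Finset.mem_Ico] using hv

theorem exists_axisVec {ax : Bool} {B : ℕ} {v : Lat} (h : v ∈ strip T m ax B) :
    ∃ a b : ℤ, v = axisVec ax a b ∧ (0 ≤ a ∧ a < T.W m) ∧ -(B : ℤ) ≤ b ∧ b < B := by
  obtain ⟨w, hw, rfl⟩ := Finset.mem_image.1 h
  simp only [Finset.mem_product, Finset.mem_Ico] at hw
  exact ⟨_, _, rfl, hw⟩

theorem strip_mono {ax : Bool} {B B' : ℕ} (h : B ≤ B') : strip T m ax B ⊆ strip T m ax B' := by
  intro v hv
  obtain ⟨a, b, rfl, h1, h2⟩ := exists_axisVec hv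
  exact mem_strip.2 ⟨h1, by omega⟩

theorem ball_mono {B B' : ℕ} (h : B ≤ B') : ball B ⊆ ball B' := by
  intro v hv
  simp only [ball, Finset.mem_product, Finset.mem_Ico] at hv ⊢
  omega

theorem injMod_strip {ax : Bool} {B : ℕ} (h : 2 * B ≤ T.W m) : InjMod T m (strip T m ax B) := by
  have : NeZero (T.W m) := ⟨(T.W_pos m).ne'⟩
  intro u hu v hv e
  obtain ⟨a, b, rfl, h1, h2⟩ := exists_axisVec hu
  obtain ⟨a', b', rfl, h1', h2'⟩ := exists_axisVec hv
  have ea := congrArg (alg T m ax) e
  have eb := congrArg (crs T m ax) e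
  rw [alg_axisVec, alg_axisVec] at ea
  rw [crs_axisVec, crs_axisVec] at eb
  rw [cast_eq_cast le_rfl (by omega) ea, cast_eq_cast h (by omega) eb]

theorem injMod_ball {B : ℕ} (h : 2 * B ≤ T.W m) : InjMod T m (ball B) := by
  have : NeZero (T.W m) := ⟨(T.W_pos m).ne'⟩
  intro u hu v hv e
  simp only [ball, Finset.mem_coe, Finset.mem_product, Finset.mem_Ico] at hu hv
  simp only [res, Prod.mk.injEq] at e
  exact Prod.ext (cast_eq_cast h (by omega) e.1) (cast_eq_cast h (by omega) e.2)

/-- A rule of motion near the corners: a lattice vector and a colour from the point and its signed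
position. -/
structure Rule (S : Sys X) (n : ℕ) where
  /-- The radius up to which the position is seen. -/
  K : ℕ
  /-- The bound on the moves. -/
  D : ℕ
  /-- The move. -/
  Φ : Option ℤ → Option ℤ → Fin n → X → Off n
  isLocallyConstant_Φ : ∀ i j c, IsLocallyConstant (Φ i j c)
  le_D : ∀ i j c x, (Φ i j c x).1.1.natAbs ≤ D ∧ (Φ i j c x).1.2.natAbs ≤ D

variable (T m) in
/-- The element moves every point by the rule. -/
def Follows (u : UGroup S n) (r : Rule S n) : Prop :=
  ∀ z : Pt X n,
    ueval S u z =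
      (S.sh (r.Φ (clip r.K (T.phase m z.1).1) (clip r.K (T.phase m z.1).2) z.2 z.1).1 z.1,
        (r.Φ (clip r.K (T.phase m z.1).1) (clip r.K (T.phase m z.1).2) z.2 z.1).2)

end Vale.Agent.P196.Full.Kernel
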