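import Vale.Agent.P196.Full.Universal.Kernel.Merge
import Vale.Agent.P196.Full.Universal.Kernel.Decomp
import Vale.Agent.P196.Full.Universal.Kernel.Count
import Vale.Agent.P196.Full.Universal.Parity
import Vale.Agent.P196.Full.Assemble

/-!
# P196: the kernel of the universal group is finitely generated
-/

namespace Vale.Agent.P196.Full.Kernel

variable {X : Type} [TopologicalSpace X] {n : ℕ} {S : Sys X}

/-- A flipped generator is the inverse. -/
theorem ugen_flip (g : Gen X n) : ugen S g.flip = (ugen S g)⁻¹ := by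
  classical
  have hF : S.Separated (g.U : Set X) ({g.p, g.q, g.r} : Finset (Off n)) := by
    intro p hp q hq hpq hc
    simp only [Finset.mem_insert, Finset.mem_singleton] at hp hq
    obtain ⟨t1, t2, t3⟩ := g.tri
    rcases hp with rfl | rfl | rfl <;> rcases hq with rfl | rfl | rfl <;>
      first
      | exact absurd rfl hpq
      | exact absurd hc t1
      | exact absurd hc.symm t1
      | exact absurd hc t2
      | exact absurd hc.symm t2
      | exact absurd hc t3
      | exact absurd hc.symm t3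
  have h1 : evalWord S (FreeGroup.of g * FreeGroup.of g.flip) = 1 := by
    simp only [map_mul, evalWord, FreeGroup.lift_apply_of]
    refine Equiv.ext fun z => ?_
    exact S.cycFun_cancel g.U g.flip.tri z
  have h := mk_eq_one_of_urel (URel.frame g.U _ hF (FreeGroup.of g * FreeGroup.of g.flip)
    (mul_mem (Subgroup.subset_closure ⟨g, ⟨rfl, by simp, by simp, by simp⟩, rfl⟩)
      (Subgroup.subset_closure ⟨g.flip, ⟨rfl, by simp [Gen.flip], by simp [Gen.flip],
        by simp [Gen.flip]⟩, rfl⟩)) h1)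
  rw [map_mul] at h
  exact eq_inv_of_mul_eq_one_right h

/-- Every element is a positive word. -/
theorem exists_word (u : UGroup S n) : ∃ ws : List (Gen X n), (ws.map (ugen S)).prod = u := by
  have hu : u ∈ Subgroup.closure (Set.range (ugen S (n := n))) := by rw [closure_range_ugen]; trivial
  induction hu using Subgroup.closure_induction with
  | mem x hx => obtain ⟨g, rfl⟩ := hx; exact ⟨[g], by simp⟩
  | one => exact ⟨[], by simp⟩
  | mul x y _ _ hx hy =>
    obtain ⟨a, rfl⟩ := hx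
    obtain ⟨b, rfl⟩ := hy
    exact ⟨a ++ b, by simp⟩
  | inv x hx' hx =>
    obtain ⟨a, rfl⟩ := hx
    refine ⟨(a.map Gen.flip).reverse, ?_⟩
    clear hx'
    induction a with
    | nil => simp
    | cons g a ih => simp [ugen_flip] at ih ⊢; simp [ih]

variable (T : Tower S)

/-- The levels good for an observable. -/
def Good (Q : ℕ) {α : Type} (f : X → α) (C : ℕ) : Set ℕ :=
  {m | C ≤ T.W m ∧ ∃ τ : X → Fin Q, ∀ x ∈ base T m, ∀ y ∈ base T m,
    τ x = τ y → f x = f y ∧ SameCount T m f x y}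

theorem good_nonempty {Q : ℕ} (hQ : ∀ (α : Type) (f : X → α), Finite α → IsLocallyConstant f →
    ∀ C : ℕ, ∃ m, C ≤ T.W m ∧ ∃ τ : X → Fin Q, ∀ x x', T.phase m x = 0 → T.phase m x' = 0 →
      τ x = τ x' → f x = f x' ∧ ∀ (ax : Bool) (a : α),
        (Nat.card {j : Fin (T.W m) // f (S.sh (axisVec ax (j : ℤ) 0) x) = a} : ZMod 2) =
          Nat.card {j : Fin (T.W m) // f (S.sh (axisVec ax (j : ℤ) 0) x') = a})
    {α : Type} [Finite α] {f : X → α} (hf : IsLocallyConstant f) (C : ℕ) :
    (Good T Q f C).Nonempty := by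
  obtain ⟨m, hm, τ, hτ⟩ := hQ α f inferInstance hf C
  exact ⟨m, hm, τ, fun x hx y hy e =>
    hτ x y ((mem_base T m).1 hx) ((mem_base T m).1 hy) e⟩

theorem Good.comp {Q : ℕ} {α β : Type} [Finite α] {f : X → α} (g : α → β) {C C' : ℕ} (h : C' ≤ C) :
    Good T Q f C ⊆ Good T Q (g ∘ f) C' := by
  rintro m ⟨hm, τ, hτ⟩
  exact ⟨h.trans hm, τ, fun x hx y hy e =>
    ⟨congrArg g (hτ x hx y hy e).1, (hτ x hx y hy e).2.comp g⟩⟩

variable [CompactSpace X]

/-- The filter of good levels. -/
def goodFilter (Q : ℕ) : Filter ℕ where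
  sets := {s | ∃ (α : Type) (_ : Finite α) (f : X → α) (C : ℕ),
    IsLocallyConstant f ∧ Good T Q f C ⊆ s}
  univ_sets := ⟨Unit, inferInstance, fun _ => (), 0, IsLocallyConstant.const _, Set.subset_univ _⟩
  sets_of_superset := fun ⟨α, h, f, C, hf, hs⟩ hst => ⟨α, h, f, C, hf, hs.trans hst⟩
  inter_sets := by
    rintro s t ⟨α, _, f, C, hf, hs⟩ ⟨β, _, g, D, hg, ht⟩
    refine ⟨α × β, inferInstance, fun x => (f x, g x), max C D, hf.prodMk hg,
      Set.subset_inter ?_ ?_⟩
    · exact (Good.comp T (f := fun x => (f x, g x)) Prod.fst (le_max_left C D)).trans hs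
    · exact (Good.comp T (f := fun x => (f x, g x)) Prod.snd (le_max_right C D)).trans ht

variable (U : Ultrafilter ℕ)

/-- The element has the label at most levels, for every placement of the slots. -/
def HasLabel (hn : 8 ≤ n) (u : UGroup S n) (κ : ℕ × ℕ) : Prop :=
  ueval S u = 1 ∧ ∃ b0, ∀ b, b0 ≤ b → ∀ o : ℕ × ℕ, ∃ (α : Type) (_ : Finite α) (f : X → α),
    IsLocallyConstant f ∧ ∀ᶠ m in (U : Filter ℕ), Form T m hn b o κ (SameKey T m f) u

variable {T} {U} {Q : ℕ} (hU : (U : Filter ℕ) ≤ goodFilter T Q)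
include hU

theorem eventually_good {α : Type} [Finite α] {f : X → α} (hf : IsLocallyConstant f) (C : ℕ) :
    ∀ᶠ m in (U : Filter ℕ), m ∈ Good T Q f C :=
  hU ⟨α, inferInstance, f, C, hf, le_rfl⟩

theorem eventually_large (C : ℕ) : ∀ᶠ m in (U : Filter ℕ), C ≤ T.W m :=
  (eventually_good hU (f := fun _ : X => ()) (IsLocallyConstant.const _) C).mono fun _ h => h.1

theorem HasLabel.mul {hn : 8 ≤ n} {u v : UGroup S n} {κ κ' : ℕ × ℕ}
    (hu : HasLabel T U hn u κ) (hv : HasLabel T U hn v κ') :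
    HasLabel T U hn (u * v) (κ + κ') := by
  obtain ⟨eu, b0, hu⟩ := hu
  obtain ⟨ev, b1, hv⟩ := hv
  refine ⟨by rw [map_mul, eu, ev, one_mul], max (max b0 b1) 1, fun b hb o => ?_⟩
  obtain ⟨α, _, f, hf, hfu⟩ := hu b (by omega) o
  obtain ⟨β, _, g, hg, hgv⟩ := hv b (by omega) (o + κ)
  refine ⟨α × β, inferInstance, fun x => (f x, g x), hf.prodMk hg, ?_⟩
  filter_upwards [hfu, hgv, eventually_large hU (4 * (roomRad b (o + (κ + κ')) + 1))]
    with m h1 h2 h3
  exact (h1.mono fun x _ y _ h => SameKey.comp (f := fun x => (f x, g x)) Prod.fst h).mul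
    (h2.mono fun x _ y _ h => SameKey.comp (f := fun x => (f x, g x)) Prod.snd h) (by omega) h3
    (ker_central T ev)

theorem HasLabel.card_le {hn : 8 ≤ n} {κ : ℕ × ℕ} (t : Finset (UGroup S n))
    (ht : ∀ u ∈ t, HasLabel T U hn u κ) :
    t.card ≤ Fintype.card (Fin Q × Fin Q × Fin Q → Bool × Bool → ℤˣ) := by
  classical
  choose! he b0 hb using ht
  set b := t.sup b0
  have hb' : ∀ u : ↥t, ∃ (α : Type) (_ : Finite α) (f : X → α), IsLocallyConstant f ∧
      ∀ᶠ m in (U : Filter ℕ), Form T m hn b 0 κ (SameKey T m f) (u : UGroup S n) :=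
    fun u => hb u u.2 b (Finset.le_sup u.2) 0
  choose α hα f hf hev using hb'
  let F : X → ∀ u : ↥t, α u := fun x u => f u x
  have hF : IsLocallyConstant F := by
    refine (IsLocallyConstant.iff_eventually_eq _).2 fun x => ?_
    filter_upwards [Filter.eventually_all.2
      fun u => (IsLocallyConstant.iff_eventually_eq _).1 (hf u) x] with y hy
    exact funext hy
  have hall : ∀ᶠ m in (U : Filter ℕ), ∀ u : ↥t, Form T m hn b 0 κ (SameKey T m F) (u : UGroup S n) := by
    refine Filter.eventually_all.2 fun u => (hev u).mono fun m h => h.mono fun x _ y _ hxy => ?_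
    exact SameKey.comp (f := F) (fun p => p u) hxy
  obtain ⟨m, hm, ⟨hW, τ, hτ⟩⟩ :=
    (hall.and (eventually_good hU hF (4 * (roomRad b ((0 : ℕ × ℕ) + κ) + 1)))).exists
  exact card_le_of_forms τ hτ hW t he fun u hu => hm ⟨u, hu⟩

theorem exists_label (hn : 8 ≤ n) (hmin : S.IsMinimal) {u : UGroup S n} (hu : ueval S u = 1) :
    ∃ κ, HasLabel T U hn u κ := by
  classical
  obtain ⟨ws, rfl⟩ := exists_word u
  obtain ⟨s, ρ, C, rγ, rδ, hs0, hsρ, hdec⟩ := exists_decomp T ws
  set D := (rδ false).D + (rδ true).D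
  set N := 2 * ((ρ + D) * (2 * s) * n)
  set P : ℕ → ℤ → Prop := fun m d => ∃ (a γ : UGroup S n) (δ : Bool → UGroup S n),
    (ws.map (ugen S)).prod = a * δ false * δ true * γ ∧ Split T m a γ δ s ρ D ∧
    Follows T m γ rγ ∧ (∀ ax, Follows T m (δ ax) (rδ ax)) ∧
    ∀ x ∈ base T m, flow T m false (ρ + D) s (δ false) x = d ∧
      flow T m true (ρ + D) s (δ true) x = -d
  have hP : ∀ᶠ m in (U : Filter ℕ), ∃ d ∈ Finset.Icc (-(N : ℤ)) N, P m d := by
    filter_upwards [eventually_large hU C, eventually_large hU (4 * (ρ + D + 1))] with m h1 h2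
    obtain ⟨a, γ, δ, e, ha, hγ, hγm, hγf, hδ⟩ := hdec m h1
    have hsplit : Split T m a γ δ s ρ D :=
      { hW := h2, hs := hsρ, ha := ha, hγ := hγ, hγm := hγm
        hδ := fun ax => (hδ ax).1
        hδm := fun ax => (hδ ax).2.1
        hδD := fun ax => (hδ ax).2.2.short.mono (by cases ax <;> omega)
        heval := by rw [← e]; exact hu }
    obtain ⟨d, hd, hflow⟩ := hsplit.flow_const hmin
    exact ⟨d, Finset.mem_Icc.2 (by omega), a, γ, δ, e, hsplit, hγf, fun ax => (hδ ax).2.2, hflow⟩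
  obtain ⟨d, hd⟩ : ∃ d, ∀ᶠ m in (U : Filter ℕ), P m d := by
    revert hP
    generalize Finset.Icc (-(N : ℤ)) N = I
    induction I using Finset.induction_on with
    | empty =>
      intro h
      obtain ⟨m, hm⟩ := h.exists
      simp at hm
    | @insert d I _ ih =>
      intro h
      have h' : ∀ᶠ m in (U : Filter ℕ), P m d ∨ ∃ e ∈ I, P m e := h.mono fun m hm => by
        obtain ⟨e, he, hPe⟩ := hm
        rcases Finset.mem_insert.1 he with rfl | he
        exacts [Or.inl hPe, Or.inr ⟨e, he, hPe⟩]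
      rcases Ultrafilter.eventually_or.1 h' with h1 | h1
      exacts [⟨d, h1⟩, ih h1]
  refine ⟨((-d).toNat, d.toNat), hu, ρ + D + ((rδ false).K + (rδ true).K) + 2, fun b hb o => ?_⟩
  obtain ⟨α, hα, f, hf, C', hC⟩ := exists_form T hn rγ rδ s ρ b o ((-d).toNat, d.toNat) (by omega)
  refine ⟨α, hα, f, hf, ?_⟩
  filter_upwards [hd, eventually_large hU C'] with m hm hW
  obtain ⟨a, γ, δ, e, hsplit, hγf, hδf, hflow⟩ := hm
  rw [e]
  refine hC m hW a γ δ hsplit hγf hδf fun x hx => ?_
  have h := hflow x hx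
  refine ⟨h.1.trans ?_, h.2.trans ?_⟩ <;> omega

omit hU

end Kernel

open Kernel in
/-- A minimal system with a tower of bounded types has a finitely generated kernel. -/
theorem kernelFinite_of_boundedTypes {X : Type} [TopologicalSpace X] [CompactSpace X]
    {S : Sys X} {n : ℕ} (T : Tower S) (hn : 8 ≤ n) (hmin : S.IsMinimal) (hT : T.BoundedTypes) :
    KernelFinite S n := by
  classical
  obtain ⟨Q, hQ⟩ := hT
  have : (goodFilter T Q).NeBot := by
    refine ⟨fun h => ?_⟩
    obtain ⟨α, _, f, C, hf, hs⟩ := (Filter.empty_mem_iff_bot.2 h : (∅ : Set ℕ) ∈ goodFilter T Q)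
    obtain ⟨m, hm⟩ := good_nonempty T hQ hf C
    exact hs hm
  have hU : (Ultrafilter.of (goodFilter T Q) : Filter ℕ) ≤ goodFilter T Q := Ultrafilter.of_le _
  obtain ⟨Z, hZfin, hZK, hKZ⟩ := exists_finite_gens (ueval S (n := n)).ker
    (fun u hu => ker_central T (MonoidHom.mem_ker.1 hu))
    (HasLabel T (Ultrafilter.of (goodFilter T Q)) hn) (fun u κ h => MonoidHom.mem_ker.2 h.1)
    (fun u hu => exists_label hU hn hmin (MonoidHom.mem_ker.1 hu))
    (fun u v κ κ' h h' => h.mul hU h') _ (fun κ t ht => HasLabel.card_le hU t ht)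
  choose pre hpre using
    PresentedGroup.mk_surjective {w : FreeGroup (Gen X n) | URel S w}
  refine ⟨pre '' Z, hZfin.image pre, ?_, fun w hw => ?_⟩
  · rintro _ ⟨z, hz, rfl⟩
    rw [← ueval_mk, hpre]
    exact MonoidHom.mem_ker.1 (hZK hz)
  have hmem : PresentedGroup.mk {w : FreeGroup (Gen X n) | URel S w} w ∈
      (Subgroup.closure (pre '' Z)).map (PresentedGroup.mk {w : FreeGroup (Gen X n) | URel S w}) := by
    rw [MonoidHom.map_closure, Set.image_image]
    simp only [hpre, Set.image_id']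
    exact hKZ (MonoidHom.mem_ker.2 ((ueval_mk w).trans hw))
  obtain ⟨w', hw', e⟩ := hmem
  have h1 : w' ∈ Subgroup.normalClosure ({w | URel S w} ∪ pre '' Z) :=
    (Subgroup.closure_le _).2
      (Set.subset_union_right.trans Subgroup.subset_normalClosure) hw'
  have h2 : w'⁻¹ * w ∈ Subgroup.normalClosure ({w : FreeGroup (Gen X n) | URel S w}) :=
    (QuotientGroup.eq (s := Subgroup.normalClosure {w : FreeGroup (Gen X n) | URel S w})).1 e
  have := mul_mem h1 (Subgroup.normalClosure_mono (Set.subset_union_left (t := pre '' Z)) h2)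
  rwa [mul_inv_cancel_left] at this

/-- The kernel goal of the assembly. -/
theorem universalGoal : UniversalGoal := fun _ _ _ _ _ _ _ T _ hn hmin hT =>
  kernelFinite_of_boundedTypes T hn hmin (T.boundedTypes_of_sparse hT)

end Vale.Agent.P196.Full
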