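import Vale.Agent.P196.Full.Universal.Kernel.Normal

/-!
# P196: products of normal forms, and counting them at one level
-/

namespace Vale.Agent.P196.Full.Kernel

variable {X : Type} [TopologicalSpace X] {n : ℕ} {S : Sys X} {T : Tower S} {m : ℕ}

theorem SameCount.comp {α β : Type} [Finite α] {f : X → α} (g : α → β) {x y : X}
    (h : SameCount T m f x y) : SameCount T m (g ∘ f) x y := by
  classical
  have := Fintype.ofFinite α
  intro ax b
  have e : ∀ z : X,
      (Nat.card {j : Fin (T.W m) // (g ∘ f) (S.sh (axisVec ax (j : ℤ) 0) z) = b} : ZMod 2) =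
      ∑ a ∈ (Finset.univ : Finset α).filter (fun a => g a = b),
        (Nat.card {j : Fin (T.W m) // f (S.sh (axisVec ax (j : ℤ) 0) z) = a} : ZMod 2) := by
    intro z
    simp only [Nat.card_eq_fintype_card, Fintype.card_subtype, ← Nat.cast_sum]
    congr 1
    rw [Finset.card_eq_sum_card_fiberwise (f := fun j : Fin (T.W m) => f (S.sh (axisVec ax (j : ℤ) 0) z))
      (t := (Finset.univ : Finset α).filter fun a => g a = b)]
    · refine Finset.sum_congr rfl fun a ha => ?_
      congr 1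
      ext j
      simp only [Finset.mem_filter, Finset.mem_univ, true_and] at ha ⊢
      exact ⟨fun hj => hj.2, fun hj => ⟨by rw [Function.comp_apply, hj]; exact ha, hj⟩⟩
    · intro j hj
      simp only [Finset.coe_filter, Finset.mem_univ, true_and, Set.mem_ofPred_eq] at hj ⊢
      exact hj
  rw [e x, e y]
  exact Finset.sum_congr rfl fun a _ => h ax a

theorem SameKey.comp {α β : Type} [Finite α] {f : X → α} (g : α → β) {x y : X}
    (h : SameKey T m f x y) : SameKey T m (g ∘ f) x y :=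
  ⟨congrArg g h.1, fun ax => congrArg g (h.2.1 ax), h.2.2.comp g⟩

variable {hn : 8 ≤ n} {b : ℕ}

theorem cast_inj_small {i j : ℤ} (e : (i : ZMod (T.W m)) = (j : ZMod (T.W m)))
    (h : (i - j).natAbs < T.W m) : i = j :=
  cast_eq_cast le_rfl h e

/-- Consecutive runs of slots are disjoint as phases. -/
theorem slotPh_disjoint {ax : Bool} {o κ : ℕ × ℕ}
    (hW : 4 * (zone b o κ + 1) ≤ T.W m) {c : Ph T m} {k : Fin n}
    (h : SlotPh T m hn ax b o κ c k) : ¬ SlotPh T m hn ax b 0 o c k := by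
  rintro ⟨i, r, hs, h'⟩
  obtain ⟨i', r', hs', h⟩ := h
  have b1 := sl_bounds hs
  have b2 := sl_bounds hs'
  have r1 : r = b ∨ r = -(b : ℤ) - 1 := by simp only [Sl] at hs; omega
  have r2 : r' = b ∨ r' = -(b : ℤ) - 1 := by simp only [Sl] at hs'; omega
  simp only [zone] at hW
  simp only [Prod.fst_zero, Prod.snd_zero] at b1
  have dis : ¬ (i' = i ∧ r' = r) := by
    rintro ⟨rfl, rfl⟩
    simp only [Sl, Prod.fst_zero, Prod.snd_zero, Nat.cast_zero, add_zero] at hs hs'
    omega
  have same : ∀ i₁ r₁ i₂ r₂ : ℤ, res T m (axisVec ax i₁ r₁) = res T m (axisVec ax i₂ r₂) →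
      (i₁ - i₂).natAbs < T.W m → (r₁ - r₂).natAbs < T.W m → i₁ = i₂ ∧ r₁ = r₂ := by
    intro i₁ r₁ i₂ r₂ e h1 h2
    have ea := congrArg (alg T m ax) e
    have ec := congrArg (crs T m ax) e
    rw [alg_axisVec, alg_axisVec] at ea
    rw [crs_axisVec, crs_axisVec] at ec
    exact ⟨cast_inj_small ea h1, cast_inj_small ec h2⟩
  rcases h with ⟨hc, hk⟩ | ⟨hc, hk⟩ <;> rcases h' with ⟨hc', hk'⟩ | ⟨hc', hk'⟩
  · exact dis (same _ _ _ _ (hc.symm.trans hc') (by omega) (by omega))
  · obtain ⟨e1, e2⟩ := same _ _ _ _ (hc.symm.trans hc') (by omega) (by omega)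
    omega
  · obtain ⟨e1, e2⟩ := same _ _ _ _ (hc.symm.trans hc') (by omega) (by omega)
    omega
  · obtain ⟨e1, e2⟩ := same _ _ _ _ (hc.symm.trans hc') (by omega) (by omega)
    exact dis ⟨by omega, by omega⟩

theorem slot_not_inBall {ax : Bool} {o κ : ℕ × ℕ}
    (hW : 4 * (zone b o κ + 1) ≤ T.W m) {c : Ph T m} {k : Fin n}
    (h : SlotPh T m hn ax b o κ c k) : ¬ InBall T m (2 * b) c := by
  have : NeZero (T.W m) := ⟨(T.W_pos m).ne'⟩
  intro hb'
  have halg : hd (alg T m ax c) < 2 * b := by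
    cases ax
    exacts [hb'.1, hb'.2]
  obtain ⟨i, r, hs, h⟩ := h
  have := sl_bounds hs
  simp only [zone] at hW
  rcases h with ⟨rfl, -⟩ | ⟨rfl, -⟩ <;>
    rw [alg_axisVec, hd_cast_of_lt (K := i.toNat + 1) (by omega) (by omega) (by omega), hdi] at halg <;>
    split at halg <;> omega

theorem slots_movesIn {o κ : ℕ × ℕ} {ax : Bool} {u : UGroup S n}
    (hW : 4 * b ≤ T.W m) (h : IsSlots T m hn b o κ ax u) :
    MovesIn T m u (SlotPh T m hn ax b (kax ax o) (kax ax κ)) := by
  refine movesIn_of_cp (injMod_strip (by omega)) h.1 fun x hx a ha => ?_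
  rw [h.2 x hx, flipPerm_apply]
  by_contra hc
  exact ha (slotPh_of_flip hc)

theorem slots_other {o κ o' κ' : ℕ × ℕ} {ax : Bool} (hb : 1 ≤ b)
    (hW : 4 * (roomRad b (o + κ) + 1) ≤ T.W m) (hW' : 4 * (roomRad b (o' + κ') + 1) ≤ T.W m)
    {c : Ph T m} {k : Fin n} (h : SlotPh T m hn ax b (kax ax o) (kax ax κ) c k) :
    ¬ SlotPh T m hn (!ax) b (kax (!ax) o') (kax (!ax) κ') c k := fun h' =>
  coneP_disjoint
    (slotPh_coneP (B := 2 * b) (by have : 2 * b ≤ roomRad b (o + κ) := Nat.le_add_right _ _; omega)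
      hb (by omega) (by rw [zone_kax]; exact hW) h).1
    (slotPh_coneP (B := 2 * b) (by have : 2 * b ≤ roomRad b (o + κ) := Nat.le_add_right _ _; omega)
      hb (by omega) (by rw [zone_kax]; exact hW') h').1

theorem sum_split (b : ℕ) (o κ : ℕ × ℕ) : roomRad b (o + κ) = 2 * b + (o.1 + o.2 + κ.1 + κ.2) := by
  simp only [roomRad, Prod.fst_add, Prod.snd_add]; omega

/-- Normal forms with consecutive slots multiply. -/
theorem Form.mul {o κ κ' : ℕ × ℕ} {same : X → X → Prop} {u u' : UGroup S n}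
    (h : Form T m hn b o κ same u) (h' : Form T m hn b (o + κ) κ' same u') (hb : 1 ≤ b)
    (hW : 4 * (roomRad b (o + (κ + κ')) + 1) ≤ T.W m)
    (hc : u' ∈ Subgroup.center (UGroup S n)) :
    Form T m hn b o (κ + κ') same (u * u') := by
  obtain ⟨a, γ, x0, x1, e, ha, hγ, hγm, hx0, hx1, hd1⟩ := h
  obtain ⟨a', γ', y0, y1, e', ha', hγ', hγm', hy0, hy1, hd2⟩ := h'
  rw [add_assoc] at hγ' hγm' hd2
  have r1 := sum_split b o κ
  have r2 := sum_split b (o + κ) κ'
  have r3 := sum_split b o (κ + κ')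
  simp only [Prod.fst_add, Prod.snd_add] at r2 r3
  have hW1 : 4 * (roomRad b (o + κ) + 1) ≤ T.W m := by omega
  have hW2 : 4 * (roomRad b (o + κ + κ') + 1) ≤ T.W m := by omega
  have hWb : 4 * b ≤ T.W m := by omega
  have hle : roomRad b (o + κ) ≤ roomRad b (o + (κ + κ')) := by omega
  have hi : InjMod T m (ball (roomRad b (o + κ))) := injMod_ball (by omega)
  have hI : InjMod T m (ball (roomRad b (o + (κ + κ')))) := injMod_ball (by omega)
  have hiS : ∀ ax, InjMod T m (strip T m ax (2 * b)) := fun ax => injMod_strip (by omega)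
  have my0 := slots_movesIn hWb hy0
  have my1 := slots_movesIn hWb hy1
  have mx0 := slots_movesIn hWb hx0
  have dγ : ∀ ax c k, SlotPh T m hn ax b (kax ax (o + κ)) (kax ax κ') c k →
      ¬ Room T m hn b (o + κ) c k := by
    intro ax c k hs hr
    rcases hr with hr | ⟨ax', hr⟩
    · exact slot_not_inBall (by rw [zone_kax]; omega) hs hr
    · by_cases e : ax' = ax
      · subst e; exact slotPh_disjoint (by rw [zone_kax]; omega) hs hr
      · have e2 : ax' = !ax := by cases ax <;> cases ax' <;> simp_all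
        subst e2
        exact slots_other (o' := 0) (κ' := o + κ) hb (by omega) (by rw [zero_add]; omega) hs
          (by simpa [kax] using hr)
  have c0 : Commute y0 γ := commute_of_moves (hiS false) hy0.1 my0 hγm (dγ false)
  have c1 : Commute y1 γ := commute_of_moves (hiS true) hy1.1 my1 hγm (dγ true)
  have cx : Commute x0 y1 := commute_of_moves (hiS false) hx0.1 mx0 my1
    fun c k h1 h2 => slots_other (ax := false) hb hW1 (by omega) h1 h2
  refine ⟨a * a', γ' * γ, y0 * x0, y1 * x1, ?_, mul_mem ha ha',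
    mul_mem hγ' (Fr_mono (ball_mono hle) hγ), ?_,
    ⟨mul_mem hy0.1 hx0.1, fun x hx => ?_⟩, ⟨mul_mem hy1.1 hx1.1, fun x hx => ?_⟩,
    fun x hx y hy hxy => ?_⟩
  · calc u * u' = a * (γ * (x0 * x1) * u') := by rw [e]; simp only [mul_assoc]
      _ = a * (u' * (γ * (x0 * x1))) := by rw [Subgroup.mem_center_iff.1 hc]
      _ = a * (a' * γ' * (y0 * y1) * (γ * (x0 * x1))) := by rw [e']
      _ = a * a' * (γ' * γ) * (y0 * x0 * (y1 * x1)) := by
        simp only [mul_assoc]
        rw [c1.left_comm, c0.left_comm, cx.left_comm]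
  · refine hγm'.mul (hγm.mono fun c k hr => ?_)
    rcases hr with hr | ⟨ax, hr⟩
    · exact Or.inl hr
    · refine Or.inr ⟨ax, slotPh_mono hr ?_ ?_⟩ <;> simp [kax_add]
  · rw [cp_mul (hiS false) hy0.1 hx0.1, hy0.2 x hx, hx0.2 x hx, kax_add false o κ,
      kax_add false κ κ',
      flipPerm_add (by simp only [kax, Bool.false_eq_true, if_false]; omega)]
  · rw [cp_mul (hiS true) hy1.1 hx1.1, hy1.2 x hx, hx1.2 x hx, kax_add true o κ,
      kax_add true κ κ',
      flipPerm_add (by simp only [kax, if_true, Prod.fst_swap, Prod.snd_swap]; omega)]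
  · have hγI : γ ∈ Fr T m (ball (roomRad b (o + (κ + κ')))) := Fr_mono (ball_mono hle) hγ
    rw [cp_mul hI hγ' hγI, cp_mul hI hγ' hγI, hd2 x hx y hy hxy]
    congr 1
    have g0 : gvec T m 0 = 0 := by simp [gvec]
    refine cp_shift_congr hi hI le_rfl 0
      (fun v hv => by rw [g0, sub_zero]; exact ball_mono hle hv) hγ hx hy ?_
    simp only [g0, neg_zero, S.sh_zero]
    exact hd1 x hx y hy hxy

section quadrants

variable {L : Finset Lat}

/-- The quadrant of a cell. -/
def quad (z : ↥L × Fin n) : Bool × Bool := (decide (0 ≤ (z.1 : Lat).1), decide (0 ≤ (z.1 : Lat).2))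

open Classical in
/-- The restriction to a quadrant. -/
noncomputable def quadPart (q : Bool × Bool) (π : Equiv.Perm (↥L × Fin n)) :
    Equiv.Perm (↥L × Fin n) :=
  if h : ∀ z, quad (π z) = q ↔ quad z = q
  then (π.subtypePerm (p := fun z => quad z = q) h).ofSubtype else 1

/-- The permutation keeps the quadrants. -/
def KeepsQuads (π : Equiv.Perm (↥L × Fin n)) : Prop := ∀ z, quad (π z) = quad z

theorem KeepsQuads.inv {π : Equiv.Perm (↥L × Fin n)} (h : KeepsQuads π) : KeepsQuads π⁻¹ :=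
  fun z => by
    have := h (π⁻¹ z)
    rw [Equiv.Perm.coe_inv, Equiv.apply_symm_apply] at this
    exact this.symm

theorem quadPart_apply {π : Equiv.Perm (↥L × Fin n)} (h : KeepsQuads π) (q : Bool × Bool)
    (z : ↥L × Fin n) : quadPart q π z = if quad z = q then π z else z := by
  classical
  rw [quadPart, dif_pos fun z => by rw [h z]]
  split_ifs with hz
  · exact (Equiv.Perm.ofSubtype_apply_of_mem (p := fun z => quad z = q) _ hz).trans rfl
  · exact Equiv.Perm.ofSubtype_apply_of_not_mem (p := fun z => quad z = q) _ hz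

theorem quadPart_mul {π π' : Equiv.Perm (↥L × Fin n)} (h : KeepsQuads π) (h' : KeepsQuads π')
    (q : Bool × Bool) : quadPart q (π * π') = quadPart q π * quadPart q π' := by
  have hm : KeepsQuads (π * π') := fun z => (h _).trans (h' z)
  refine Equiv.ext fun z => ?_
  rw [Equiv.Perm.mul_apply, quadPart_apply h', quadPart_apply hm]
  by_cases hz : quad z = q
  · rw [if_pos hz, if_pos hz, quadPart_apply h, if_pos ((h' z).trans hz)]; rfl
  · rw [if_neg hz, if_neg hz, quadPart_apply h, if_neg hz]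

theorem quadPart_eq_prod {π : Equiv.Perm (↥L × Fin n)} (h : KeepsQuads π) :
    π = quadPart (true, true) π * quadPart (true, false) π * quadPart (false, true) π *
      quadPart (false, false) π := by
  refine Equiv.ext fun z => ?_
  simp only [Equiv.Perm.mul_apply]
  rcases hq : quad z with ⟨b1, b2⟩
  have hp : quad (π z) = (b1, b2) := (h z).trans hq
  cases b1 <;> cases b2 <;> simp [quadPart_apply h, hq, hp]

end quadrants

theorem quo_ball {B : ℕ} (hB : B ≤ T.W m) {v : Lat} (hv : v ∈ ball B) :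
    quo T m v = (if 0 ≤ v.1 then 0 else -1, if 0 ≤ v.2 then 0 else -1) := by
  simp only [ball, Finset.mem_product, Finset.mem_Ico] at hv
  refine Prod.ext ?_ ?_ <;> simp only [quo] <;> split_ifs with h <;>
    first
    | exact Int.ediv_eq_zero_of_lt h (by omega)
    | exact Int.ediv_eq_neg_one_of_neg_of_le (by omega) (by omega)

theorem mem_face_of_quads {B : ℕ} (hn4 : 4 ≤ n) (hB : 2 * B ≤ T.W m) {w : UGroup S n}
    (hw : w ∈ Fr T m (ball B)) (hk : ∀ x ∈ base T m, KeepsQuads (cp T m (ball B) w x))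
    (hs : ∀ x ∈ base T m, ∀ q,
      Equiv.Perm.sign (quadPart q (cp T m (ball B) w x)) = 1) : w ∈ Fr T m (face T m) := by
  have hi : InjMod T m (ball B) := injMod_ball hB
  have hσ := isLocallyConstant_cp hi hw
  have one : ∀ q : Bool × Bool, ∃ v, v ∈ Fr T m (face T m) ∧ v ∈ Fr T m (ball B) ∧
      ∀ x ∈ base T m, cp T m (ball B) v x = quadPart q (cp T m (ball B) w x) := by
    intro q
    obtain ⟨v, hvF, ev⟩ := realise (L' := (ball B).filter fun v : Lat =>
        (decide (0 ≤ v.1), decide (0 ≤ v.2)) = q) hn4 hi (Finset.filter_subset _ _)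
      (fun x => quadPart q (cp T m (ball B) w x)) (hσ.comp (quadPart q))
      (fun x hx a ha => by
        rw [quadPart_apply (hk x hx), if_neg]
        exact fun hq => ha (Finset.mem_filter.2 ⟨a.1.2, hq⟩))
      (fun x hx => hs x hx q)
    refine ⟨v, ?_, Fr_mono (Finset.filter_subset _ _) hvF, ev⟩
    rw [← Fr_shift _ (if q.1 then 0 else -1, if q.2 then 0 else -1)] at hvF
    refine Fr_mono (fun u hu => ?_) hvF
    obtain ⟨v, hv, rfl⟩ := Finset.mem_image.1 hu
    rw [Finset.mem_filter] at hv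
    obtain ⟨hv, rfl⟩ := hv
    simp only [ball, face, Finset.mem_product, Finset.mem_Ico, gvec, Prod.fst_sub, Prod.snd_sub,
      decide_eq_true_eq] at hv ⊢
    split_ifs <;> omega
  obtain ⟨v1, f1, b1, e1⟩ := one (true, true)
  obtain ⟨v2, f2, b2, e2⟩ := one (true, false)
  obtain ⟨v3, f3, b3, e3⟩ := one (false, true)
  obtain ⟨v4, f4, b4, e4⟩ := one (false, false)
  have : w = v1 * v2 * v3 * v4 := by
    refine Fr_ext hi hw (mul_mem (mul_mem (mul_mem b1 b2) b3) b4) fun x hx => ?_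
    rw [cp_mul hi (mul_mem (mul_mem b1 b2) b3) b4, cp_mul hi (mul_mem b1 b2) b3, cp_mul hi b1 b2,
      e1 x hx, e2 x hx, e3 x hx, e4 x hx]
    exact quadPart_eq_prod (hk x hx)
  rw [this]
  exact mul_mem (mul_mem (mul_mem f1 f2) f3) f4

theorem keeps_of_blockPreserving {B : ℕ} (hB : 2 * B ≤ T.W m) {w : UGroup S n}
    (hw : w ∈ Fr T m (ball B)) (hbp : BlockPreserving T m w) {x : X} (hx : x ∈ base T m) :
    KeepsQuads (cp T m (ball B) w x) := by
  intro z
  have h := hbp (pt S x (lat z))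
  rw [reads_cp (injMod_ball hB) hw hx, blk_pt_eq_iff hx,
    show (lat (cp T m (ball B) w x z)).1 = ((cp T m (ball B) w x z).1 : Lat) from rfl,
    show (lat z).1 = (z.1 : Lat) from rfl,
    quo_ball (by omega) (cp T m (ball B) w x z).1.2, quo_ball (by omega) z.1.2, Prod.mk.injEq] at h
  obtain ⟨h1, h2⟩ := h
  simp only [quad, Prod.mk.injEq, decide_eq_decide]
  constructor <;> split_ifs at h1 h2 <;> omega

/-- At one level, the kernel elements with a given label and controlled by given types are few. -/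
theorem card_le_of_forms {Q : ℕ} {α : Type} {F : X → α} (τ : X → Fin Q)
    (hτ : ∀ x ∈ base T m, ∀ y ∈ base T m, τ x = τ y → F x = F y ∧ SameCount T m F x y)
    {κ : ℕ × ℕ} (hW : 4 * (roomRad b ((0 : ℕ × ℕ) + κ) + 1) ≤ T.W m)
    (t : Finset (UGroup S n)) (ht : ∀ u ∈ t, ueval S u = 1)
    (hf : ∀ u ∈ t, Form T m hn b 0 κ (SameKey T m F) u) :
    t.card ≤ Fintype.card (Fin Q × Fin Q × Fin Q → Bool × Bool → ℤˣ) := by
  classical
  rcases t.eq_empty_or_nonempty with rfl | ⟨u1, hu1⟩
  · simp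
  have hn4 : 4 ≤ n := by omega
  set B := roomRad b ((0 : ℕ × ℕ) + κ)
  have hBb : 2 * b ≤ B := Nat.le_add_right _ _
  have hi : InjMod T m (ball B) := injMod_ball (by omega)
  have hiS : ∀ ax, InjMod T m (strip T m ax (2 * b)) := fun ax => injMod_strip (by omega)
  obtain ⟨a1, γ1, p1, q1, e1, ha1, hγ1, -, hp1, hq1, hd1⟩ := hf u1 hu1
  have key : ∀ u ∈ t, ∃ a γ : UGroup S n, u = a * γ * (p1 * q1) ∧ a ∈ Fr T m (face T m) ∧
      γ ∈ Fr T m (ball B) ∧ (∀ x ∈ base T m, KeepsQuads (cp T m (ball B) (γ * γ1⁻¹) x)) ∧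
      ueval S (a * γ) = ueval S (a1 * γ1) ∧
      ∀ x ∈ base T m, ∀ y ∈ base T m, SameKey T m F x y →
        cp T m (ball B) (γ * γ1⁻¹) x = cp T m (ball B) (γ * γ1⁻¹) y := by
    intro u hu
    obtain ⟨a, γ, p, q, e, ha, hγ, -, hp, hq, hd⟩ := hf u hu
    have ep : p = p1 := Fr_ext (hiS false) hp.1 hp1.1 fun x hx => by rw [hp.2 x hx, hp1.2 x hx]
    have eq' : q = q1 := Fr_ext (hiS true) hq.1 hq1.1 fun x hx => by rw [hq.2 x hx, hq1.2 x hx]
    subst ep eq'
    have hev : ueval S (a * γ) = ueval S (a1 * γ1) := by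
      have h1 := ht u hu
      have h2 := ht u1 hu1
      rw [e, map_mul] at h1
      rw [e1, map_mul] at h2
      exact mul_right_cancel (h1.trans h2.symm)
    refine ⟨a, γ, e, ha, hγ, fun x hx => keeps_of_blockPreserving (by omega) (mul_mem hγ (inv_mem hγ1)) ?_ hx,
      hev, fun x hx y hy hxy => ?_⟩
    · have e2 : ueval S (γ * γ1⁻¹) = ueval S (a⁻¹ * a1) := by
        simp only [map_mul, map_inv] at hev ⊢
        rw [eq_inv_mul_iff_mul_eq, ← mul_assoc, hev, mul_inv_cancel_right]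
      have hb2 := blockPreserving_face (mul_mem (inv_mem ha) ha1)
      intro z
      rw [e2]
      exact hb2 z
    · rw [cp_mul hi hγ (inv_mem hγ1), cp_mul hi hγ (inv_mem hγ1), cp_inv hi hγ1, cp_inv hi hγ1,
        hd x hx y hy hxy, hd1 x hx y hy hxy]
  choose! A G he hA hG hk hev hsame using key
  set kk : X → Fin Q × Fin Q × Fin Q := fun x =>
    (τ x, τ (S.sh (gvec T m (axisVec false 1 0)) x), τ (S.sh (gvec T m (axisVec true 1 0)) x))
  have hkk : ∀ x ∈ base T m, ∀ y ∈ base T m, kk x = kk y → SameKey T m F x y := by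
    intro x hx y hy h
    simp only [kk, Prod.mk.injEq] at h
    obtain ⟨h0, h1, h2⟩ := h
    refine ⟨(hτ x hx y hy h0).1, fun ax => ?_, (hτ x hx y hy h0).2⟩
    cases ax
    exacts [(hτ _ (sh_gvec_mem _ hx) _ (sh_gvec_mem _ hy) h1).1,
      (hτ _ (sh_gvec_mem _ hx) _ (sh_gvec_mem _ hy) h2).1]
  let Φ : UGroup S n → (Fin Q × Fin Q × Fin Q → Bool × Bool → ℤˣ) := fun u k q =>
    if h : ∃ x, x ∈ base T m ∧ kk x = k then
      Equiv.Perm.sign (quadPart q (cp T m (ball B) (G u * γ1⁻¹) h.choose))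
    else 1
  have hΦ : ∀ u ∈ t, ∀ x ∈ base T m, ∀ q,
      Φ u (kk x) q = Equiv.Perm.sign (quadPart q (cp T m (ball B) (G u * γ1⁻¹) x)) := by
    intro u hu x hx q
    have h : ∃ y, y ∈ base T m ∧ kk y = kk x := ⟨x, hx, rfl⟩
    simp only [Φ, dif_pos h]
    rw [hsame u hu _ h.choose_spec.1 x hx (hkk _ h.choose_spec.1 x hx h.choose_spec.2)]
  refine (Finset.card_le_card_of_injOn Φ (fun u _ => Finset.mem_univ _) ?_).trans_eq
    (Finset.card_univ)
  intro u hu v hv huv
  have mu := mul_mem (hG u hu) (inv_mem hγ1)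
  have mv := mul_mem (hG v hv) (inv_mem hγ1)
  set w := G u * γ1⁻¹ * (G v * γ1⁻¹)⁻¹
  have hw : w ∈ Fr T m (ball B) := mul_mem mu (inv_mem mv)
  have hcp : ∀ x, cp T m (ball B) w x =
      cp T m (ball B) (G u * γ1⁻¹) x * (cp T m (ball B) (G v * γ1⁻¹) x)⁻¹ := fun x => by
    rw [cp_mul hi mu (inv_mem mv), cp_inv hi mv]
  have hwf : w ∈ Fr T m (face T m) := by
    refine mem_face_of_quads hn4 (by omega) hw (fun x hx z => ?_) fun x hx q => ?_
    · rw [hcp, Equiv.Perm.mul_apply, hk u hu x hx, (hk v hv x hx).inv]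
    · have e : quadPart q (cp T m (ball B) (G u * γ1⁻¹) x) =
          quadPart q (cp T m (ball B) w x) * quadPart q (cp T m (ball B) (G v * γ1⁻¹) x) := by
        rw [← quadPart_mul (fun z => by
          rw [hcp, Equiv.Perm.mul_apply, hk u hu x hx, (hk v hv x hx).inv]) (hk v hv x hx), hcp,
          inv_mul_cancel_right]
      have h1 := hΦ u hu x hx q
      have h2 := hΦ v hv x hx q
      rw [huv, h2, e, map_mul] at h1
      exact (mul_eq_right (a := Equiv.Perm.sign (quadPart q (cp T m (ball B) w x)))).1 h1.symm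
  have hGu : G u = w * G v := by simp [w, mul_assoc]
  have ha : A u * w = A v := by
    refine Fr_ext_ueval injMod_face (mul_mem (hA u hu) hwf) (hA v hv) ?_
    have e := (hev u hu).trans (hev v hv).symm
    rw [hGu, ← mul_assoc, map_mul, map_mul (ueval S) (A v)] at e
    exact mul_right_cancel e
  rw [he u hu, he v hv, hGu, ← mul_assoc (A u), ha]

end Vale.Agent.P196.Full.Kernel
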