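import Vale.Agent.P196.Full.Universal.Kernel.Realise

/-!
# P196: split kernel elements have normal forms decided by the keys of the corners
-/

namespace Vale.Agent.P196.Full.Kernel

variable {X : Type} [TopologicalSpace X] {n : ℕ} {S : Sys X} {T : Tower S} {m : ℕ}

theorem Follows.short {u : UGroup S n} {r : Rule S n} (h : Follows T m u r) :
    Short S r.D u := fun z =>
  ⟨_, (r.le_D (clip r.K (T.phase m z.1).1) (clip r.K (T.phase m z.1).2) z.2 z.1).1,
    (r.le_D (clip r.K (T.phase m z.1).1) (clip r.K (T.phase m z.1).2) z.2 z.1).2,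
    congrArg Prod.fst (h z)⟩

theorem Short.mono {u : UGroup S n} {D D' : ℕ} (h : Short S D u) (hD : D ≤ D') :
    Short S D' u := fun z => by
  obtain ⟨d, h1, h2, h3⟩ := h z
  exact ⟨d, h1.trans hD, h2.trans hD, h3⟩

/-- The arms of a split element meet the hypotheses of the straightening. -/
theorem Split.edgeOK {a γ : UGroup S n} {δ : Bool → UGroup S n} {s ρ D : ℕ}
    (h : Split T m a γ δ s ρ D) (hn : 8 ≤ n) (ax : Bool) {b : ℕ} {o κ : ℕ × ℕ}
    (hb : ρ + D + 2 ≤ b) (hW : 4 * (zone b o κ + 1) ≤ T.W m) {x : X} (hx : x ∈ base T m)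
    (hflow : flow T m ax (ρ + D) s (δ ax) x = (κ.2 : ℤ) - κ.1) :
    EdgeOK hn b o κ (cp T m (strip T m ax (2 * b)) (δ ax) x) := by
  classical
  have hs := h.hs
  have hbW : 2 * (2 * b) ≤ T.W m := by simp only [zone] at hW; omega
  have hi : InjMod T m (strip T m ax (2 * b)) := injMod_strip hbW
  have hu : δ ax ∈ Fr T m (strip T m ax (2 * b)) := Fr_mono (strip_mono (by omega)) (h.hδ ax)
  have h2s : 2 * s ≤ T.W m := by omega
  have arm : ∀ z : Cell n T m ax (2 * b), cp T m (strip T m ax (2 * b)) (δ ax) x z ≠ z →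
      hdi (cr z) < s ∧ InArm T m ax s (res T m (z.1 : Lat)) := by
    intro z hz
    have hp : InArm T m ax s (res T m (z.1 : Lat)) := by
      by_contra hc
      exact hz (cp_fix hi hu (h.hδm ax) hx hc)
    exact ⟨(hd_crs_cell hbW z) ▸ hp.1, hp⟩
  have cross : ∀ z : Cell n T m ax (2 * b),
      ((if Up z then (1 : ℤ) else 0) -
        if Up (cp T m (strip T m ax (2 * b)) (δ ax) x z) then 1 else 0) =
      crossI T m (δ ax) x (lat z) := by
    intro z
    rw [crossI, upI_cell hbW hu hx, upI_cell hbW (one_mem _) hx,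
      show cp T m (strip T m ax (2 * b)) (1 : UGroup S n) x = 1 from cp_eq hi hx fun a => by simp]
    rfl
  have zero : ∀ z : Cell n T m ax (2 * b), (ρ + D : ℕ) ≤ al z →
      al z < (T.W m : ℤ) - (ρ + D : ℕ) →
      (Up (cp T m (strip T m ax (2 * b)) (δ ax) x z) ↔ Up z) := by
    intro z h1 h2
    by_cases hz : cp T m (strip T m ax (2 * b)) (δ ax) x z = z
    · rw [hz]
    obtain ⟨hr, -⟩ := arm z hz
    have hzb := cell_bounds z
    rw [hdi_lt] at hr
    set w : Cell n T m ax s := mkCell (al z) (cr z) z.2 ⟨hzb.1, hr⟩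
    have hw : lat w = lat z := by
      rw [lat_cell, lat_cell, al_mkCell, cr_mkCell]; rfl
    have e1 := upI_cell hbW hu hx z
    have e2 := upI_cell h2s (h.hδ ax) hx w
    rw [hw, e1] at e2
    have e3 := h.middle_side ax hx w (by rw [al_mkCell]; exact h1) (by rw [al_mkCell]; exact h2)
    have e4 : Up w ↔ Up z := by simp [Up, w]
    rw [← e4, ← e3]
    split_ifs at e2 with q1 q2 <;> first | exact iff_of_true q1 q2 | omega | exact iff_of_false q1 ‹_›
  refine ⟨by omega, by omega, hbW, hW, sign_cp hi hu, fun z hz => ?_, fun z h1 h2 =>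
    zero z (by omega) (by omega), ?_⟩
  · obtain ⟨hr, hp⟩ := arm z hz
    refine ⟨by omega, ?_⟩
    have h2 := hp.2
    rw [hd_alg_cell] at h2
    have := cell_bounds z
    exact ⟨by omega, by omega⟩
  · rw [← hflow, flow, Finset.sum_congr rfl fun z _ => cross z]
    rw [← Finset.sum_image (g := lat) (f := fun v => crossI T m (δ ax) x v)
      (fun a _ b _ e => lat_injective e)]
    refine (Finset.sum_subset (fun v hv => ?_) fun v hv hv' => ?_).symm
    · rw [mem_nearBox] at hv
      refine Finset.mem_image.2 ⟨mkCell (lal ax v.1) (lcr ax v.1) v.2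
        (by simp only [zone] at hW; omega), ?_, ?_⟩
      · simp only [Finset.mem_filter, Finset.mem_univ, true_and, al_mkCell]
        omega
      · rw [lat_cell, al_mkCell, cr_mkCell, snd_mkCell, axisVec_lal]
    · obtain ⟨z, hz, rfl⟩ := Finset.mem_image.1 hv
      simp only [Finset.mem_filter, Finset.mem_univ, true_and] at hz
      rw [← cross]
      by_cases hfix : cp T m (strip T m ax (2 * b)) (δ ax) x z = z
      · rw [hfix, sub_self]
      · have hr := hdi_lt.1 (arm z hfix).1
        have hzb := cell_bounds z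
        have hK : (ρ + D : ℕ) ≤ al z := by
          by_contra hc
          exact hv' (mem_nearBox.2 ⟨⟨hzb.1.1, not_le.1 hc⟩, hr⟩)
        have hup := zero z hK (by simp only [zone] at hW; omega)
        simp only [hup, sub_self]

section obs

variable (T)

/-- What is observed at a corner: the moves of the rules and the window signs on a box. -/
noncomputable def obs (rγ : Rule S n) (rδ : Bool → Rule S n) (R B : ℕ) (x : X) :
    (↥(ball R) → Fin n → Off n × (Bool → Off n)) × (↥(ball R) → Bool → ℤˣ) :=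
  (fun v c => (rγ.at (v, c) x, fun ax => (rδ ax).at (v, c) x),
    fun v ax => winSign (rδ ax) ax B (S.sh (v : Lat) x))

theorem isLocallyConstant_pi {ι β : Type*} [Finite ι] {F : X → ι → β}
    (h : ∀ i, IsLocallyConstant fun x => F x i) : IsLocallyConstant F := by
  refine (IsLocallyConstant.iff_eventually_eq _).2 fun x => ?_
  filter_upwards [Filter.eventually_all.2 fun i => (IsLocallyConstant.iff_eventually_eq _).1 (h i) x] with y hy
  exact funext hy

theorem isLocallyConstant_comp_sh {β : Type*} {F : X → β} (h : IsLocallyConstant F) (v : Lat) :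
    IsLocallyConstant fun x => F (S.sh v x) :=
  h.comp_continuous (S.sh v).continuous

theorem isLocallyConstant_prod {ι : Type*} (s : Finset ι) {F : ι → X → ℤˣ}
    (h : ∀ i ∈ s, IsLocallyConstant (F i)) : IsLocallyConstant fun x => ∏ i ∈ s, F i x := by
  refine (IsLocallyConstant.iff_eventually_eq _).2 fun x => ?_
  filter_upwards [(Filter.eventually_all_finset s).2 fun i hi => (IsLocallyConstant.iff_eventually_eq _).1 (h i hi) x] with y hy
  exact Finset.prod_congr rfl hy

theorem isLocallyConstant_midAt (rr : Rule S n) (ax : Bool) (r : ℤ) (c : Fin n) :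
    IsLocallyConstant (rr.midAt ax r c) :=
  (isLocallyConstant_comp_sh (rr.isLocallyConstant_Φ _ _ c) _).comp
    fun d : Off n => (lal ax d.1, lcr ax d.1, d.2)

theorem isLocallyConstant_winSign (rr : Rule S n) (ax : Bool) (B : ℕ) :
    IsLocallyConstant (winSign rr ax B) := by
  classical
  unfold winSign
  refine isLocallyConstant_prod _ fun p _ => isLocallyConstant_prod _ fun q _ => ?_
  exact ((isLocallyConstant_midAt rr ax p.1 p.2).prodMk
    (isLocallyConstant_comp_sh (isLocallyConstant_midAt rr ax q.2.1 q.2.2) _)).comp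
    fun d : (ℤ × ℤ × Fin n) × (ℤ × ℤ × Fin n) =>
      if keyI n B 0 p.1 p.2 < keyI n B q.1 q.2.1 q.2.2 then
        (if keyI n B d.1.1 (p.1 + d.1.2.1) d.1.2.2 <
            keyI n B (q.1 + d.2.1) (q.2.1 + d.2.2.1) d.2.2.2 then (1 : ℤˣ) else -1)
      else 1

theorem isLocallyConstant_at (r : Rule S n) (v : Off n) : IsLocallyConstant (r.at v) :=
  isLocallyConstant_comp_sh (r.isLocallyConstant_Φ _ _ _) _

theorem isLocallyConstant_obs (rγ : Rule S n) (rδ : Bool → Rule S n) (R B : ℕ) :
    IsLocallyConstant (obs rγ rδ R B) := by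
  refine IsLocallyConstant.prodMk (isLocallyConstant_pi fun v => isLocallyConstant_pi fun c =>
    (isLocallyConstant_at rγ _).prodMk (isLocallyConstant_pi fun ax => isLocallyConstant_at _ _))
    (isLocallyConstant_pi fun v => isLocallyConstant_pi fun ax =>
      isLocallyConstant_comp_sh (isLocallyConstant_winSign _ _ _) _)

variable {T}

theorem clips_at {r : Rule S n} {v : Lat} (h : 2 * (r.K + (v.1.natAbs + v.2.natAbs) + 1) ≤ T.W m) :
    clip r.K (res T m v).1 = clipi r.K v.1 ∧ clip r.K (res T m v).2 = clipi r.K v.2 :=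
  ⟨clip_eq_clipi (by omega), clip_eq_clipi (by omega)⟩

/-- Cells seen in the box at a shifted corner move alike. -/
theorem cp_congr_at {L : Finset Lat} (h : InjMod T m L) {u : UGroup S n} (hu : u ∈ Fr T m L)
    {r : Rule S n} (hf : Follows T m u r) {x y : X} (hx : x ∈ base T m) (hy : y ∈ base T m)
    (a : ↥L × Fin n) (k : Lat)
    (hW : 2 * (r.K + (((a.1 : Lat) - gvec T m k).1.natAbs + ((a.1 : Lat) - gvec T m k).2.natAbs) + 1)
      ≤ T.W m)
    (he : r.at ((a.1 : Lat) - gvec T m k, a.2) (S.sh (gvec T m k) x) =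
      r.at ((a.1 : Lat) - gvec T m k, a.2) (S.sh (gvec T m k) y)) :
    cp T m L u x a = cp T m L u y a := by
  refine cp_congr h hu hf hx hy a fun i j hi hj => ?_
  have e : res T m (a.1 : Lat) = res T m ((a.1 : Lat) - gvec T m k) := by
    conv_lhs => rw [← sub_add_cancel (a.1 : Lat) (gvec T m k)]
    rw [res_add, res_gvec, add_zero]
  obtain ⟨h1, h2⟩ := clips_at hW
  rw [e, h1] at hi
  rw [e, h2] at hj
  subst hi hj
  simpa only [Rule.at, S.sh_sh, sub_add_cancel] using he

end obs

variable [CompactSpace X]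

/-- A split kernel element has a normal form decided by the keys of a fixed observable. -/
theorem exists_form (T : Tower S) (hn : 8 ≤ n) (rγ : Rule S n) (rδ : Bool → Rule S n)
    (s ρ b : ℕ) (o κ : ℕ × ℕ)
    (hb : ρ + ((rδ false).D + (rδ true).D) + ((rδ false).K + (rδ true).K) + 2 ≤ b) :
    ∃ (α : Type) (_ : Finite α) (f : X → α), IsLocallyConstant f ∧ ∃ C : ℕ,
      ∀ m, C ≤ T.W m → ∀ (a γ : UGroup S n) (δ : Bool → UGroup S n),
        Split T m a γ δ s ρ ((rδ false).D + (rδ true).D) → Follows T m γ rγ →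
        (∀ ax, Follows T m (δ ax) (rδ ax)) →
        (∀ x ∈ base T m,
          flow T m false (ρ + ((rδ false).D + (rδ true).D)) s (δ false) x = (κ.2 : ℤ) - κ.1 ∧
          flow T m true (ρ + ((rδ false).D + (rδ true).D)) s (δ true) x = (κ.1 : ℤ) - κ.2) →
        Form T m hn b o κ (SameKey T m f) (a * δ false * δ true * γ) := by
  set D := (rδ false).D + (rδ true).D
  set Z := roomRad b (o + κ)
  set R := Z + 2 * D + 1
  have hlc := isLocallyConstant_obs rγ rδ R (2 * b)
  set f : X → ↥(Set.range (obs rγ rδ R (2 * b))) :=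
    fun x => ⟨obs rγ rδ R (2 * b) x, Set.mem_range_self x⟩
  have hfin : Finite ↥(Set.range (obs rγ rδ R (2 * b))) := hlc.range_finite.to_subtype
  have hf : IsLocallyConstant f := by
    refine (IsLocallyConstant.iff_exists_open _).2 fun x => ?_
    obtain ⟨U, hU, hxU, hc⟩ := hlc.exists_open x
    exact ⟨U, hU, hxU, fun y hy => Subtype.ext (hc y hy)⟩
  refine ⟨_, hfin, f, hf, 8 * (Z + R + D + b + rγ.K + (rδ false).K + (rδ true).K + 2),
    fun m hm a γ δ h hfγ hfδ hflow => ?_⟩
  have hZ : 2 * b ≤ Z := Nat.le_add_right _ _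
  have hWZ : 4 * (Z + 1) ≤ T.W m := by omega
  have hKD : ∀ ax, (rδ ax).K + (rδ ax).D ≤ Z ∧ (rδ ax).D ≤ D ∧
      2 * ((rδ ax).K + (rδ ax).D + 2 * b + 1) + 4 * Z + 4 * (rδ ax).D ≤ T.W m := by
    intro ax; cases ax <;> omega
  have hs := h.hs
  have hrad : 2 * Z ≤ T.W m := by omega
  have hok : ∀ ax, ∀ x ∈ base T m,
      EdgeOK hn b (kax ax o) (kax ax κ) (cp T m (strip T m ax (2 * b)) (δ ax) x) := by
    intro ax x hx
    refine h.edgeOK hn ax (by omega) (by rw [zone_kax]; exact hWZ) hx ?_
    cases ax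
    exacts [(hflow x hx).1, (hflow x hx).2]
  have hδb : ∀ ax, δ ax ∈ Fr T m (strip T m ax (2 * b)) := fun ax =>
    Fr_mono (strip_mono (by omega)) (h.hδ ax)
  obtain ⟨H0, Tn0, Tf0, X0, e0, hH0, hH0s, mH0, bN0, bF0, mT0, sX0, mX0, c0⟩ :=
    exists_arm false (hδb false) (by omega) hWZ (hok false)
  obtain ⟨H1, Tn1, Tf1, X1, e1, hH1, hH1s, mH1, bN1, bF1, mT1, sX1, mX1, c1⟩ :=
    exists_arm true (hδb true) (by omega) hWZ (hok true)
  have hball : InjMod T m (ball Z) := injMod_ball hrad
  have hγb : γ ∈ Fr T m (ball Z) := Fr_mono (ball_mono (by omega)) h.hγ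
  have hiS : ∀ ax, InjMod T m (strip T m ax (2 * b)) := fun ax => injMod_strip (by omega)
  have slot : ∀ ax c k, SlotPh T m hn ax b (kax ax o) (kax ax κ) c k →
      ConeP T m ax c ∧ hd (crs T m ax c) = b := fun ax c k hc =>
    slotPh_coneP (B := 2 * b) (by omega) (by omega) (by omega) (by rw [zone_kax]; exact hWZ) hc
  have slotball : ∀ ax c k, SlotPh T m hn ax b (kax ax o) (kax ax κ) c k →
      ¬ InBall T m ρ c := fun ax c k hc hb' => by
    have := (slot ax c k hc).2
    cases ax <;> simp only [crs, InBall, if_true, if_false, Bool.false_eq_true] at this hb' <;> omega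
  have cXH : Commute X0 H1 := commute_of_moves (hiS false) sX0.1 mX0 mH1
    fun c k hc hc' => coneP_disjoint (slot false c k hc).1 hc'
  have cXT : Commute X0 (Tn1 * Tf1) := commute_of_moves (hiS false) sX0.1 mX0 mT1
    fun c k hc hc' => coneP_disjoint (slot false c k hc).1 hc'.1
  have cXγ : ∀ {ax} {Xe : UGroup S n}, Xe ∈ Fr T m (strip T m ax (2 * b)) →
      MovesIn T m Xe (SlotPh T m hn ax b (kax ax o) (kax ax κ)) → Commute Xe γ :=
    fun hXe mXe => commute_of_moves (hiS _) hXe mXe h.hγm fun c k hc hc' => slotball _ c k hc hc'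
  have cXγ0 := cXγ sX0.1 mX0
  have cXγ1 := cXγ sX1.1 mX1
  have cTH : Commute (Tn0 * Tf0) H1 := commute_of_moves hball (mul_mem bN0 bF0) mT0 mH1
    fun c k hc hc' => coneP_disjoint hc.1 hc'
  refine ⟨a * (H0 * H1), Tn0 * Tf0 * (Tn1 * Tf1) * γ, X0, X1, ?_, mul_mem h.ha (mul_mem hH0 hH1),
    mul_mem (mul_mem (mul_mem bN0 bF0) (mul_mem bN1 bF1)) hγb, ?_, sX0, sX1, ?_⟩
  · rw [e0, e1]
    rw [show H0 * Tn0 * Tf0 * X0 = H0 * (Tn0 * Tf0) * X0 by simp only [mul_assoc],
      show H1 * Tn1 * Tf1 * X1 = H1 * (Tn1 * Tf1) * X1 by simp only [mul_assoc]]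
    generalize Tn0 * Tf0 = T0 at cTH ⊢
    generalize Tn1 * Tf1 = T1 at cXT ⊢
    simp only [mul_assoc]
    rw [cXH.left_comm, cXT.left_comm, cTH.left_comm, cXγ1.eq, cXγ0.left_comm]
  · refine (((mT0.mono fun c k hc => hc.2).mul (mT1.mono fun c k hc => hc.2)).mul
      (h.hγm.mono fun c k hc => Or.inl ⟨by have := hc.1; omega, by have := hc.2; omega⟩))
  · intro x hx y hy hxy
    obtain ⟨hx0, hxe, hcnt⟩ := hxy
    have hobs : obs rγ rδ R (2 * b) x = obs rγ rδ R (2 * b) y := congrArg Subtype.val hx0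
    have hobe : ∀ ax, obs rγ rδ R (2 * b) (S.sh (gvec T m (axisVec ax 1 0)) x) =
        obs rγ rδ R (2 * b) (S.sh (gvec T m (axisVec ax 1 0)) y) :=
      fun ax => congrArg Subtype.val (hxe ax)
    have g0 : gvec T m 0 = 0 := by simp [gvec]
    have near : ∀ ax, ∀ z : Cell n T m ax (2 * b), al z < (R : ℤ) →
        cp T m (strip T m ax (2 * b)) (δ ax) x z = cp T m (strip T m ax (2 * b)) (δ ax) y z := by
      intro ax z hz
      have hb' := cell_bounds z
      have hv : ((z.1 : Lat) ∈ ball R) ∧ (z.1 : Lat).1.natAbs + (z.1 : Lat).2.natAbs ≤ 2 * R := by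
        have e := axisVec_lal ax (z.1 : Lat)
        change axisVec ax (al z) (cr z) = _ at e
        rw [← e]
        simp only [ball, Finset.mem_product, Finset.mem_Ico]
        cases ax <;> simp [axisVec] <;> omega
      refine cp_congr_at (hiS ax) (hδb ax) (hfδ ax) hx hy z 0 ?_ ?_
      · have := hKD ax
        rw [g0, sub_zero]
        omega
      · rw [g0, sub_zero, S.sh_zero, S.sh_zero]
        exact congrFun (congrArg Prod.snd (congrFun (congrFun (congrArg Prod.fst hobs) ⟨_, hv.1⟩) z.2)) ax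
    have far : ∀ ax, ∀ x' ∈ base T m, ∀ y' ∈ base T m,
        obs rγ rδ R (2 * b) (S.sh (gvec T m (axisVec ax 1 0)) x') =
          obs rγ rδ R (2 * b) (S.sh (gvec T m (axisVec ax 1 0)) y') →
        ∀ z : Cell n T m ax (2 * b), (T.W m : ℤ) - R ≤ al z →
        cp T m (strip T m ax (2 * b)) (δ ax) x' z = cp T m (strip T m ax (2 * b)) (δ ax) y' z := by
      intro ax x' hx' y' hy' ho z hz
      have hb' := cell_bounds z
      have hv : ((z.1 : Lat) - gvec T m (axisVec ax 1 0) ∈ ball R) ∧
          ((z.1 : Lat) - gvec T m (axisVec ax 1 0)).1.natAbs +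
            ((z.1 : Lat) - gvec T m (axisVec ax 1 0)).2.natAbs ≤ 2 * R := by
        have e := axisVec_lal ax (z.1 : Lat)
        change axisVec ax (al z) (cr z) = _ at e
        rw [← e]
        simp only [ball, Finset.mem_product, Finset.mem_Ico]
        cases ax <;> simp [gvec, axisVec] <;> omega
      refine cp_congr_at (hiS ax) (hδb ax) (hfδ ax) hx' hy' z (axisVec ax 1 0) ?_ ?_
      · have := hKD ax
        omega
      · exact congrFun (congrArg Prod.snd (congrFun (congrFun (congrArg Prod.fst ho) ⟨_, hv.1⟩) z.2)) ax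
    have hsign : ∀ ax, midSign Z (cp T m (strip T m ax (2 * b)) (δ ax) x) =
        midSign Z (cp T m (strip T m ax (2 * b)) (δ ax) y) := by
      intro ax
      obtain ⟨k1, k2, k3⟩ := hKD ax
      refine midSign_congr (by omega) (hδb ax) (hfδ ax) k3 k1 hx hy
        (fun z hz => far ax x hx y hy (hobe ax) z (by omega)) ?_ ?_
      · intro j hj
        have hjW := j.isLt
        rcases hj with hj | hj
        · have hv : axisVec ax (j : ℤ) 0 ∈ ball R := by
            simp only [ball, Finset.mem_product, Finset.mem_Ico]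
            cases ax <;> simp [axisVec] <;> omega
          exact congrFun (congrFun (congrArg Prod.snd hobs) ⟨_, hv⟩) ax
        · have hv : axisVec ax ((j : ℤ) - T.W m) 0 ∈ ball R := by
            simp only [ball, Finset.mem_product, Finset.mem_Ico]
            cases ax <;> simp [axisVec] <;> omega
          have := congrFun (congrFun (congrArg Prod.snd (hobe ax)) ⟨_, hv⟩) ax
          simp only [obs, S.sh_sh] at this
          rw [show axisVec ax ((j : ℤ) - T.W m) 0 + gvec T m (axisVec ax 1 0) =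
            axisVec ax (j : ℤ) 0 by cases ax <;> simp [gvec, axisVec]] at this
          exact this
      · have hv : (0 : Lat) ∈ ball R := by
          simp only [ball, Finset.mem_product, Finset.mem_Ico, Prod.fst_zero, Prod.snd_zero]
          omega
        have := prod_eq_of_sameCount hcnt ax (fun w => w.1.2 ⟨0, hv⟩ ax)
        simpa only [f, obs, S.sh_zero] using this
    have hzn : ∀ ax, zone b (kax ax o) (kax ax κ) = Z := fun ax => zone_kax b o κ
    have hneg : ∀ ax, -gvec T m (axisVec ax 1 0) = gvec T m (-(axisVec ax 1 0)) := by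
      intro ax; simp [gvec]
    have hz : ∀ ax, ∀ z ∈ base T m, S.sh (-gvec T m (axisVec ax 1 0)) z ∈ base T m := fun ax z hz => by
      rw [hneg]; exact sh_gvec_mem _ hz
    have arms : ∀ ax,
        tn hn b (kax ax o) (kax ax κ) (cp T m (strip T m ax (2 * b)) (δ ax) x) =
          tn hn b (kax ax o) (kax ax κ) (cp T m (strip T m ax (2 * b)) (δ ax) y) ∧
        tf hn b (kax ax o) (kax ax κ)
            (cp T m (strip T m ax (2 * b)) (δ ax) (S.sh (-gvec T m (axisVec ax 1 0)) x)) =
          tf hn b (kax ax o) (kax ax κ)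
            (cp T m (strip T m ax (2 * b)) (δ ax) (S.sh (-gvec T m (axisVec ax 1 0)) y)) := by
      intro ax
      constructor
      · refine tn_congr (hok ax x hx) (hok ax y hy) (fun z hz => ?_)
          (by rw [hzn]; exact hsign ax)
        rw [hzn] at hz
        rcases hz with hz | hz
        · exact near ax z (by omega)
        · exact far ax x hx y hy (hobe ax) z (by omega)
      · refine tf_congr (hok ax _ (hz ax x hx)) (hok ax _ (hz ax y hy)) fun z hz' => ?_
        rw [hzn] at hz'
        refine far ax _ (hz ax x hx) _ (hz ax y hy) ?_ z (by omega)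
        simp only [S.sh_sh, add_neg_cancel, S.sh_zero]
        exact hobs
    rw [cp_mul hball (mul_mem (mul_mem bN0 bF0) (mul_mem bN1 bF1)) hγb,
      cp_mul hball (mul_mem (mul_mem bN0 bF0) (mul_mem bN1 bF1)) hγb,
      cp_mul hball (mul_mem bN0 bF0) (mul_mem bN1 bF1),
      cp_mul hball (mul_mem bN0 bF0) (mul_mem bN1 bF1),
      c0 x hx y hy (arms false).1 (arms false).2, c1 x hx y hy (arms true).1 (arms true).2]
    congr 1
    refine Equiv.ext fun z => ?_
    have hz := z.1.2
    simp only [ball, Finset.mem_product, Finset.mem_Ico] at hz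
    have hv : (z.1 : Lat) ∈ ball R := by
      simp only [ball, Finset.mem_product, Finset.mem_Ico]; omega
    refine cp_congr_at hball hγb hfγ hx hy z 0 (by rw [g0, sub_zero]; omega) ?_
    rw [g0, sub_zero, S.sh_zero, S.sh_zero]
    exact congrArg Prod.fst (congrFun (congrFun (congrArg Prod.fst hobs) ⟨_, hv⟩) z.2)

end Vale.Agent.P196.Full.Kernel
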