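import Vale.Agent.P196.Full.Universal.Kernel.Form

/-!
# P196: an arm straightened inside the universal group
-/

namespace Vale.Agent.P196.Full.Kernel

variable {X : Type} [TopologicalSpace X] {n : ℕ} {S : Sys X} {T : Tower S} {m : ℕ}

variable (T m) in
/-- Closer to the grid line of the axis than to the crossing one. -/
def ConeP (ax : Bool) (c : Ph T m) : Prop := hd (crs T m ax c) < hd (alg T m ax c)

theorem coneP_disjoint {ax : Bool} {c : Ph T m} (h : ConeP T m ax c) : ¬ ConeP T m (!ax) c := by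
  cases ax <;>
    simp only [ConeP, alg, crs, Bool.not_false, Bool.not_true, if_true, if_false,
      Bool.false_eq_true] at * <;> omega

section cells

variable {ax : Bool} {B : ℕ} (hB : 2 * B ≤ T.W m)
include hB

theorem coneP_of_cone {z : Cell n T m ax B} (h : Cone z) :
    ConeP T m ax (res T m (z.1 : Lat)) := by
  have := cell_bounds z
  rw [ConeP, hd_crs_cell hB, hd_alg_cell]
  obtain ⟨h1, h2⟩ := h
  omega

theorem slotPh_coneP {hn : 8 ≤ n} {b : ℕ} {o κ : ℕ × ℕ} {c : Ph T m} {k : Fin n}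
    (hb : 1 ≤ b) (hbB : b < B) (hW : 4 * (zone b o κ + 1) ≤ T.W m)
    (h : SlotPh T m hn ax b o κ c k) :
    ConeP T m ax c ∧ hd (crs T m ax c) = b := by
  have : NeZero (T.W m) := ⟨(T.W_pos m).ne'⟩
  obtain ⟨i, r, hs, h⟩ := h
  have hb' := sl_bounds hs
  simp only [zone] at hW
  rcases h with ⟨rfl, -⟩ | ⟨rfl, -⟩
  · have h1 : hd (crs T m ax (res T m (axisVec ax i r))) = b := by
      rw [crs_axisVec, hd_cast_of_lt (K := b + 1) (by omega) (by unfold hdi at hb'; grind)
        (by unfold hdi at hb'; grind)]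
      exact hb'.2.2
    refine ⟨?_, h1⟩
    rw [ConeP, h1, alg_axisVec, hd_cast_of_lt (K := i.toNat + 1) (by omega) (by omega) (by omega)]
    unfold hdi
    split <;> omega
  · have h1 : hd (crs T m ax (res T m (axisVec ax (-1 - i) (-1 - r)))) = b := by
      rw [crs_axisVec, hd_cast_of_lt (K := b + 1) (by omega) (by unfold hdi at hb'; grind)
        (by unfold hdi at hb'; grind)]
      rw [← hb'.2.2]
      unfold hdi
      split <;> split <;> omega
    refine ⟨?_, h1⟩
    rw [ConeP, h1, alg_axisVec, hd_cast_of_lt (K := i.toNat + 1) (by omega) (by omega) (by omega)]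
    unfold hdi
    split <;> omega

end cells

section arm

variable {hn : 8 ≤ n} {b : ℕ} {o κ : ℕ × ℕ} {ax : Bool}

theorem zone_kax (b : ℕ) (o κ : ℕ × ℕ) :
    zone b (kax ax o) (kax ax κ) = roomRad b (o + κ) := by
  have h1 := kax_sum ax o
  have h2 := kax_sum ax κ
  simp only [zone, roomRad, Prod.fst_add, Prod.snd_add]
  omega

theorem near_cell {B : ℕ} (hB : 2 * B ≤ T.W m) (hb : 2 ≤ b)
    (hW : 4 * (roomRad b (o + κ) + 1) ≤ T.W m) {z : Cell n T m ax B}
    (hh : InNear hn b (kax ax o) (kax ax κ) z) :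
    ConeP T m ax (res T m (z.1 : Lat)) ∧ Room T m hn b (o + κ) (res T m (z.1 : Lat)) z.2 := by
  refine ⟨coneP_of_cone hB (hh.cone hb (by rw [zone_kax]; exact hW)), ?_⟩
  rcases hh with ⟨h1, h2⟩ | ⟨hc, hs⟩
  · refine Or.inl ?_
    have e1 := hd_crs_cell hB z
    have e2 := hd_alg_cell z
    have := cell_bounds z
    cases ax <;> simp only [InBall, alg, crs, if_true, if_false, Bool.false_eq_true] at e1 e2 ⊢ <;>
      omega
  · refine Or.inr ⟨ax, slotPh_mono (o := kax ax o) (κ := kax ax κ)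
      ⟨al z, cr z, hs, Or.inl ⟨?_, Or.inl hc⟩⟩ ?_ ?_⟩
    · rw [show (z.1 : Lat) = axisVec ax (al z) (cr z) from (axisVec_lal ax _).symm]
    all_goals simp [kax_add]

theorem far_cell {B : ℕ} (hB : 2 * B ≤ T.W m) (hb : 2 ≤ b)
    (hW : 4 * (roomRad b (o + κ) + 1) ≤ T.W m) {z : Cell n T m ax B}
    (hh : InFar hn b (kax ax o) (kax ax κ) z) :
    ConeP T m ax (res T m (z.1 : Lat)) ∧ Room T m hn b (o + κ) (res T m (z.1 : Lat)) z.2 := by
  refine ⟨coneP_of_cone hB (hh.cone hb (by rw [zone_kax]; exact hW)), ?_⟩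
  rcases hh with ⟨h1, h2⟩ | ⟨hc, hs⟩
  · refine Or.inl ?_
    have e1 := hd_crs_cell hB z
    have e2 := hd_alg_cell z
    have := cell_bounds z
    cases ax <;> simp only [InBall, alg, crs, if_true, if_false, Bool.false_eq_true] at e1 e2 ⊢ <;>
      omega
  · refine Or.inr ⟨ax, slotPh_mono (o := kax ax o) (κ := kax ax κ)
      ⟨(T.W m : ℤ) - 1 - al z, -1 - cr z, hs, Or.inr ⟨?_, hc⟩⟩ ?_ ?_⟩
    · conv_lhs => rw [show (z.1 : Lat) = axisVec ax (al z) (cr z) from (axisVec_lal ax _).symm]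
      cases ax <;> simp [res, axisVec]
    all_goals simp [kax_add]

/-- The straightened part lies in the faces. -/
theorem exists_side (ax : Bool) {δ : UGroup S n} (hδ : δ ∈ Fr T m (strip T m ax (2 * b)))
    (hW : 4 * (roomRad b (o + κ) + 1) ≤ T.W m)
    (hok : ∀ x ∈ base T m,
      EdgeOK hn b (kax ax o) (kax ax κ) (cp T m (strip T m ax (2 * b)) δ x)) :
    ∃ H : UGroup S n, H ∈ Fr T m (face T m) ∧ H ∈ Fr T m (strip T m ax (2 * b)) ∧
      MovesIn T m H (fun c _ => ConeP T m ax c) ∧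
      ∀ x ∈ base T m, cp T m (strip T m ax (2 * b)) H x =
        straightUp hn b (kax ax o) (kax ax κ) (cp T m (strip T m ax (2 * b)) δ x) *
          straightDown hn b (kax ax o) (kax ax κ) (cp T m (strip T m ax (2 * b)) δ x) := by
  have hbW : 2 * (2 * b) ≤ T.W m := by simp only [roomRad] at hW; omega
  have hL : InjMod T m (strip T m ax (2 * b)) := injMod_strip hbW
  have hn4 : 4 ≤ n := by omega
  have hσ := isLocallyConstant_cp hL hδ
  obtain ⟨U, hU, eU⟩ := realise (L' := (strip T m ax (2 * b)).filter (fun v => 0 ≤ lcr ax v)) hn4 hL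
    (Finset.filter_subset _ _)
    (fun x => straightUp hn b (kax ax o) (kax ax κ) (cp T m (strip T m ax (2 * b)) δ x))
    (hσ.comp (straightUp hn b (kax ax o) (kax ax κ)))
    (fun x hx a ha => straightUp_fix fun hu => ha (Finset.mem_filter.2 ⟨a.1.2, hu⟩))
    (fun x hx => (hok x hx).sign_straightUp)
  obtain ⟨D, hD, eD⟩ := realise (L' := (strip T m ax (2 * b)).filter (fun v => lcr ax v < 0)) hn4 hL
    (Finset.filter_subset _ _)
    (fun x => straightDown hn b (kax ax o) (kax ax κ) (cp T m (strip T m ax (2 * b)) δ x))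
    (hσ.comp (straightDown hn b (kax ax o) (kax ax κ)))
    (fun x hx a ha => (hok x hx).straightDown_fix (Or.inl (not_lt.1 fun hu =>
      ha (Finset.mem_filter.2 ⟨a.1.2, hu⟩))))
    (fun x hx => (hok x hx).sign_straightDown)
  have mU := Fr_mono (Finset.filter_subset _ _) hU
  have mD := Fr_mono (Finset.filter_subset _ _) hD
  refine ⟨U * D, mul_mem (Fr_mono ?_ hU) ?_, mul_mem mU mD, ?_, fun x hx => ?_⟩
  · intro v hv
    rw [Finset.mem_filter] at hv
    obtain ⟨a, r, rfl, ha, hr⟩ := exists_axisVec hv.1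
    rw [lcr_axisVec] at hv
    simp only [face, Finset.mem_product, Finset.mem_Ico]
    cases ax <;> simp [axisVec] <;> omega
  · rw [← Fr_shift _ (axisVec ax 0 (-1))] at hD
    refine Fr_mono (fun w hw => ?_) hD
    obtain ⟨v, hv, rfl⟩ := Finset.mem_image.1 hw
    rw [Finset.mem_filter] at hv
    obtain ⟨a, r, rfl, ha, hr⟩ := exists_axisVec hv.1
    rw [lcr_axisVec] at hv
    simp only [face, Finset.mem_product, Finset.mem_Ico]
    cases ax <;> simp [gvec, axisVec] <;> omega
  · refine (movesIn_of_cp hL mU fun x hx a ha => ?_).mul (movesIn_of_cp hL mD fun x hx a ha => ?_)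
    · rw [eU x hx]
      exact (hok x hx).straightUp_cone fun hc => ha (coneP_of_cone hbW hc)
    · rw [eD x hx]
      exact (hok x hx).straightDown_fix (Or.inr fun hc => ha (coneP_of_cone hbW hc))
  · rw [cp_mul hL mU mD, eU x hx, eD x hx]

/-- The correction near the near end lies at the corner. -/
theorem exists_near (ax : Bool) {δ : UGroup S n} (hδ : δ ∈ Fr T m (strip T m ax (2 * b)))
    (hb : 2 ≤ b) (hW : 4 * (roomRad b (o + κ) + 1) ≤ T.W m)
    (hok : ∀ x ∈ base T m,
      EdgeOK hn b (kax ax o) (kax ax κ) (cp T m (strip T m ax (2 * b)) δ x)) :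
    ∃ Tn : UGroup S n, Tn ∈ Fr T m (strip T m ax (2 * b)) ∧
      Tn ∈ Fr T m (ball (roomRad b (o + κ))) ∧
      MovesIn T m Tn (fun c k => ConeP T m ax c ∧ Room T m hn b (o + κ) c k) ∧
      (∀ x ∈ base T m, cp T m (strip T m ax (2 * b)) Tn x =
        tn hn b (kax ax o) (kax ax κ) (cp T m (strip T m ax (2 * b)) δ x)) ∧
      ∀ x ∈ base T m, ∀ y ∈ base T m,
        tn hn b (kax ax o) (kax ax κ) (cp T m (strip T m ax (2 * b)) δ x) =
          tn hn b (kax ax o) (kax ax κ) (cp T m (strip T m ax (2 * b)) δ y) →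
        cp T m (ball (roomRad b (o + κ))) Tn x = cp T m (ball (roomRad b (o + κ))) Tn y := by
  have hr : 2 * b ≤ roomRad b (o + κ) := Nat.le_add_right _ _
  have hbW : 2 * (2 * b) ≤ T.W m := by omega
  have hL : InjMod T m (strip T m ax (2 * b)) := injMod_strip hbW
  have hball : InjMod T m (ball (roomRad b (o + κ))) := injMod_ball (by omega)
  have hn4 : 4 ≤ n := by omega
  have hσ := isLocallyConstant_cp hL hδ
  obtain ⟨u, hu, eu⟩ := realise (L' := (strip T m ax (2 * b)).filter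
      (fun v => lal ax v < (roomRad b (o + κ) : ℤ))) hn4 hL
    (Finset.filter_subset _ _)
    (fun x => tn hn b (kax ax o) (kax ax κ) (cp T m (strip T m ax (2 * b)) δ x))
    (hσ.comp (tn hn b (kax ax o) (kax ax κ)))
    (fun x hx a ha => (hok x hx).tn_fix fun hh => ha (Finset.mem_filter.2 ⟨a.1.2,
      lt_of_lt_of_eq hh.al_lt (by rw [zone_kax])⟩))
    (fun x hx => (hok x hx).sign_tn)
  have mu := Fr_mono (Finset.filter_subset _ _) hu
  have hsub : ∀ v ∈ (strip T m ax (2 * b)).filter (fun v => lal ax v < (roomRad b (o + κ) : ℤ)),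
      v ∈ ball (roomRad b (o + κ)) := by
    intro v hv
    rw [Finset.mem_filter] at hv
    obtain ⟨a, r, rfl, ha, hr⟩ := exists_axisVec hv.1
    rw [lal_axisVec] at hv
    simp only [ball, Finset.mem_product, Finset.mem_Ico]
    cases ax <;> simp [axisVec] <;> omega
  refine ⟨u, mu, Fr_mono hsub hu, ?_, eu, fun x hx y hy h => ?_⟩
  · refine movesIn_of_cp hL mu fun x hx a ha => ?_
    rw [eu x hx]
    exact EdgeOK.tn_fix (hok x hx) fun hh => ha (near_cell hbW hb hW hh)
  · have g0 : gvec T m 0 = 0 := by simp [gvec]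
    refine cp_shift_congr hL hball (Finset.filter_subset _ _) 0
      (fun v hv => by rw [g0, sub_zero]; exact hsub v hv) hu hx hy ?_
    simp only [g0, neg_zero, S.sh_zero]
    rw [eu x hx, eu y hy]
    exact h

/-- The correction near the far end lies at the next corner. -/
theorem exists_far (ax : Bool) {δ : UGroup S n} (hδ : δ ∈ Fr T m (strip T m ax (2 * b)))
    (hb : 2 ≤ b) (hW : 4 * (roomRad b (o + κ) + 1) ≤ T.W m)
    (hok : ∀ x ∈ base T m,
      EdgeOK hn b (kax ax o) (kax ax κ) (cp T m (strip T m ax (2 * b)) δ x)) :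
    ∃ Tf : UGroup S n, Tf ∈ Fr T m (strip T m ax (2 * b)) ∧
      Tf ∈ Fr T m (ball (roomRad b (o + κ))) ∧
      MovesIn T m Tf (fun c k => ConeP T m ax c ∧ Room T m hn b (o + κ) c k) ∧
      (∀ x ∈ base T m, cp T m (strip T m ax (2 * b)) Tf x =
        tf hn b (kax ax o) (kax ax κ) (cp T m (strip T m ax (2 * b)) δ x)) ∧
      ∀ x ∈ base T m, ∀ y ∈ base T m,
        tf hn b (kax ax o) (kax ax κ)
            (cp T m (strip T m ax (2 * b)) δ (S.sh (-gvec T m (axisVec ax 1 0)) x)) =
          tf hn b (kax ax o) (kax ax κ)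
            (cp T m (strip T m ax (2 * b)) δ (S.sh (-gvec T m (axisVec ax 1 0)) y)) →
        cp T m (ball (roomRad b (o + κ))) Tf x = cp T m (ball (roomRad b (o + κ))) Tf y := by
  have hr : 2 * b ≤ roomRad b (o + κ) := Nat.le_add_right _ _
  have hbW : 2 * (2 * b) ≤ T.W m := by omega
  have hL : InjMod T m (strip T m ax (2 * b)) := injMod_strip hbW
  have hball : InjMod T m (ball (roomRad b (o + κ))) := injMod_ball (by omega)
  have hn4 : 4 ≤ n := by omega
  have hσ := isLocallyConstant_cp hL hδ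
  obtain ⟨u, hu, eu⟩ := realise (L' := (strip T m ax (2 * b)).filter
      (fun v => (T.W m : ℤ) - (roomRad b (o + κ) : ℤ) ≤ lal ax v)) hn4 hL
    (Finset.filter_subset _ _)
    (fun x => tf hn b (kax ax o) (kax ax κ) (cp T m (strip T m ax (2 * b)) δ x))
    (hσ.comp (tf hn b (kax ax o) (kax ax κ)))
    (fun x hx a ha => (hok x hx).tf_fix fun hh => ha (Finset.mem_filter.2 ⟨a.1.2,
      le_of_eq_of_le (by rw [zone_kax]) hh.lt_al⟩))
    (fun x hx => (hok x hx).sign_tf)
  have mu := Fr_mono (Finset.filter_subset _ _) hu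
  have hsub : ∀ v ∈ (strip T m ax (2 * b)).filter
      (fun v => (T.W m : ℤ) - (roomRad b (o + κ) : ℤ) ≤ lal ax v),
      v - gvec T m (axisVec ax 1 0) ∈ ball (roomRad b (o + κ)) := by
    intro v hv
    rw [Finset.mem_filter] at hv
    obtain ⟨a, r, rfl, ha, hr⟩ := exists_axisVec hv.1
    rw [lal_axisVec] at hv
    simp only [ball, Finset.mem_product, Finset.mem_Ico]
    cases ax <;> simp [gvec, axisVec] <;> omega
  have hbmem : u ∈ Fr T m (ball (roomRad b (o + κ))) := by
    rw [← Fr_shift _ (axisVec ax 1 0)] at hu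
    refine Fr_mono (fun w hw => ?_) hu
    obtain ⟨v, hv, rfl⟩ := Finset.mem_image.1 hw
    exact hsub v hv
  refine ⟨u, mu, hbmem, ?_, eu, fun x hx y hy h => ?_⟩
  · refine movesIn_of_cp hL mu fun x hx a ha => ?_
    rw [eu x hx]
    exact EdgeOK.tf_fix (hok x hx) fun hh => ha (far_cell hbW hb hW hh)
  · have hneg : -gvec T m (axisVec ax 1 0) = gvec T m (-(axisVec ax 1 0)) := by simp [gvec]
    have hz : ∀ z ∈ base T m, S.sh (-gvec T m (axisVec ax 1 0)) z ∈ base T m := fun z hz => by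
      rw [hneg]; exact sh_gvec_mem _ hz
    refine cp_shift_congr hL hball (Finset.filter_subset _ _) (axisVec ax 1 0) hsub hu hx hy ?_
    rw [eu _ (hz x hx), eu _ (hz y hy)]
    exact h

/-- An arm is a side element, two corner elements and slot swaps. -/
theorem exists_arm (ax : Bool) {δ : UGroup S n} (hδ : δ ∈ Fr T m (strip T m ax (2 * b)))
    (hb : 2 ≤ b) (hW : 4 * (roomRad b (o + κ) + 1) ≤ T.W m)
    (hok : ∀ x ∈ base T m,
      EdgeOK hn b (kax ax o) (kax ax κ) (cp T m (strip T m ax (2 * b)) δ x)) :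
    ∃ H Tn Tf Xe : UGroup S n, δ = H * Tn * Tf * Xe ∧
      H ∈ Fr T m (face T m) ∧ H ∈ Fr T m (strip T m ax (2 * b)) ∧
      MovesIn T m H (fun c _ => ConeP T m ax c) ∧
      Tn ∈ Fr T m (ball (roomRad b (o + κ))) ∧ Tf ∈ Fr T m (ball (roomRad b (o + κ))) ∧
      MovesIn T m (Tn * Tf) (fun c k => ConeP T m ax c ∧ Room T m hn b (o + κ) c k) ∧
      IsSlots T m hn b o κ ax Xe ∧
      MovesIn T m Xe (SlotPh T m hn ax b (kax ax o) (kax ax κ)) ∧
      ∀ x ∈ base T m, ∀ y ∈ base T m,
        tn hn b (kax ax o) (kax ax κ) (cp T m (strip T m ax (2 * b)) δ x) =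
          tn hn b (kax ax o) (kax ax κ) (cp T m (strip T m ax (2 * b)) δ y) →
        tf hn b (kax ax o) (kax ax κ)
            (cp T m (strip T m ax (2 * b)) δ (S.sh (-gvec T m (axisVec ax 1 0)) x)) =
          tf hn b (kax ax o) (kax ax κ)
            (cp T m (strip T m ax (2 * b)) δ (S.sh (-gvec T m (axisVec ax 1 0)) y)) →
        cp T m (ball (roomRad b (o + κ))) (Tn * Tf) x =
          cp T m (ball (roomRad b (o + κ))) (Tn * Tf) y := by
  have hr : 2 * b ≤ roomRad b (o + κ) := Nat.le_add_right _ _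
  have hbW : 2 * (2 * b) ≤ T.W m := by omega
  have hL : InjMod T m (strip T m ax (2 * b)) := injMod_strip hbW
  have hball : InjMod T m (ball (roomRad b (o + κ))) := injMod_ball (by omega)
  obtain ⟨H, hHf, hH, hHm, eH⟩ := exists_side ax hδ hW hok
  obtain ⟨Tn, hN, bN, mN, eN, cN⟩ := exists_near ax hδ hb hW hok
  obtain ⟨Tf, hF, bF, mF, eF, cF⟩ := exists_far ax hδ hb hW hok
  obtain ⟨Xe, hX, eX⟩ := realise (L' := strip T m ax (2 * b)) (show 4 ≤ n by omega) hL le_rfl
    (fun _ => flipPerm hn b (kax ax o) (kax ax κ)) (IsLocallyConstant.const _)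
    (fun x hx a ha => absurd a.1.2 ha)
    (fun x hx => sign_flipPerm (hok x hx).hB (by
      have := zone_kax (ax := ax) b o κ; simp only [zone] at this; omega))
  refine ⟨H, Tn, Tf, Xe, ?_, hHf, hH, hHm, bN, bF, mN.mul mF, ⟨hX, eX⟩, ?_,
    fun x hx y hy hn' hf' => ?_⟩
  · refine Fr_ext hL hδ (mul_mem (mul_mem (mul_mem hH hN) hF) hX) fun x hx => ?_
    rw [cp_mul hL (mul_mem (mul_mem hH hN) hF) hX, cp_mul hL (mul_mem hH hN) hF, cp_mul hL hH hN,
      eH x hx, eN x hx, eF x hx, eX x hx]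
    exact eq_straight
  · refine movesIn_of_cp hL hX fun x hx a ha => ?_
    rw [eX x hx, flipPerm_apply]
    by_contra hc
    exact ha (slotPh_of_flip hc)
  · rw [cp_mul hball bN bF, cp_mul hball bN bF, cN x hx y hy hn', cF x hx y hy hf']

end arm

end Vale.Agent.P196.Full.Kernel
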